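import Mathlib

/-!
Row 227 (S0351), module `Adic`: rings complete for an ideal, evaluation of power series (in finitely
many variables) at topologically nilpotent points. Everything is algebraic: a ring homomorphism out
of a power series ring that sends the variables into `Nil` is determined by its values on the
constants and on the variables (`hom_ext`), so no continuity hypotheses are ever needed.
-/

set_option autoImplicit false
set_option linter.unusedSectionVars false
set_option linter.style.haveILetI false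

namespace Crest.Agent.R227

open MvPowerSeries

/-- A commutative ring with an ideal for which it is complete and separated. -/
class Adic (A : Type*) [CommRing A] where
  I : Ideal A
  complete : IsAdicComplete I A

/-- The ideal of definition. -/
abbrev idl (A : Type*) [CommRing A] [Adic A] : Ideal A := Adic.I

instance (A : Type*) [CommRing A] [Adic A] : IsAdicComplete (idl A) A := Adic.complete

/-- The topologically nilpotent elements. -/
def Nil (A : Type*) [CommRing A] [Adic A] : Ideal A := (idl A).radical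

/-- The discrete structure (`Nil` is the nilradical). Use it with `letI := Adic.discrete R`. -/
@[reducible] def Adic.discrete (A : Type*) [CommRing A] : Adic A := ⟨⊥, inferInstance⟩

/-- `φ` maps topologically nilpotent elements to topologically nilpotent elements. -/
def MapsNil {A B : Type*} [CommRing A] [Adic A] [CommRing B] [Adic B] (φ : A →+* B) : Prop :=
  ∀ a ∈ Nil A, φ a ∈ Nil B

/-- Some power of the ideal `𝔞` lies in the ideal of definition. -/
def Small {A : Type*} [CommRing A] [Adic A] (𝔞 : Ideal A) : Prop := ∃ k : ℕ, 𝔞 ^ k ≤ idl A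

/-- `𝔞` defines the same topology as the ideal of definition. -/
def IsDef {A : Type*} [CommRing A] [Adic A] (𝔞 : Ideal A) : Prop :=
  Small 𝔞 ∧ ∃ k : ℕ, idl A ^ k ≤ 𝔞

/-- The ideal `J` is closed. -/
def Closed {A : Type*} [CommRing A] [Adic A] (J : Ideal A) : Prop :=
  ∀ x, (∀ k : ℕ, x ∈ J ⊔ idl A ^ k) → x ∈ J

section basic

variable {A B : Type*} [CommRing A] [Adic A] [CommRing B] [Adic B]

theorem idl_le_Nil : idl A ≤ Nil A := Ideal.le_radical

theorem mem_Nil_iff {a : A} : a ∈ Nil A ↔ ∃ k : ℕ, a ^ k ∈ idl A := Iff.rfl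

theorem mem_Nil_of_pow {a : A} {k : ℕ} (h : a ^ k ∈ Nil A) : a ∈ Nil A :=
  Ideal.mem_radical_of_pow_mem h

theorem mem_Nil_of_isNilpotent {a : A} (h : IsNilpotent a) : a ∈ Nil A := by
  obtain ⟨k, hk⟩ := h
  exact ⟨k, by rw [hk]; exact Ideal.zero_mem _⟩

theorem pow_mem_Nil {a : A} (h : a ∈ Nil A) {k : ℕ} (hk : k ≠ 0) : a ^ k ∈ Nil A :=
  Ideal.pow_mem_of_mem _ h k (Nat.pos_of_ne_zero hk)

theorem mem_Nil_discrete {R : Type*} [CommRing R] {a : R} :
    a ∈ @Nil R _ (Adic.discrete R) ↔ IsNilpotent a := Iff.rfl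

theorem MapsNil.id : MapsNil (RingHom.id A) := fun _ h => h

theorem MapsNil.comp {D : Type*} [CommRing D] [Adic D] {ψ : B →+* D} {φ : A →+* B}
    (hψ : MapsNil ψ) (hφ : MapsNil φ) : MapsNil (ψ.comp φ) := fun a h => hψ _ (hφ a h)

theorem mapsNil_of_idl {φ : A →+* B} (h : ∀ a ∈ idl A, φ a ∈ Nil B) : MapsNil φ := by
  rintro a ⟨k, hk⟩
  exact mem_Nil_of_pow (k := k) (by rw [← map_pow]; exact h _ hk)

theorem eq_zero_of_mem_idl_pow {x : A} (h : ∀ k : ℕ, x ∈ idl A ^ k) : x = 0 :=
  IsHausdorff.haus' (I := idl A) x fun k => by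
    rw [SModEq.zero, smul_eq_mul, Ideal.mul_top]
    exact h k

theorem Small.le_Nil {𝔞 : Ideal A} (h : Small 𝔞) : 𝔞 ≤ Nil A := by
  obtain ⟨k, hk⟩ := h
  exact fun a ha => ⟨k, hk (Ideal.pow_mem_pow ha k)⟩

theorem Small.mono {𝔞 𝔟 : Ideal A} (h : Small 𝔟) (hab : 𝔞 ≤ 𝔟) : Small 𝔞 := by
  obtain ⟨k, hk⟩ := h
  exact ⟨k, (Ideal.pow_right_mono hab k).trans hk⟩

theorem small_idl : Small (idl A) := ⟨1, by rw [pow_one]⟩

theorem small_of_fg {𝔞 : Ideal A} (hfg : 𝔞.FG) (h : 𝔞 ≤ Nil A) : Small 𝔞 :=
  Ideal.exists_pow_le_of_le_radical_of_fg h hfg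

theorem small_span_range {σ : Type*} [Finite σ] {a : σ → A} (ha : ∀ i, a i ∈ Nil A) :
    Small (Ideal.span (Set.range a)) :=
  small_of_fg (Submodule.fg_span (Set.finite_range a))
    (Ideal.span_le.2 (by rintro _ ⟨i, rfl⟩; exact ha i))

theorem small_span_singleton {a : A} (ha : a ∈ Nil A) : Small (Ideal.span {a}) :=
  small_of_fg (Submodule.fg_span (Set.finite_singleton a))
    (Ideal.span_le.2 (by rintro _ rfl; exact ha))

theorem Small.sup {𝔞 𝔟 : Ideal A} (ha : Small 𝔞) (hb : Small 𝔟) : Small (𝔞 ⊔ 𝔟) := by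
  obtain ⟨k, hk⟩ := ha
  obtain ⟨l, hl⟩ := hb
  exact ⟨k + l, Ideal.sup_pow_add_le_pow_sup_pow.trans (sup_le hk hl)⟩

theorem Small.pow_le {𝔞 : Ideal A} (h : Small 𝔞) (k : ℕ) :
    ∃ N : ℕ, ∀ N' ≥ N, 𝔞 ^ N' ≤ idl A ^ k := by
  obtain ⟨l, hl⟩ := h
  refine ⟨l * k, fun N' hN => (Ideal.pow_le_pow_right hN).trans ?_⟩
  rw [pow_mul]
  exact Ideal.pow_right_mono hl k

theorem Small.eq_zero {𝔞 : Ideal A} (h : Small 𝔞) {x : A} (hx : ∀ N : ℕ, x ∈ 𝔞 ^ N) : x = 0 :=
  eq_zero_of_mem_idl_pow fun k => by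
    obtain ⟨N, hN⟩ := h.pow_le k
    exact hN N le_rfl (hx N)

theorem Closed.mem_of_small {J 𝔞 : Ideal A} (hJ : Closed J) (h : Small 𝔞) {x : A}
    (hx : ∀ N : ℕ, x ∈ J ⊔ 𝔞 ^ N) : x ∈ J :=
  hJ x fun k => by
    obtain ⟨N, hN⟩ := h.pow_le k
    exact sup_le_sup_left (hN N le_rfl) J (hx N)

theorem closed_bot : Closed (⊥ : Ideal A) := fun x hx => by
  simp only [bot_sup_eq] at hx
  exact (eq_zero_of_mem_idl_pow hx).symm ▸ Ideal.zero_mem _

theorem closed_of_pow_le {J : Ideal A} {k : ℕ} (h : idl A ^ k ≤ J) : Closed J := fun x hx => by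
  have := hx k
  rwa [sup_eq_left.2 h] at this

theorem isDef_idl : IsDef (idl A) := ⟨small_idl, 1, by rw [pow_one]⟩

theorem IsDef.closed_pow {𝔞 : Ideal A} (h : IsDef 𝔞) (j : ℕ) : Closed (𝔞 ^ j) := by
  obtain ⟨k, hk⟩ := h.2
  refine closed_of_pow_le (k := k * j) ?_
  rw [pow_mul]
  exact Ideal.pow_right_mono hk j

theorem IsDef.closed {𝔞 : Ideal A} (h : IsDef 𝔞) : Closed 𝔞 := by
  simpa using h.closed_pow 1

/-- A sequence that is Cauchy for the ideal of definition converges. -/
theorem exists_lim (x : ℕ → A) (hx : ∀ k : ℕ, ∃ N, ∀ j ≥ N, x (j + 1) - x j ∈ idl A ^ k) :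
    ∃ y : A, ∀ k : ℕ, ∃ N, ∀ j ≥ N, y - x j ∈ idl A ^ k := by
  choose N hN using hx
  have h1 : ∀ k j l, N k ≤ j → j ≤ l → x l - x j ∈ idl A ^ k := by
    intro k j l hj hl
    induction l, hl using Nat.le_induction with
    | base => simp
    | succ l hl ih =>
      have := Ideal.add_mem _ (hN k l (hj.trans hl)) ih
      rwa [sub_add_sub_cancel] at this
  let M : ℕ → ℕ := fun k => (Finset.Iic k).sup N
  have hM : ∀ k l, k ≤ l → N k ≤ M l := fun k l h => Finset.le_sup (f := N) (by simpa using h)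
  have hMm : ∀ k l, k ≤ l → M k ≤ M l := fun k l h =>
    Finset.sup_mono (Finset.Iic_subset_Iic.2 h)
  obtain ⟨L, hL⟩ := IsPrecomplete.prec' (I := idl A) (fun k => x (M k)) (by
    intro m n hmn
    rw [SModEq.sub_mem, smul_eq_mul, Ideal.mul_top, ← neg_sub]
    exact neg_mem (h1 m _ _ (hM m m le_rfl) (hMm m n hmn)))
  refine ⟨L, fun k => ⟨M k, fun j hj => ?_⟩⟩
  have h2 := hL k
  rw [SModEq.sub_mem, smul_eq_mul, Ideal.mul_top] at h2
  have h3 := Ideal.add_mem _ h2 (h1 k _ _ (hM k k le_rfl) hj)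
  have : L - x j = -(x (M k) - L + (x j - x (M k))) := by ring
  rw [this]
  exact neg_mem h3

/-- Limits along an ideal of definition, with the rate. -/
theorem IsDef.exists_lim {𝔞 : Ideal A} (h : IsDef 𝔞) (x : ℕ → A)
    (hx : ∀ j, x (j + 1) - x j ∈ 𝔞 ^ (j + 1)) : ∃ y : A, ∀ j, y - x j ∈ 𝔞 ^ (j + 1) := by
  obtain ⟨y, hy⟩ := R227.exists_lim x (fun k => by
    obtain ⟨N, hN⟩ := h.1.pow_le k
    exact ⟨N, fun j hj => hN (j + 1) (by omega) (hx j)⟩)
  refine ⟨y, fun j => h.closed_pow (j + 1) _ fun k => ?_⟩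
  obtain ⟨N, hN⟩ := hy k
  have h1 : ∀ l, j ≤ l → x l - x j ∈ 𝔞 ^ (j + 1) := by
    intro l hl
    induction l, hl using Nat.le_induction with
    | base => simp
    | succ l hl ih =>
      have := Ideal.add_mem _ (Ideal.pow_le_pow_right (by omega : j + 1 ≤ l + 1) (hx l)) ih
      rwa [sub_add_sub_cancel] at this
  have : y - x j = (x (max j N) - x j) + (y - x (max j N)) := by ring
  rw [this]
  exact Submodule.add_mem_sup (h1 _ (le_max_left _ _)) (hN _ (le_max_right _ _))

theorem IsDef.isAdicComplete {𝔞 : Ideal A} (h : IsDef 𝔞) : IsAdicComplete 𝔞 A where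
  haus' x hx := h.1.eq_zero fun N => by
    have := hx N
    rwa [SModEq.zero, smul_eq_mul, Ideal.mul_top] at this
  prec' f hf := by
    obtain ⟨y, hy⟩ := h.exists_lim (fun j => f (j + 1)) fun j => by
      have := hf (Nat.le_succ (j + 1))
      rw [SModEq.sub_mem, smul_eq_mul, Ideal.mul_top, ← neg_sub] at this
      exact (neg_mem_iff.1 this)
    refine ⟨y, fun n => ?_⟩
    rw [SModEq.sub_mem, smul_eq_mul, Ideal.mul_top]
    cases n with
    | zero => simp
    | succ n =>
      rw [← neg_sub]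
      exact neg_mem (hy n)

theorem isUnit_one_add {a : A} (ha : a ∈ Nil A) : IsUnit (1 + a) := by
  have h1 : Nil A ≤ Ideal.jacobson ⊥ := by
    have := IsAdicComplete.le_jacobson_bot (idl A)
    exact (Ideal.radical_mono this).trans (Ideal.isRadical_jacobson _)
  have := Ideal.mem_jacobson_bot.1 (h1 ha) 1
  rwa [mul_one, add_comm] at this

theorem isUnit_of_sub_mem_Nil {u v : A} (hv : IsUnit v) (h : u - v ∈ Nil A) : IsUnit u := by
  obtain ⟨w, rfl⟩ := hv
  have h1 := isUnit_one_add (Ideal.mul_mem_left _ (↑w⁻¹ : A) h)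
  have : u = w * (1 + ↑w⁻¹ * (u - w)) := by
    rw [mul_add, mul_one, ← mul_assoc, Units.mul_inv, one_mul, add_sub_cancel]
  rw [this]
  exact w.isUnit.mul h1

end basic

/-! ### power series rings -/

section series

variable {R : Type*} [CommRing R] {σ : Type*} [Finite σ]

/-- Split off the constant term. -/
theorem exists_eq_C_add_sum [Fintype σ] (f : MvPowerSeries σ R) :
    ∃ g : σ → MvPowerSeries σ R, f = C (constantCoeff f) + ∑ i, X i * g i ∧
      ∀ i β, coeff β (g i) = 0 ∨ coeff β (g i) = coeff (β + Finsupp.single i 1) f := by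
  classical
  have hch : ∀ α : σ →₀ ℕ, α ≠ 0 → ∃ i, α i ≠ 0 := fun α hα => by
    by_contra h
    push Not at h
    exact hα (Finsupp.ext h)
  choose ix hix using hch
  let g : σ → MvPowerSeries σ R := fun i β =>
    if ix (β + Finsupp.single i 1) (by
      intro h
      have := DFunLike.congr_fun h i
      simp at this) = i then coeff (β + Finsupp.single i 1) f else 0
  have hg : ∀ i β, coeff β (g i) = if ix (β + Finsupp.single i 1) (by
      intro h
      have := DFunLike.congr_fun h i
      simp at this) = i then coeff (β + Finsupp.single i 1) f else 0 := fun _ _ => rfl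
  refine ⟨g, ?_, fun i β => ?_⟩
  · ext α
    rw [map_add, map_sum, coeff_C]
    by_cases hα : α = 0
    · subst hα
      simp [coeff_zero_X_mul]
    · rw [if_neg hα, zero_add, Finset.sum_eq_single (ix α hα)]
      · have hle : Finsupp.single (ix α hα) 1 ≤ α := by
          rw [Finsupp.single_le_iff]
          exact Nat.one_le_iff_ne_zero.2 (hix α hα)
        rw [X_def, coeff_monomial_mul, if_pos hle, one_mul, hg]
        simp only [tsub_add_cancel_of_le hle, if_true]
      · intro i _ hi
        rw [X_def, coeff_monomial_mul]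
        split_ifs with hle
        · rw [one_mul, hg]
          simp only [tsub_add_cancel_of_le hle]
          rw [if_neg (Ne.symm hi)]
        · rfl
      · simp
  · rw [hg]
    split_ifs
    · exact Or.inr rfl
    · exact Or.inl rfl

theorem mem_comap_pow_iff (I : Ideal R) (N : ℕ) (f : MvPowerSeries σ R) :
    f ∈ (I.comap (constantCoeff : MvPowerSeries σ R →+* R)) ^ N ↔
      ∀ α : σ →₀ ℕ, coeff α f ∈ I ^ (N - α.degree) := by
  classical
  cases nonempty_fintype σ
  induction N generalizing f with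
  | zero => simp
  | succ N ih =>
    constructor
    · intro hf
      rw [pow_succ] at hf
      refine Submodule.mul_induction_on hf (fun a ha b hb α => ?_) (fun a b ha hb α => ?_)
      · rw [coeff_mul]
        refine Ideal.sum_mem _ fun c hc => ?_
        have hc' : c.1.degree + c.2.degree = α.degree := by
          rw [← map_add, Finset.HasAntidiagonal.mem_antidiagonal.1 hc]
        have h1 := (ih a).1 ha c.1
        by_cases h2 : c.2 = 0
        · have h3 : coeff c.2 b ∈ I := by
            rw [h2]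
            exact hb
          have h4 := Ideal.mul_mem_mul h1 h3
          rw [← pow_succ] at h4
          rw [h2, map_zero] at hc'
          exact Ideal.pow_le_pow_right (by omega) h4
        · have h3 : 1 ≤ c.2.degree := by
            rw [Nat.one_le_iff_ne_zero, Ne, Finsupp.degree_eq_zero_iff]
            exact h2
          exact Ideal.mul_mem_right _ _ (Ideal.pow_le_pow_right (by omega) h1)
      · rw [map_add]
        exact Ideal.add_mem _ (ha α) (hb α)
    · intro hf
      obtain ⟨g, hg, hg'⟩ := exists_eq_C_add_sum f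
      rw [hg]
      refine Ideal.add_mem _ ?_ (Ideal.sum_mem _ fun i _ => ?_)
      · have h0 := hf 0
        rw [map_zero, Nat.sub_zero, coeff_zero_eq_constantCoeff] at h0
        have h1 : I.map (C : R →+* MvPowerSeries σ R) ≤ I.comap constantCoeff := by
          rw [Ideal.map_le_iff_le_comap]
          intro r hr
          simpa using hr
        have h2 := Ideal.mem_map_of_mem (C : R →+* MvPowerSeries σ R) h0
        rw [Ideal.map_pow] at h2
        exact Ideal.pow_right_mono h1 _ h2
      · rw [pow_succ']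
        refine Ideal.mul_mem_mul (by simp) ((ih _).2 fun β => ?_)
        rcases hg' i β with h | h
        · rw [h]
          exact Ideal.zero_mem _
        · rw [h]
          have := hf (β + Finsupp.single i 1)
          rw [map_add, Finsupp.degree_single] at this
          rwa [show N + 1 - (β.degree + 1) = N - β.degree by omega] at this

theorem span_range_X : Ideal.span (Set.range (X : σ → MvPowerSeries σ R)) =
    (⊥ : Ideal R).comap (constantCoeff : MvPowerSeries σ R →+* R) := by
  cases nonempty_fintype σ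
  apply le_antisymm
  · rw [Ideal.span_le]
    rintro _ ⟨i, rfl⟩
    simp
  · intro f hf
    obtain ⟨g, hg, -⟩ := exists_eq_C_add_sum f
    have h0 : constantCoeff f = 0 := hf
    rw [hg, h0, map_zero, zero_add]
    exact Ideal.sum_mem _ fun i _ => Ideal.mul_mem_right _ _ (Ideal.subset_span ⟨i, rfl⟩)

theorem mem_span_X_pow_iff (N : ℕ) (f : MvPowerSeries σ R) :
    f ∈ Ideal.span (Set.range (X : σ → MvPowerSeries σ R)) ^ N ↔
      ∀ α : σ →₀ ℕ, α.degree < N → coeff α f = 0 := by
  rw [span_range_X, mem_comap_pow_iff]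
  refine forall_congr' fun α => ⟨fun h hα => ?_, fun h => ?_⟩
  · rwa [Ideal.bot_pow (by omega), Ideal.mem_bot] at h
  · by_cases hα : α.degree < N
    · rw [h hα]
      exact Ideal.zero_mem _
    · rw [show N - α.degree = 0 by omega]
      simp

theorem sub_truncTotal_mem (N : ℕ) (f : MvPowerSeries σ R) :
    f - (truncTotal N f : MvPolynomial σ R) ∈
      Ideal.span (Set.range (X : σ → MvPowerSeries σ R)) ^ N := by
  rw [mem_span_X_pow_iff]
  intro α hα
  rw [map_sub, MvPolynomial.coeff_coe, coeff_truncTotal _ hα, sub_self]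

theorem isAdicComplete_comap (I : Ideal R) [IsAdicComplete I R] :
    IsAdicComplete (I.comap (constantCoeff : MvPowerSeries σ R →+* R)) (MvPowerSeries σ R) where
  haus' f hf := by
    ext α
    refine IsHausdorff.haus' (I := I) _ fun k => ?_
    have := hf (k + α.degree)
    rw [SModEq.zero, smul_eq_mul, Ideal.mul_top, mem_comap_pow_iff] at this
    rw [SModEq.zero, smul_eq_mul, Ideal.mul_top]
    simpa using this α
  prec' f hf := by
    have hc : ∀ α : σ →₀ ℕ, ∃ L : R, ∀ k, coeff α (f (k + α.degree)) ≡ L [SMOD I ^ k • (⊤ : Ideal R)] := by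
      intro α
      refine IsPrecomplete.prec' (I := I) _ fun {m n} hmn => ?_
      have := hf (show m + α.degree ≤ n + α.degree by omega)
      rw [SModEq.sub_mem, smul_eq_mul, Ideal.mul_top, mem_comap_pow_iff] at this
      rw [SModEq.sub_mem, smul_eq_mul, Ideal.mul_top]
      simpa using this α
    choose L hL using hc
    refine ⟨L, fun n => ?_⟩
    rw [SModEq.sub_mem, smul_eq_mul, Ideal.mul_top, mem_comap_pow_iff]
    intro α
    by_cases h : α.degree ≤ n
    · have := hL α (n - α.degree)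
      rw [SModEq.sub_mem, smul_eq_mul, Ideal.mul_top, Nat.sub_add_cancel h] at this
      rw [map_sub]
      exact this
    · rw [show n - α.degree = 0 by omega]
      simp

end series

noncomputable instance instAdicMv {A : Type*} [CommRing A] [Adic A] {σ : Type*} [Finite σ] :
    Adic (MvPowerSeries σ A) :=
  ⟨(idl A).comap constantCoeff, isAdicComplete_comap _⟩

section ev

variable {A B : Type*} [CommRing A] [Adic A] [CommRing B] [Adic B]
variable {σ τ : Type*} [Finite σ] [Finite τ]

theorem idl_mv : idl (MvPowerSeries σ A) = (idl A).comap constantCoeff := rfl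

theorem mem_Nil_mv {f : MvPowerSeries σ A} : f ∈ Nil (MvPowerSeries σ A) ↔
    constantCoeff f ∈ Nil A := by
  simp only [mem_Nil_iff, idl_mv, Ideal.mem_comap, map_pow]

theorem mem_Nil_of_constantCoeff {f : MvPowerSeries σ A} (h : constantCoeff f = 0) :
    f ∈ Nil (MvPowerSeries σ A) := by
  rw [mem_Nil_mv, h]
  exact Ideal.zero_mem _

theorem X_mem_Nil (i : σ) : (X i : MvPowerSeries σ A) ∈ Nil (MvPowerSeries σ A) :=
  mem_Nil_of_constantCoeff (constantCoeff_X i)

theorem mapsNil_C : MapsNil (C : A →+* MvPowerSeries σ A) := fun a h => by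
  rwa [mem_Nil_mv, constantCoeff_C]

theorem mapsNil_constantCoeff : MapsNil (constantCoeff : MvPowerSeries σ A →+* A) :=
  fun _ h => mem_Nil_mv.1 h

theorem MapsNil.map {φ : A →+* B} (hφ : MapsNil φ) :
    MapsNil (MvPowerSeries.map (σ := σ) φ) := fun f h => by
  rw [mem_Nil_mv, constantCoeff_map]
  exact hφ _ (mem_Nil_mv.1 h)

/-- A ring homomorphism out of a power series ring is the evaluation of truncations, up to powers
of the ideal spanned by the images of the variables. -/
theorem hom_sub_trunc_mem {R S : Type*} [CommRing R] [CommRing S] (ψ : MvPowerSeries σ R →+* S)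
    (N : ℕ) (f : MvPowerSeries σ R) :
    ψ f - MvPolynomial.eval₂ (ψ.comp C) (fun i => ψ (X i)) (truncTotal N f) ∈
      Ideal.span (Set.range fun i => ψ (X i)) ^ N := by
  have h1 := Ideal.mem_map_of_mem ψ (sub_truncTotal_mem N f)
  rw [Ideal.map_pow, Ideal.map_span, ← Set.range_comp, map_sub] at h1
  have h2 : ∀ q : MvPolynomial σ R,
      ψ q = MvPolynomial.eval₂ (ψ.comp C) (fun i => ψ (X i)) q := by
    intro q
    have : ψ.comp MvPolynomial.coeToMvPowerSeries.ringHom =
        MvPolynomial.eval₂Hom (ψ.comp C) (fun i => ψ (X i)) := by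
      ext <;> simp
    exact DFunLike.congr_fun this q
  rwa [h2] at h1

/-- Ring homomorphisms out of a power series ring that send the variables into `Nil` are determined
by their values on constants and variables. -/
theorem hom_ext {R : Type*} [CommRing R] {ψ ψ' : MvPowerSeries σ R →+* B}
    (hN : ∀ i, ψ (X i) ∈ Nil B) (hC : ∀ r, ψ (C r) = ψ' (C r)) (hX : ∀ i, ψ (X i) = ψ' (X i)) :
    ψ = ψ' := by
  ext1 f
  rw [← sub_eq_zero]
  refine (small_span_range hN).eq_zero fun N => ?_
  have h1 := hom_sub_trunc_mem ψ N f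
  have h2 := hom_sub_trunc_mem ψ' N f
  have e1 : ψ'.comp C = ψ.comp C := RingHom.ext fun r => (hC r).symm
  have e2 : (fun i => ψ' (X i)) = fun i => ψ (X i) := funext fun i => (hX i).symm
  rw [e1, e2] at h2
  have := Ideal.sub_mem _ h1 h2
  rwa [sub_sub_sub_cancel_right] at this

theorem exists_evHom (a : σ → A) (ha : ∀ i, a i ∈ Nil A) :
    ∃ ψ : MvPowerSeries σ A →+* A, (∀ r, ψ (C r) = r) ∧ ∀ i, ψ (X i) = a i := by
  let : WithIdeal A := ⟨idl A⟩
  have hI : IsAdic (idl A) := rfl
  have hc := hI.isAdicComplete_iff.1 inferInstance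
  have := hc.1
  have := hc.2
  have he : HasEval a := ⟨fun i => by
      obtain ⟨k, hk⟩ := ha i
      have h1 : IsTopologicallyNilpotent (a i ^ (k + 1)) :=
        WithIdeal.isTopologicallyNilpotent_of_mem (by
          rw [pow_succ]; exact Ideal.mul_mem_right _ _ hk)
      rw [IsTopologicallyNilpotent, hI.hasBasis_nhds_zero.tendsto_right_iff]
      intro m _
      refine Filter.eventually_atTop.2 ⟨k * m, fun n hn => ?_⟩
      obtain ⟨c, rfl⟩ := Nat.exists_eq_add_of_le hn
      rw [pow_add, pow_mul]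
      exact Ideal.mul_mem_right _ _ (Ideal.pow_mem_pow hk m), by
      rw [Filter.cofinite_eq_bot]
      exact Filter.tendsto_bot⟩
  refine ⟨eval₂Hom (φ := RingHom.id A) continuous_id he, fun r => ?_, fun i => ?_⟩
  · rw [coe_eval₂Hom, eval₂_C]
    rfl
  · rw [coe_eval₂Hom, eval₂_X]

/-- Evaluation at a point with coordinates in `Nil A`, as a ring homomorphism. -/
noncomputable def evHom (a : σ → A) (ha : ∀ i, a i ∈ Nil A) : MvPowerSeries σ A →+* A :=
  (exists_evHom a ha).choose

open Classical in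
/-- Evaluation of `F` at the point `a` (meaningful when all `a i ∈ Nil A`). -/
noncomputable def ev (F : MvPowerSeries σ A) (a : σ → A) : A :=
  if h : ∀ i, a i ∈ Nil A then evHom a h F else 0

variable {a : σ → A}

theorem evHom_apply (ha : ∀ i, a i ∈ Nil A) (F : MvPowerSeries σ A) : evHom a ha F = ev F a := by
  rw [ev, dif_pos ha]

theorem ev_C (ha : ∀ i, a i ∈ Nil A) (r : A) : ev (C r) a = r := by
  rw [← evHom_apply ha]
  exact (exists_evHom a ha).choose_spec.1 r

theorem ev_X (ha : ∀ i, a i ∈ Nil A) (i : σ) : ev (X i) a = a i := by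
  rw [← evHom_apply ha]
  exact (exists_evHom a ha).choose_spec.2 i

@[simp] theorem evHom_C (ha : ∀ i, a i ∈ Nil A) (r : A) : evHom a ha (C r) = r := by
  rw [evHom_apply, ev_C ha]

@[simp] theorem evHom_X (ha : ∀ i, a i ∈ Nil A) (i : σ) : evHom a ha (X i) = a i := by
  rw [evHom_apply, ev_X ha]

@[simp] theorem ev_zero (a : σ → A) : ev (0 : MvPowerSeries σ A) a = 0 := by
  unfold ev
  split_ifs <;> simp

theorem ev_add (F G : MvPowerSeries σ A) (a : σ → A) : ev (F + G) a = ev F a + ev G a := by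
  unfold ev
  split_ifs <;> simp

theorem ev_sub (F G : MvPowerSeries σ A) (a : σ → A) : ev (F - G) a = ev F a - ev G a := by
  unfold ev
  split_ifs <;> simp

theorem ev_neg (F : MvPowerSeries σ A) (a : σ → A) : ev (-F) a = -ev F a := by
  unfold ev
  split_ifs <;> simp

theorem ev_mul (F G : MvPowerSeries σ A) (a : σ → A) : ev (F * G) a = ev F a * ev G a := by
  unfold ev
  split_ifs <;> simp

theorem ev_sum {ι : Type*} (s : Finset ι) (F : ι → MvPowerSeries σ A) (a : σ → A) :
    ev (∑ i ∈ s, F i) a = ∑ i ∈ s, ev (F i) a := by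
  unfold ev
  split_ifs <;> simp

theorem ev_one (ha : ∀ i, a i ∈ Nil A) : ev (1 : MvPowerSeries σ A) a = 1 := by
  rw [← evHom_apply ha, map_one]

theorem ev_pow (ha : ∀ i, a i ∈ Nil A) (F : MvPowerSeries σ A) (k : ℕ) :
    ev (F ^ k) a = ev F a ^ k := by
  rw [← evHom_apply ha, map_pow, evHom_apply]

theorem ev_C_mul (ha : ∀ i, a i ∈ Nil A) (r : A) (F : MvPowerSeries σ A) :
    ev (C r * F) a = r * ev F a := by
  rw [ev_mul, ev_C ha]

theorem ev_natCast (ha : ∀ i, a i ∈ Nil A) (m : ℕ) : ev (m : MvPowerSeries σ A) a = m := by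
  rw [← evHom_apply ha, map_natCast]

theorem ev_coe (ha : ∀ i, a i ∈ Nil A) (q : MvPolynomial σ A) :
    ev (q : MvPowerSeries σ A) a = MvPolynomial.eval a q := by
  have : (evHom a ha).comp MvPolynomial.coeToMvPowerSeries.ringHom = MvPolynomial.eval a := by
    ext <;> simp
  rw [← evHom_apply ha]
  exact DFunLike.congr_fun this q

theorem ev_sub_trunc_mem (ha : ∀ i, a i ∈ Nil A) (N : ℕ) (F : MvPowerSeries σ A) :
    ev F a - MvPolynomial.eval a (truncTotal N F) ∈ Ideal.span (Set.range a) ^ N := by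
  have h1 := Ideal.mem_map_of_mem (evHom a ha) (sub_truncTotal_mem N F)
  rw [Ideal.map_pow, Ideal.map_span, ← Set.range_comp, map_sub, evHom_apply, evHom_apply,
    ev_coe ha] at h1
  have : (evHom a ha) ∘ X = a := funext fun i => evHom_X ha i
  rwa [this] at h1

/-- A series of order at least `N` takes values in the `N`-th power of the ideal of the point. -/
theorem ev_mem_pow (ha : ∀ i, a i ∈ Nil A) {N : ℕ} {F : MvPowerSeries σ A}
    (hF : ∀ α : σ →₀ ℕ, α.degree < N → coeff α F = 0) :
    ev F a ∈ Ideal.span (Set.range a) ^ N := by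
  have h1 := Ideal.mem_map_of_mem (evHom a ha) ((mem_span_X_pow_iff N F).2 hF)
  rw [Ideal.map_pow, Ideal.map_span, ← Set.range_comp, evHom_apply] at h1
  have : (evHom a ha) ∘ X = a := funext fun i => evHom_X ha i
  rwa [this] at h1

theorem ev_sub_constantCoeff_mem (ha : ∀ i, a i ∈ Nil A) (F : MvPowerSeries σ A) :
    ev F a - constantCoeff F ∈ Ideal.span (Set.range a) := by
  have h := ev_mem_pow ha (N := 1) (F := F - C (constantCoeff F)) fun α hα => by
    have : α = 0 := by
      rw [← Finsupp.degree_eq_zero_iff]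
      omega
    subst this
    simp
  rwa [pow_one, ev_sub, ev_C ha] at h

/-- First-order Taylor expansion at the origin. -/
theorem ev_sub_linear_mem [Fintype σ] (ha : ∀ i, a i ∈ Nil A) (F : MvPowerSeries σ A) :
    ev F a - (constantCoeff F + ∑ i, coeff (Finsupp.single i 1) F * a i) ∈
      Ideal.span (Set.range a) ^ 2 := by
  classical
  have h := ev_mem_pow ha (N := 2)
    (F := F - (C (constantCoeff F) + ∑ i, C (coeff (Finsupp.single i 1) F) * X i)) fun α hα => by
    rw [map_sub, map_add, map_sum, coeff_C]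
    simp only [coeff_C_mul, coeff_X]
    by_cases h0 : α = 0
    · subst h0
      simp [eq_comm (a := (0 : σ →₀ ℕ))]
    · have h1 : α.degree = 1 := by
        have : α.degree ≠ 0 := by rwa [Ne, Finsupp.degree_eq_zero_iff]
        omega
      obtain ⟨i, rfl⟩ : ∃ i, α = Finsupp.single i 1 := by
        have := (Finsupp.sum_eq_one_iff α).1 h1
        exact this
      rw [if_neg h0, zero_add, Finset.sum_eq_single i]
      · simp
      · intro j _ hj
        rw [if_neg, mul_zero]
        rw [Finsupp.single_left_inj one_ne_zero]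
        exact Ne.symm hj
      · simp
  rw [ev_sub, ev_add, ev_C ha, ev_sum] at h
  simpa only [ev_C_mul ha, ev_X ha] using h

theorem ev_mem_of_mem {J : Ideal A} (ha : ∀ i, a i ∈ Nil A) (haJ : ∀ i, a i ∈ J)
    {F : MvPowerSeries σ A} (hF : constantCoeff F ∈ J) : ev F a ∈ J := by
  have h1 : Ideal.span (Set.range a) ≤ J := Ideal.span_le.2 (by rintro _ ⟨i, rfl⟩; exact haJ i)
  have := Ideal.add_mem _ (h1 (ev_sub_constantCoeff_mem ha F)) hF
  rwa [sub_add_cancel] at this

theorem ev_mem_Nil (ha : ∀ i, a i ∈ Nil A) {F : MvPowerSeries σ A}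
    (hF : constantCoeff F ∈ Nil A) : ev F a ∈ Nil A := ev_mem_of_mem ha ha hF

theorem ev_at_zero (F : MvPowerSeries σ A) : ev F (fun _ => 0) = constantCoeff F := by
  have h := ev_sub_constantCoeff_mem (a := fun _ : σ => (0 : A)) (fun _ => Ideal.zero_mem _) F
  have h2 : Ideal.span (Set.range fun _ : σ => (0 : A)) ≤ ⊥ :=
    Ideal.span_le.2 (by rintro _ ⟨i, rfl⟩; simp)
  exact sub_eq_zero.1 (h2 h)

theorem mapsNil_evHom (ha : ∀ i, a i ∈ Nil A) : MapsNil (evHom a ha) := fun F hF => by
  rw [evHom_apply]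
  exact ev_mem_Nil ha (mem_Nil_mv.1 hF)

/-- Naturality of evaluation for an arbitrary ring homomorphism. -/
theorem map_ev (φ : A →+* B) (ha : ∀ i, a i ∈ Nil A) (hb : ∀ i, φ (a i) ∈ Nil B)
    (F : MvPowerSeries σ A) : φ (ev F a) = ev (MvPowerSeries.map φ F) (fun i => φ (a i)) := by
  have : φ.comp (evHom a ha) = (evHom _ hb).comp (MvPowerSeries.map φ) :=
    hom_ext (fun i => by simpa using hb i) (fun r => by simp) (fun i => by simp)
  rw [← evHom_apply ha, ← evHom_apply hb]
  exact DFunLike.congr_fun this F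

/-- Any homomorphism out of a power series ring is an evaluation. -/
theorem hom_eq_ev {R : Type*} [CommRing R] (ψ : MvPowerSeries σ R →+* B)
    (hN : ∀ i, ψ (X i) ∈ Nil B) (F : MvPowerSeries σ R) :
    ψ F = ev (MvPowerSeries.map (ψ.comp C) F) (fun i => ψ (X i)) := by
  have : ψ = (evHom _ hN).comp (MvPowerSeries.map (ψ.comp C)) :=
    hom_ext hN (fun r => by simp) (fun i => by simp)
  rw [← evHom_apply hN]
  exact DFunLike.congr_fun this F

theorem ev_map_C_X (F : MvPowerSeries σ A) :
    ev (MvPowerSeries.map (C : A →+* MvPowerSeries σ A) F) X = F := by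
  have := hom_eq_ev (RingHom.id (MvPowerSeries σ A)) (fun i => X_mem_Nil i) F
  exact this.symm

/-- Substitution is evaluation in the power series ring. -/
theorem subst_eq_ev {b : σ → MvPowerSeries τ A} (hb : HasSubst b) (F : MvPowerSeries σ A) :
    subst b F = ev (MvPowerSeries.map C F) b := by
  have hN : ∀ i, b i ∈ Nil (MvPowerSeries τ A) := fun i =>
    mem_Nil_mv.2 (mem_Nil_of_isNilpotent (hb.const_coeff i))
  have h := hom_eq_ev (substAlgHom (R := A) hb).toRingHom
    (fun i => by simpa [subst_X hb] using hN i) F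
  have e1 : (substAlgHom (R := A) hb).toRingHom.comp C = C := by
    ext1 r
    simp [subst_C]
  have e2 : (fun i => (substAlgHom (R := A) hb).toRingHom (X i)) = b :=
    funext fun i => by simp [subst_X hb]
  rw [e1, e2] at h
  simpa using h

/-- Evaluating an evaluation in a power series ring. -/
theorem ev_ev {c : τ → A} (hc : ∀ j, c j ∈ Nil A) {b : σ → MvPowerSeries τ A}
    (hb : ∀ i, b i ∈ Nil (MvPowerSeries τ A)) (F : MvPowerSeries σ A) :
    ev (ev (MvPowerSeries.map C F) b) c = ev F (fun i => ev (b i) c) := by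
  have h := map_ev (evHom c hc) hb (fun i => mapsNil_evHom hc _ (hb i)) (MvPowerSeries.map C F)
  have e : (evHom c hc).comp C = RingHom.id A := RingHom.ext fun r => by simp
  rw [map_map, e, map_id] at h
  simpa only [evHom_apply, RingHom.id_apply] using h

theorem ev_subst {c : τ → A} (hc : ∀ j, c j ∈ Nil A) {b : σ → MvPowerSeries τ A}
    (hb : HasSubst b) (F : MvPowerSeries σ A) :
    ev (subst b F) c = ev F (fun i => ev (b i) c) := by
  rw [subst_eq_ev hb, ev_ev hc fun i => mem_Nil_mv.2 (mem_Nil_of_isNilpotent (hb.const_coeff i))]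

/-- Dependence on the point. -/
theorem ev_sub_ev_mem {a' : σ → A} (ha : ∀ i, a i ∈ Nil A) (ha' : ∀ i, a' i ∈ Nil A)
    {J : Ideal A} (h : ∀ i, a i - a' i ∈ J) (F : MvPowerSeries σ A) : ev F a - ev F a' ∈ J := by
  have hd : ∀ i, a i - a' i ∈ Nil A := fun i => Ideal.sub_mem _ (ha i) (ha' i)
  have hb : ∀ i, (C (a' i) + X i : MvPowerSeries σ A) ∈ Nil (MvPowerSeries σ A) := fun i =>
    Ideal.add_mem _ (mapsNil_C _ (ha' i)) (X_mem_Nil i)
  have h1 := ev_ev (c := fun i => a i - a' i) hd hb F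
  have h2 := ev_ev (c := fun _ => (0 : A)) (fun _ => Ideal.zero_mem _) hb F
  simp only [ev_add, ev_C hd, ev_X hd, add_sub_cancel] at h1
  simp only [ev_at_zero, map_add, constantCoeff_C, constantCoeff_X, add_zero] at h2
  have h3 := ev_sub_constantCoeff_mem hd (ev (MvPowerSeries.map C F) fun i => C (a' i) + X i)
  rw [h1, h2] at h3
  exact Ideal.span_le.2 (by rintro _ ⟨i, rfl⟩; exact h i) h3

/-- Dependence on the coefficients (closed ideal). -/
theorem ev_mem_of_coeff_mem {J : Ideal A} (hJ : Closed J) {F : MvPowerSeries σ A}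
    (hF : ∀ α, coeff α F ∈ J) (a : σ → A) : ev F a ∈ J := by
  by_cases ha : ∀ i, a i ∈ Nil A
  · refine hJ.mem_of_small (small_span_range ha) fun N => ?_
    have h1 := ev_sub_trunc_mem ha N F
    have h2 : MvPolynomial.eval a (truncTotal N F) ∈ J := by
      rw [MvPolynomial.eval_eq]
      refine Ideal.sum_mem _ fun α _ => Ideal.mul_mem_right _ _ ?_
      rw [coeff_truncTotal_eq_ite]
      split_ifs
      · exact hF α
      · exact Ideal.zero_mem _
    have := Submodule.add_mem_sup h2 h1
    rwa [add_sub_cancel] at this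
  · rw [ev, dif_neg ha]
    exact Ideal.zero_mem _

theorem ev_congr_mod {J : Ideal A} (hJ : Closed J) {F F' : MvPowerSeries σ A} {a' : σ → A}
    (ha : ∀ i, a i ∈ Nil A) (ha' : ∀ i, a' i ∈ Nil A) (hF : ∀ α, coeff α F - coeff α F' ∈ J)
    (h : ∀ i, a i - a' i ∈ J) : ev F a - ev F' a' ∈ J := by
  have h1 := ev_mem_of_coeff_mem hJ (F := F - F') (fun α => by simpa using hF α) a
  have h2 := Ideal.add_mem _ h1 (ev_sub_ev_mem ha ha' h F')
  rwa [ev_sub, sub_add_sub_cancel] at h2

/-- A series all of whose coefficients are divisible by `c` is divisible by `C c`. -/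
theorem exists_eq_C_mul {R : Type*} [CommRing R] {σ : Type*} {c : R} {F : MvPowerSeries σ R}
    (hF : ∀ α, coeff α F ∈ Ideal.span {c}) : ∃ F', F = C c * F' := by
  choose g hg using fun α => Ideal.mem_span_singleton'.1 (hF α)
  refine ⟨g, ?_⟩
  ext α
  rw [coeff_C_mul, ← hg α, mul_comm]
  rfl

/-- The ideal of series whose coefficients of degree below `N` lie in `J` is closed if `J` is. -/
theorem closed_coeff {J : Ideal A} (hJ : Closed J) {𝔍 : Ideal (MvPowerSeries σ A)}
    {P : (σ →₀ ℕ) → Prop} (h : ∀ f, f ∈ 𝔍 ↔ ∀ α, P α → coeff α f ∈ J) : Closed 𝔍 := by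
  intro f hf
  rw [h]
  intro α hα
  refine hJ _ fun k => ?_
  obtain ⟨g, hg, e, he, rfl⟩ := Submodule.mem_sup.1 (hf (k + α.degree))
  rw [map_add]
  refine Submodule.add_mem_sup ((h g).1 hg α hα) ?_
  have := (mem_comap_pow_iff _ _ _).1 he α
  simpa using this

end ev

/-! ### one variable -/

section one

variable {A B : Type*} [CommRing A] [Adic A] [CommRing B] [Adic B]

/-- Evaluation of a one-variable series. -/
noncomputable def ev1 (f : PowerSeries A) (t : A) : A := ev f (fun _ => t)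

variable {t : A}

theorem ev1_C (ht : t ∈ Nil A) (r : A) : ev1 (PowerSeries.C r) t = r := ev_C (fun _ => ht) r

theorem ev1_X (ht : t ∈ Nil A) : ev1 PowerSeries.X t = t := ev_X (a := fun _ => t) (fun _ => ht) ()

@[simp] theorem ev1_zero (t : A) : ev1 0 t = 0 := ev_zero _

theorem ev1_add (f g : PowerSeries A) (t : A) : ev1 (f + g) t = ev1 f t + ev1 g t := ev_add _ _ _

theorem ev1_sub (f g : PowerSeries A) (t : A) : ev1 (f - g) t = ev1 f t - ev1 g t := ev_sub _ _ _

theorem ev1_neg (f : PowerSeries A) (t : A) : ev1 (-f) t = -ev1 f t := ev_neg _ _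

theorem ev1_mul (f g : PowerSeries A) (t : A) : ev1 (f * g) t = ev1 f t * ev1 g t := ev_mul _ _ _

theorem ev1_sum {ι : Type*} (s : Finset ι) (f : ι → PowerSeries A) (t : A) :
    ev1 (∑ i ∈ s, f i) t = ∑ i ∈ s, ev1 (f i) t := ev_sum _ _ _

theorem ev1_one (ht : t ∈ Nil A) : ev1 1 t = 1 := ev_one fun _ => ht

theorem ev1_pow (ht : t ∈ Nil A) (f : PowerSeries A) (k : ℕ) : ev1 (f ^ k) t = ev1 f t ^ k :=
  ev_pow (fun _ => ht) f k

theorem ev1_X_pow (ht : t ∈ Nil A) (k : ℕ) : ev1 (PowerSeries.X ^ k) t = t ^ k := by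
  rw [ev1_pow ht, ev1_X ht]

theorem ev1_C_mul (ht : t ∈ Nil A) (r : A) (f : PowerSeries A) :
    ev1 (PowerSeries.C r * f) t = r * ev1 f t := by
  rw [ev1_mul, ev1_C ht]

theorem ev1_coe (ht : t ∈ Nil A) (q : Polynomial A) : ev1 (q : PowerSeries A) t = q.eval t := by
  have : (evHom (fun _ : Unit => t) (fun _ => ht)).comp Polynomial.coeToPowerSeries.ringHom =
      Polynomial.evalRingHom t := by
    ext r
    · simpa [evHom_apply, ev1] using ev1_C ht r
    · simpa [evHom_apply, ev1] using ev1_X ht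
  have h := DFunLike.congr_fun this q
  simpa [evHom_apply, ev1] using h

theorem ev1_at_zero (f : PowerSeries A) : ev1 f 0 = PowerSeries.constantCoeff f := ev_at_zero f

theorem ev1_mem_Nil (ht : t ∈ Nil A) {f : PowerSeries A}
    (hf : PowerSeries.constantCoeff f ∈ Nil A) : ev1 f t ∈ Nil A := ev_mem_Nil (fun _ => ht) hf

theorem ev1_mem_Nil' (ht : t ∈ Nil A) {f : PowerSeries A}
    (hf : PowerSeries.constantCoeff f = 0) : ev1 f t ∈ Nil A :=
  ev1_mem_Nil ht (hf.symm ▸ Ideal.zero_mem _)

theorem ev1_mem_of_mem {J : Ideal A} (ht : t ∈ Nil A) (htJ : t ∈ J) {f : PowerSeries A}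
    (hf : PowerSeries.constantCoeff f ∈ J) : ev1 f t ∈ J :=
  ev_mem_of_mem (fun _ => ht) (fun _ => htJ) hf

theorem map_ev1 (φ : A →+* B) (ht : t ∈ Nil A) (hb : φ t ∈ Nil B) (f : PowerSeries A) :
    φ (ev1 f t) = ev1 (PowerSeries.map φ f) (φ t) := map_ev φ (fun _ => ht) (fun _ => hb) f

theorem ev1_map_C_X (f : PowerSeries A) :
    ev1 (PowerSeries.map (PowerSeries.C : A →+* PowerSeries A) f) PowerSeries.X = f :=
  ev_map_C_X f

theorem subst_eq_ev1 {τ : Type*} [Finite τ] {b : MvPowerSeries τ A} (hb : PowerSeries.HasSubst b)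
    (f : PowerSeries A) : PowerSeries.subst b f = ev1 (PowerSeries.map C f) b :=
  subst_eq_ev hb.const f

theorem ev_ev1 {τ : Type*} [Finite τ] {c : τ → A} (hc : ∀ j, c j ∈ Nil A) {b : MvPowerSeries τ A}
    (hb : b ∈ Nil (MvPowerSeries τ A)) (f : PowerSeries A) :
    ev (ev1 (PowerSeries.map C f) b) c = ev1 f (ev b c) := ev_ev hc (fun _ => hb) f

theorem ev_subst1 {τ : Type*} [Finite τ] {c : τ → A} (hc : ∀ j, c j ∈ Nil A)
    {b : MvPowerSeries τ A} (hb : PowerSeries.HasSubst b) (f : PowerSeries A) :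
    ev (PowerSeries.subst b f) c = ev1 f (ev b c) := ev_subst hc hb.const f

theorem ev1_subst (ht : t ∈ Nil A) {b : PowerSeries A} (hb : PowerSeries.HasSubst b)
    (f : PowerSeries A) : ev1 (PowerSeries.subst b f) t = ev1 f (ev1 b t) :=
  ev_subst1 (fun _ => ht) hb f

theorem ev1_expand (ht : t ∈ Nil A) {q : ℕ} (hq : q ≠ 0) (f : PowerSeries A) :
    ev1 (PowerSeries.expand q hq f) t = ev1 f (t ^ q) := by
  rw [PowerSeries.expand_apply, ev1_subst ht (PowerSeries.HasSubst.X_pow hq), ev1_X_pow ht]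

theorem ev1_sub_ev1_mem {t' : A} (ht : t ∈ Nil A) (ht' : t' ∈ Nil A) {J : Ideal A}
    (h : t - t' ∈ J) (f : PowerSeries A) : ev1 f t - ev1 f t' ∈ J :=
  ev_sub_ev_mem (fun _ => ht) (fun _ => ht') (fun _ => h) f

theorem ev1_congr_mod {J : Ideal A} (hJ : Closed J) {f f' : PowerSeries A} {t' : A}
    (ht : t ∈ Nil A) (ht' : t' ∈ Nil A)
    (hf : ∀ i, PowerSeries.coeff i f - PowerSeries.coeff i f' ∈ J) (h : t - t' ∈ J) :
    ev1 f t - ev1 f' t' ∈ J :=
  ev_congr_mod hJ (fun _ => ht) (fun _ => ht') (fun α => by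
    have : α = Finsupp.single () (α ()) := Finsupp.unique_single α
    rw [this]
    exact hf _) (fun _ => h)

/-- `f(t) = f₀ + f₁ t + t² c`. -/
theorem exists_ev1_eq (ht : t ∈ Nil A) (f : PowerSeries A) :
    ∃ c : A, ev1 f t = PowerSeries.constantCoeff f + PowerSeries.coeff 1 f * t + t ^ 2 * c := by
  have h := ev_sub_linear_mem (a := fun _ : Unit => t) (fun _ => ht) f
  rw [Set.range_const, Ideal.span_singleton_pow, Ideal.mem_span_singleton'] at h
  obtain ⟨c, hc⟩ := h
  refine ⟨c, ?_⟩
  rw [mul_comm _ c, hc]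
  simp only [Finset.univ_unique, Finset.sum_singleton]
  change ev1 f t = PowerSeries.constantCoeff f + PowerSeries.coeff 1 f * t +
    (ev1 f t - (PowerSeries.constantCoeff f + PowerSeries.coeff 1 f * t))
  ring

/-- A series divisible by `X ^ k` has values divisible by `t ^ k`. -/
theorem ev1_mem_span_pow (ht : t ∈ Nil A) {k : ℕ} {f : PowerSeries A}
    (hf : ∀ i < k, PowerSeries.coeff i f = 0) : ev1 f t ∈ Ideal.span {t ^ k} := by
  obtain ⟨g, rfl⟩ := PowerSeries.X_pow_dvd_iff.2 hf
  rw [ev1_mul, ev1_X_pow ht]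
  exact Ideal.mul_mem_right _ _ (Ideal.mem_span_singleton_self _)

/-- The series translated to the point `t`. -/
noncomputable def shift (f : PowerSeries A) (t : A) : PowerSeries A :=
  ev1 (PowerSeries.map (PowerSeries.C : A →+* PowerSeries A) f) (PowerSeries.C t + PowerSeries.X)

theorem C_add_X_mem_Nil (ht : t ∈ Nil A) :
    (PowerSeries.C t + PowerSeries.X : PowerSeries A) ∈ Nil (PowerSeries A) :=
  Ideal.add_mem _ (mapsNil_C _ ht) (X_mem_Nil ())

theorem ev1_shift (ht : t ∈ Nil A) {d : A} (hd : d ∈ Nil A) (f : PowerSeries A) :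
    ev1 (shift f t) d = ev1 f (t + d) := by
  have h := ev_ev1 (c := fun _ : Unit => d) (fun _ => hd) (C_add_X_mem_Nil ht) f
  have e : ev (PowerSeries.C t + PowerSeries.X : PowerSeries A) (fun _ : Unit => d) = t + d := by
    change ev1 _ d = _
    rw [ev1_add, ev1_C hd, ev1_X hd]
  rw [e] at h
  exact h

theorem constantCoeff_shift (ht : t ∈ Nil A) (f : PowerSeries A) :
    PowerSeries.constantCoeff (shift f t) = ev1 f t := by
  rw [← ev1_at_zero, ev1_shift ht (Ideal.zero_mem _), add_zero]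

theorem coeff_shift_sub_mem (ht : t ∈ Nil A) (f : PowerSeries A) (i : ℕ) :
    PowerSeries.coeff i (shift f t) - PowerSeries.coeff i f ∈ Ideal.span {t} := by
  have h := ev1_sub_ev1_mem (J := Ideal.span {PowerSeries.C t}) (C_add_X_mem_Nil ht)
    (X_mem_Nil ()) (by
      change PowerSeries.C t + PowerSeries.X - PowerSeries.X ∈ _
      rw [add_sub_cancel_right]
      exact Ideal.mem_span_singleton_self _)
    (PowerSeries.map (PowerSeries.C : A →+* PowerSeries A) f)
  change shift f t - ev1 _ PowerSeries.X ∈ _ at h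
  rw [ev1_map_C_X, Ideal.mem_span_singleton'] at h
  obtain ⟨g, hg⟩ := h
  rw [← map_sub, ← hg, PowerSeries.coeff_mul_C]
  exact Ideal.mul_mem_left _ _ (Ideal.mem_span_singleton_self _)

/-- Difference quotients: `f(t) - f(t') = (t - t') u` with `u ≡ f₁` modulo `(t, t')`. -/
theorem exists_ev1_sub_eq {t' : A} (ht : t ∈ Nil A) (ht' : t' ∈ Nil A) (f : PowerSeries A) :
    ∃ u : A, ev1 f t - ev1 f t' = (t - t') * u ∧
      u - PowerSeries.coeff 1 f ∈ Ideal.span {t, t'} := by
  have hd : t - t' ∈ Nil A := Ideal.sub_mem _ ht ht'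
  obtain ⟨c, hc⟩ := exists_ev1_eq hd (shift f t')
  rw [ev1_shift ht' hd, add_sub_cancel, constantCoeff_shift ht'] at hc
  refine ⟨PowerSeries.coeff 1 (shift f t') + (t - t') * c, by rw [hc]; ring, ?_⟩
  have h1 : Ideal.span {t'} ≤ Ideal.span {t, t'} := Ideal.span_mono (by simp)
  have h2 : t - t' ∈ Ideal.span {t, t'} :=
    Ideal.sub_mem _ (Ideal.subset_span (by simp)) (Ideal.subset_span (by simp))
  have := Ideal.add_mem _ (h1 (coeff_shift_sub_mem ht' f 1)) (Ideal.mul_mem_right c _ h2)
  convert this using 1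
  ring

theorem span_pair_le_Nil {t' : A} (ht : t ∈ Nil A) (ht' : t' ∈ Nil A) :
    Ideal.span {t, t'} ≤ Nil A :=
  Ideal.span_le.2 (by rintro _ (rfl | rfl) <;> assumption)

/-- With a unit linear coefficient, the difference quotient is a unit. -/
theorem exists_ev1_sub_eq_unit {t' : A} (ht : t ∈ Nil A) (ht' : t' ∈ Nil A) {f : PowerSeries A}
    (hf : IsUnit (PowerSeries.coeff 1 f)) :
    ∃ u : A, IsUnit u ∧ ev1 f t - ev1 f t' = (t - t') * u := by
  obtain ⟨u, hu, hu'⟩ := exists_ev1_sub_eq ht ht' f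
  exact ⟨u, isUnit_of_sub_mem_Nil hf (span_pair_le_Nil ht ht' hu'), hu⟩

theorem ev1_injective {t' : A} (ht : t ∈ Nil A) (ht' : t' ∈ Nil A) {f : PowerSeries A}
    (hf : IsUnit (PowerSeries.coeff 1 f)) (h : ev1 f t = ev1 f t') : t = t' := by
  obtain ⟨u, hu, hu'⟩ := exists_ev1_sub_eq_unit ht ht' hf
  rw [h, sub_self] at hu'
  exact sub_eq_zero.1 ((hu.mul_left_eq_zero).1 hu'.symm)

/-- With a unit linear coefficient and constant coefficient in `Nil`, evaluation is onto `Nil`. -/
theorem exists_ev1_eq_of_unit {f : PowerSeries A} (hf0 : PowerSeries.constantCoeff f ∈ Nil A)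
    (hf : IsUnit (PowerSeries.coeff 1 f)) {s : A} (hs : s ∈ Nil A) :
    ∃ t ∈ Nil A, ev1 f t = s := by
  set g : PowerSeries A := f - PowerSeries.C (PowerSeries.constantCoeff f) with hg
  have hg0 : PowerSeries.constantCoeff g = 0 := by simp [hg]
  have hg1 : IsUnit (PowerSeries.coeff 1 g) := by
    simpa [hg, PowerSeries.coeff_C] using hf
  have hs' : s - PowerSeries.constantCoeff f ∈ Nil A := Ideal.sub_mem _ hs hf0
  have hi0 := PowerSeries.constantCoeff_substInvOfIsUnit g hg1
  refine ⟨ev1 (g.substInvOfIsUnit hg1) (s - PowerSeries.constantCoeff f),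
    ev1_mem_Nil' hs' hi0, ?_⟩
  have h1 := ev1_subst hs' (PowerSeries.HasSubst.of_constantCoeff_zero' hi0) g
  rw [PowerSeries.subst_substInvOfIsUnit_right g hg0 hg1, ev1_X hs'] at h1
  have h2 := ev1_mem_Nil' hs' hi0
  generalize ev1 (g.substInvOfIsUnit hg1) (s - PowerSeries.constantCoeff f) = t at h1 h2 ⊢
  rw [hg, ev1_sub, ev1_C h2] at h1
  exact (sub_left_inj.1 h1).symm

end one

end Crest.Agent.R227
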