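import Crest.Agent.R227.Norm

/-! Row 227 (S0351), module `Asym`: asymptotic vanishing along Frobenius powers. -/

set_option autoImplicit false
set_option linter.unusedSectionVars false
set_option linter.style.haveILetI false

namespace Crest.Agent.R227

open MvPowerSeries Filter

/-- The series `F` (coefficients in the field, no convergence assumed) vanishes asymptotically at
the Frobenius powers `l ^ (q ^ m)` of a point `l` of norm at most `ρ`. -/
def AsymZero {K : Type*} [NormedField K] {σ : Type*} [Finite σ] (q : ℕ) (ρ : ℝ)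
    (F : MvPowerSeries σ K) (l : σ → K) : Prop :=
  ∀ N : ℕ, ∀ ρ' : ℝ, ρ ^ N < ρ' → ∀ᶠ m : ℕ in atTop,
    ‖MvPolynomial.eval (fun i => l i ^ q ^ m) (truncTotal N F)‖ ≤ ρ' ^ q ^ m

end Crest.Agent.R227
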