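import Crest.Agent.R227.Adic
import Crest.Prelude.Def_LubinTate

/-!
Row 227 (S0351), module `Pt`: the group of points of a formal group law in an adic ring,
homomorphisms, `m`-series, transport of structure.
-/

set_option autoImplicit false
set_option linter.unusedSectionVars false
set_option linter.style.haveILetI false

namespace Crest.Agent.R227

open MvPowerSeries Crest.LubinTate

section two

variable {A B : Type*} [CommRing A] [Adic A] [CommRing B] [Adic B]

/-- Evaluation of a two-variable series. -/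
noncomputable def ev2 (F : MvPowerSeries (Fin 2) A) (s t : A) : A := ev F ![s, t]

theorem pair_mem_Nil {s t : A} (hs : s ∈ Nil A) (ht : t ∈ Nil A) : ∀ i, ![s, t] i ∈ Nil A := by
  intro i
  fin_cases i
  · exact hs
  · exact ht

theorem map_ev2 (φ : A →+* B) {s t : A} (hs : s ∈ Nil A) (ht : t ∈ Nil A) (hs' : φ s ∈ Nil B)
    (ht' : φ t ∈ Nil B) (F : MvPowerSeries (Fin 2) A) :
    φ (ev2 F s t) = ev2 (MvPowerSeries.map φ F) (φ s) (φ t) := by
  have e : (fun i => φ (![s, t] i)) = ![φ s, φ t] := by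
    funext i
    fin_cases i <;> rfl
  rw [ev2, map_ev φ (pair_mem_Nil hs ht) (by rw [show (∀ i, φ (![s, t] i) ∈ Nil B) ↔
    ∀ i, ![φ s, φ t] i ∈ Nil B by rw [← e]]; exact pair_mem_Nil hs' ht'), e, ev2]

theorem ev_ev2 {τ : Type*} [Finite τ] {c : τ → A} (hc : ∀ j, c j ∈ Nil A)
    {s t : MvPowerSeries τ A} (hs : s ∈ Nil (MvPowerSeries τ A))
    (ht : t ∈ Nil (MvPowerSeries τ A)) (F : MvPowerSeries (Fin 2) A) :
    ev (ev2 (MvPowerSeries.map C F) s t) c = ev2 F (ev s c) (ev t c) := by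
  rw [ev2, ev_ev hc (pair_mem_Nil hs ht), ev2]
  congr 1
  funext i
  fin_cases i <;> rfl

theorem hasSubst_pair {R τ : Type*} [CommRing R] {s t : MvPowerSeries τ R}
    (hs : PowerSeries.HasSubst s) (ht : PowerSeries.HasSubst t) : HasSubst ![s, t] :=
  hasSubst_of_constantCoeff_nilpotent fun i => by
    fin_cases i
    · exact hs
    · exact ht

theorem subst_eq_ev2 {τ : Type*} [Finite τ] {s t : MvPowerSeries τ A}
    (hs : PowerSeries.HasSubst s) (ht : PowerSeries.HasSubst t) (F : MvPowerSeries (Fin 2) A) :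
    subst ![s, t] F = ev2 (MvPowerSeries.map C F) s t := subst_eq_ev (hasSubst_pair hs ht) F

theorem ev_subst2 {τ : Type*} [Finite τ] {c : τ → A} (hc : ∀ j, c j ∈ Nil A)
    {s t : MvPowerSeries τ A} (hs : PowerSeries.HasSubst s) (ht : PowerSeries.HasSubst t)
    (F : MvPowerSeries (Fin 2) A) : ev (subst ![s, t] F) c = ev2 F (ev s c) (ev t c) := by
  rw [subst_eq_ev2 hs ht, ev_ev2 hc (mem_Nil_mv.2 (mem_Nil_of_isNilpotent hs))
    (mem_Nil_mv.2 (mem_Nil_of_isNilpotent ht))]

theorem ev2_map_C_X (F : MvPowerSeries (Fin 2) A) :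
    ev2 (MvPowerSeries.map (C : A →+* MvPowerSeries (Fin 2) A) F) (X 0) (X 1) = F := by
  have e : ![X 0, X 1] = (X : Fin 2 → MvPowerSeries (Fin 2) A) := by
    funext i
    fin_cases i <;> rfl
  rw [ev2, e, ev_map_C_X]

theorem ev2_X_zero {s t : A} (hs : s ∈ Nil A) (ht : t ∈ Nil A) : ev2 (X 0) s t = s :=
  ev_X (pair_mem_Nil hs ht) 0

theorem ev2_X_one {s t : A} (hs : s ∈ Nil A) (ht : t ∈ Nil A) : ev2 (X 1) s t = t :=
  ev_X (pair_mem_Nil hs ht) 1

theorem ev2_sub_ev2_mem {s t s' t' : A} (hs : s ∈ Nil A) (ht : t ∈ Nil A) (hs' : s' ∈ Nil A)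
    (ht' : t' ∈ Nil A) {J : Ideal A} (h1 : s - s' ∈ J) (h2 : t - t' ∈ J)
    (F : MvPowerSeries (Fin 2) A) : ev2 F s t - ev2 F s' t' ∈ J :=
  ev_sub_ev_mem (pair_mem_Nil hs ht) (pair_mem_Nil hs' ht') (fun i => by
    fin_cases i
    · exact h1
    · exact h2) F

variable (G : FormalGroup A)

theorem ev2_mem_Nil {s t : A} (hs : s ∈ Nil A) (ht : t ∈ Nil A) :
    ev2 G.toPowerSeries s t ∈ Nil A :=
  ev_mem_Nil (pair_mem_Nil hs ht) (G.zero_constantCoeff.symm ▸ Ideal.zero_mem _)

theorem fg_add_zero {s : A} (hs : s ∈ Nil A) : ev2 G.toPowerSeries s 0 = s := by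
  have h := ev_subst2 (c := fun _ : Unit => s) (fun _ => hs) (PowerSeries.HasSubst.X' (R := A))
    (PowerSeries.HasSubst.zero' (R := A)) G.toPowerSeries
  have e : subst ![PowerSeries.X, 0] G.toPowerSeries = (PowerSeries.X : PowerSeries A) :=
    G.Xzero_eq_X
  rw [e, ev_zero] at h
  have e2 : ev (PowerSeries.X : PowerSeries A) (fun _ : Unit => s) = s := ev1_X hs
  rw [e2] at h
  exact h.symm

theorem fg_zero_add {s : A} (hs : s ∈ Nil A) : ev2 G.toPowerSeries 0 s = s := by
  have h := ev_subst2 (c := fun _ : Unit => s) (fun _ => hs) (PowerSeries.HasSubst.zero' (R := A))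
    (PowerSeries.HasSubst.X' (R := A)) G.toPowerSeries
  have e : subst ![0, PowerSeries.X] G.toPowerSeries = (PowerSeries.X : PowerSeries A) :=
    G.zeroX_eq_X
  rw [e, ev_zero] at h
  have e2 : ev (PowerSeries.X : PowerSeries A) (fun _ : Unit => s) = s := ev1_X hs
  rw [e2] at h
  exact h.symm

theorem fg_assoc {s t u : A} (hs : s ∈ Nil A) (ht : t ∈ Nil A) (hu : u ∈ Nil A) :
    ev2 G.toPowerSeries (ev2 G.toPowerSeries s t) u =
      ev2 G.toPowerSeries s (ev2 G.toPowerSeries t u) := by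
  have hc : ∀ j, ![s, t, u] j ∈ Nil A := by
    intro j
    fin_cases j
    · exact hs
    · exact ht
    · exact hu
  have hX : ∀ i : Fin 3, PowerSeries.HasSubst (X i : MvPowerSeries (Fin 3) A) :=
    fun i => PowerSeries.HasSubst.X i
  have hG : ∀ i j : Fin 3, PowerSeries.HasSubst
      (subst ![(X i : MvPowerSeries (Fin 3) A), X j] G.toPowerSeries) := fun i j =>
    PowerSeries.HasSubst.of_constantCoeff_zero
      (constantCoeff_subst_eq_zero HasSubst.X_X (fun k => by fin_cases k <;> simp)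
        G.zero_constantCoeff)
  have h := congrArg (fun F => ev F ![s, t, u]) (G.assoc' (hX 0) (hX 1) (hX 2))
  simp only [ev_subst2 hc (hG 0 1) (hX 2), ev_subst2 hc (hX 0) (hG 1 2),
    ev_subst2 hc (hX 0) (hX 1), ev_subst2 hc (hX 1) (hX 2), ev_X hc] at h
  exact h

theorem fg_comm [G.IsComm] {s t : A} (hs : s ∈ Nil A) (ht : t ∈ Nil A) :
    ev2 G.toPowerSeries s t = ev2 G.toPowerSeries t s := by
  have hc := pair_mem_Nil hs ht
  have hX : ∀ i : Fin 2, PowerSeries.HasSubst (X i : MvPowerSeries (Fin 2) A) :=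
    fun i => PowerSeries.HasSubst.X i
  have h := congrArg (fun F => ev F ![s, t]) (G.comm' (hX 0) (hX 1))
  simp only [ev_subst2 hc (hX 0) (hX 1), ev_subst2 hc (hX 1) (hX 0), ev_X hc] at h
  exact h

/-- The translation series `T ↦ G(T, t)`. -/
noncomputable def lser (t : A) : PowerSeries A :=
  ev2 (MvPowerSeries.map C G.toPowerSeries) PowerSeries.X (PowerSeries.C t)

theorem ev1_lser {s t : A} (hs : s ∈ Nil A) (ht : t ∈ Nil A) :
    ev1 (lser G t) s = ev2 G.toPowerSeries s t := by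
  have h := ev_ev2 (c := fun _ : Unit => s) (fun _ => hs) (X_mem_Nil ()) (mapsNil_C _ ht)
    G.toPowerSeries
  rw [ev_X (fun _ => hs), ev_C (fun _ => hs)] at h
  exact h

theorem constantCoeff_lser {t : A} (ht : t ∈ Nil A) : PowerSeries.constantCoeff (lser G t) = t := by
  rw [← ev1_at_zero, ev1_lser G (Ideal.zero_mem _) ht, fg_zero_add G ht]

theorem lser_sub_X_mem {t : A} (ht : t ∈ Nil A) :
    lser G t - PowerSeries.X ∈ Ideal.span {PowerSeries.C t} := by
  have h := ev2_sub_ev2_mem (J := Ideal.span {PowerSeries.C t}) (X_mem_Nil ()) (mapsNil_C _ ht)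
    (X_mem_Nil ()) (Ideal.zero_mem _) (by simp)
    (by rw [sub_zero]; exact Ideal.mem_span_singleton_self _)
    (MvPowerSeries.map C G.toPowerSeries)
  have e := fg_add_zero (G.map (C : A →+* PowerSeries A)) (X_mem_Nil ())
  rw [FormalGroup.map_toPowerSeries] at e
  rw [e] at h
  exact h

theorem coeff_one_lser_sub_mem {t : A} (ht : t ∈ Nil A) :
    PowerSeries.coeff 1 (lser G t) - 1 ∈ Ideal.span {t} := by
  obtain ⟨g, hg⟩ := Ideal.mem_span_singleton'.1 (lser_sub_X_mem G ht)
  have := congrArg (PowerSeries.coeff 1) hg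
  rw [PowerSeries.coeff_mul_C, map_sub, PowerSeries.coeff_one_X] at this
  rw [← this]
  exact Ideal.mul_mem_left _ _ (Ideal.mem_span_singleton_self _)

theorem isUnit_coeff_one_lser {t : A} (ht : t ∈ Nil A) :
    IsUnit (PowerSeries.coeff 1 (lser G t)) :=
  isUnit_of_sub_mem_Nil isUnit_one
    ((Ideal.span_singleton_le_iff_mem _).2 ht (coeff_one_lser_sub_mem G ht))

theorem exists_fg_neg {t : A} (ht : t ∈ Nil A) : ∃ s ∈ Nil A, ev2 G.toPowerSeries s t = 0 := by
  obtain ⟨s, hs, h⟩ := exists_ev1_eq_of_unit (f := lser G t)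
    (by rwa [constantCoeff_lser G ht]) (isUnit_coeff_one_lser G ht) (Ideal.zero_mem _)
  exact ⟨s, hs, by rwa [ev1_lser G hs ht] at h⟩

end two

/-! ### the group of points -/

/-- The points of the formal group law `G` in the adic ring `A`. -/
structure Pt {A : Type*} [CommRing A] [Adic A] (_G : FormalGroup A) where
  val : A
  mem : val ∈ Nil A

namespace Pt

variable {A B : Type*} [CommRing A] [Adic A] [CommRing B] [Adic B] {G : FormalGroup A}

@[ext] theorem ext {s t : Pt G} (h : s.1 = t.1) : s = t := by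
  cases s
  cases t
  congr

noncomputable instance : Add (Pt G) := ⟨fun s t => ⟨ev2 G.toPowerSeries s.1 t.1,
  ev2_mem_Nil G s.2 t.2⟩⟩

instance : Zero (Pt G) := ⟨⟨0, Ideal.zero_mem _⟩⟩

noncomputable instance : Neg (Pt G) := ⟨fun t => ⟨(exists_fg_neg G t.2).choose,
  (exists_fg_neg G t.2).choose_spec.1⟩⟩

theorem add_val (s t : Pt G) : (s + t).1 = ev2 G.toPowerSeries s.1 t.1 := rfl

@[simp] theorem zero_val : (0 : Pt G).1 = 0 := rfl

noncomputable instance [G.IsComm] : AddCommGroup (Pt G) where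
  add_assoc s t u := ext (fg_assoc G s.2 t.2 u.2)
  zero_add s := ext (fg_zero_add G s.2)
  add_zero s := ext (fg_add_zero G s.2)
  nsmul := nsmulRec
  zsmul := zsmulRec
  neg_add_cancel t := ext (exists_fg_neg G t.2).choose_spec.2
  add_comm s t := ext (fg_comm G s.2 t.2)

/-- `s + t = s.1 + t.1 + s.1 t.1 c`. -/
theorem add_val_sub_mem (s t : Pt G) : (s + t).1 - s.1 - t.1 ∈ Ideal.span {s.1 * t.1} := by
  have hX : ∀ i : Fin 2, (X i : MvPowerSeries (Fin 2) A) ∈ Nil _ := fun i => X_mem_Nil i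
  have h0 : (X 1 : MvPowerSeries (Fin 2) A) ∣ G.toPowerSeries - X 0 - X 1 := by
    have h := ev2_sub_ev2_mem (J := Ideal.span {X 1}) (hX 0) (hX 1) (hX 0) (Ideal.zero_mem _)
      (by simp) (by rw [sub_zero]; exact Ideal.mem_span_singleton_self _)
      (MvPowerSeries.map C G.toPowerSeries)
    have e := fg_add_zero (G.map (C : A →+* MvPowerSeries (Fin 2) A)) (hX 0)
    rw [FormalGroup.map_toPowerSeries] at e
    rw [e, ev2_map_C_X, Ideal.mem_span_singleton] at h
    exact dvd_sub h dvd_rfl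
  have h1 : (X 0 : MvPowerSeries (Fin 2) A) ∣ G.toPowerSeries - X 0 - X 1 := by
    have h := ev2_sub_ev2_mem (J := Ideal.span {X 0}) (hX 0) (hX 1) (Ideal.zero_mem _) (hX 1)
      (by rw [sub_zero]; exact Ideal.mem_span_singleton_self _) (by simp)
      (MvPowerSeries.map C G.toPowerSeries)
    have e := fg_zero_add (G.map (C : A →+* MvPowerSeries (Fin 2) A)) (hX 1)
    rw [FormalGroup.map_toPowerSeries] at e
    rw [e, ev2_map_C_X, Ideal.mem_span_singleton] at h
    rw [sub_right_comm]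
    exact dvd_sub h dvd_rfl
  obtain ⟨g, hg⟩ := h0
  have h2 : (X 0 : MvPowerSeries (Fin 2) A) ∣ g := by
    rw [hg, X_dvd_iff] at h1
    rw [X_dvd_iff]
    intro m hm
    have := h1 (Finsupp.single 1 1 + m) (by simp [hm])
    rwa [X_def, coeff_add_monomial_mul, one_mul] at this
  obtain ⟨g', rfl⟩ := h2
  have h3 := congrArg (fun F => ev F ![s.1, t.1]) hg
  have hc := pair_mem_Nil s.2 t.2
  simp only [ev_sub, ev_mul, ev_X hc, Matrix.cons_val_zero, Matrix.cons_val_one] at h3
  rw [Ideal.mem_span_singleton']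
  refine ⟨ev g' ![s.1, t.1], ?_⟩
  rw [add_val, ev2, h3]
  ring

theorem add_val_sub_left_mem (s t : Pt G) : (s + t).1 - s.1 ∈ Ideal.span {t.1} := by
  have h := add_val_sub_mem s t
  have h1 : Ideal.span {s.1 * t.1} ≤ Ideal.span {t.1} :=
    Ideal.span_singleton_le_span_singleton.2 (dvd_mul_left _ _)
  have := Ideal.add_mem _ (h1 h) (Ideal.mem_span_singleton_self t.1)
  rwa [sub_add_cancel] at this

variable [G.IsComm]

/-- The formal difference is the difference times a unit. -/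
theorem exists_sub_val_eq (s t : Pt G) : ∃ u : A, IsUnit u ∧ s.1 - t.1 = (s - t).1 * u := by
  obtain ⟨u, hu, h⟩ := exists_ev1_sub_eq_unit (s - t).2 (Ideal.zero_mem _)
    (isUnit_coeff_one_lser G t.2)
  rw [ev1_lser G (s - t).2 t.2, ev1_lser G (Ideal.zero_mem _) t.2, fg_zero_add G t.2, sub_zero,
    ← add_val, sub_add_cancel] at h
  exact ⟨u, hu, h⟩

theorem sub_val_mem_iff {J : Ideal A} (s t : Pt G) : (s - t).1 ∈ J ↔ s.1 - t.1 ∈ J := by
  obtain ⟨u, hu, h⟩ := exists_sub_val_eq s t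
  rw [h, Ideal.mul_unit_mem_iff_mem _ hu]

theorem neg_val_mem_iff {J : Ideal A} (t : Pt G) : (-t).1 ∈ J ↔ t.1 ∈ J := by
  rw [← zero_sub, sub_val_mem_iff, zero_val, zero_sub, neg_mem_iff]

variable (G) in
/-- The points with coordinate in the ideal `J`. -/
def fil (J : Ideal A) : AddSubgroup (Pt G) where
  carrier := {t | t.1 ∈ J}
  zero_mem' := J.zero_mem
  add_mem' {s t} hs ht := by
    have h := (Ideal.span_singleton_le_iff_mem _).2 ht (add_val_sub_left_mem s t)
    have := Ideal.add_mem _ h hs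
    rwa [sub_add_cancel] at this
  neg_mem' {t} ht := (neg_val_mem_iff t).2 ht

theorem mem_fil {J : Ideal A} {t : Pt G} : t ∈ fil G J ↔ t.1 ∈ J := Iff.rfl

theorem sub_mem_fil {J : Ideal A} {s t : Pt G} : s - t ∈ fil G J ↔ s.1 - t.1 ∈ J :=
  sub_val_mem_iff s t

theorem nsmul_val_sub_mem (m : ℕ) (t : Pt G) : (m • t).1 - m * t.1 ∈ Ideal.span {t.1 ^ 2} := by
  induction m with
  | zero => simp
  | succ m ih =>
    have h1 : (m • t).1 ∈ Ideal.span {t.1} :=
      (fil G (Ideal.span {t.1})).nsmul_mem (Ideal.mem_span_singleton_self _) m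
    obtain ⟨c, hc⟩ := Ideal.mem_span_singleton'.1 h1
    have h2 : Ideal.span {(m • t).1 * t.1} ≤ Ideal.span {t.1 ^ 2} :=
      Ideal.span_singleton_le_span_singleton.2 ⟨c, by rw [← hc]; ring⟩
    have := Ideal.add_mem _ (h2 (add_val_sub_mem (m • t) t)) ih
    rw [succ_nsmul]
    convert this using 1
    push_cast
    ring

/-- Multiplication by an element of `𝔞` improves the filtration. -/
theorem nsmul_mem_pow_succ {𝔞 : Ideal A} {m j : ℕ} (hm : (m : A) ∈ 𝔞) {t : Pt G}
    (ht : t.1 ∈ 𝔞 ^ (j + 1)) : (m • t).1 ∈ 𝔞 ^ (j + 2) := by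
  have h1 : t.1 ^ 2 ∈ 𝔞 ^ (j + 2) := by
    have := Ideal.mul_mem_mul ht ht
    rw [← pow_add, ← sq] at this
    exact Ideal.pow_le_pow_right (by omega) this
  have h2 : (m : A) * t.1 ∈ 𝔞 ^ (j + 2) := by
    rw [pow_succ']
    exact Ideal.mul_mem_mul hm ht
  have := Ideal.add_mem _ ((Ideal.span_singleton_le_iff_mem _).2 h1 (nsmul_val_sub_mem m t)) h2
  rwa [sub_add_cancel] at this

theorem pow_nsmul_mem_pow {𝔞 : Ideal A} {m : ℕ} (hm : (m : A) ∈ 𝔞) {t : Pt G} {j : ℕ}
    (ht : t.1 ∈ 𝔞 ^ (j + 1)) (k : ℕ) : (m ^ k • t).1 ∈ 𝔞 ^ (j + k + 1) := by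
  induction k with
  | zero => simpa using ht
  | succ k ih =>
    rw [pow_succ' m, mul_nsmul']
    exact nsmul_mem_pow_succ hm ih

omit [G.IsComm] in
/-- Change the group law, keeping the coordinate. -/
def cast (G' : FormalGroup A) (t : Pt G) : Pt G' := ⟨t.1, t.2⟩

omit [G.IsComm] in
@[simp] theorem cast_val (G' : FormalGroup A) (t : Pt G) : (cast G' t).1 = t.1 := rfl

/-- Base change of points. -/
noncomputable def map {G' : FormalGroup B} [G'.IsComm] (φ : A →+* B) (hφ : MapsNil φ)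
    (h : G.map φ = G') : Pt G →+ Pt G' where
  toFun t := ⟨φ t.1, hφ _ t.2⟩
  map_zero' := ext (map_zero φ)
  map_add' s t := ext (by
    subst h
    exact map_ev2 φ s.2 t.2 (hφ _ s.2) (hφ _ t.2) _)

@[simp] theorem map_val {G' : FormalGroup B} [G'.IsComm] (φ : A →+* B) (hφ : MapsNil φ)
    (h : G.map φ = G') (t : Pt G) : (map φ hφ h t).1 = φ t.1 := rfl

omit [G.IsComm] in
/-- Apply a series without constant term to a point. -/
noncomputable def app (G' : FormalGroup A) (θ : PowerSeries A)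
    (h0 : PowerSeries.constantCoeff θ = 0) (t : Pt G) : Pt G' := ⟨ev1 θ t.1, ev1_mem_Nil' t.2 h0⟩

omit [G.IsComm] in
@[simp] theorem app_val (G' : FormalGroup A) (θ : PowerSeries A)
    (h0 : PowerSeries.constantCoeff θ = 0) (t : Pt G) : (app G' θ h0 t).1 = ev1 θ t.1 := rfl

end Pt

/-! ### homomorphisms -/

section hom

variable {R S : Type*} [CommRing R] [CommRing S]

theorem ps_constantCoeff_map (φ : R →+* S) (f : PowerSeries R) :
    PowerSeries.constantCoeff (PowerSeries.map φ f) = φ (PowerSeries.constantCoeff f) := rfl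

instance isComm_map (G : FormalGroup R) [G.IsComm] (φ : R →+* S) : (G.map φ).IsComm where
  comm := by
    have h : G.toPowerSeries = G.toPowerSeries.subst ![X 1, X 0] := FormalGroup.IsComm.comm
    have e : ![(X 1 : MvPowerSeries (Fin 2) S), X 0] =
        fun i => MvPowerSeries.map φ (![(X 1 : MvPowerSeries (Fin 2) R), X 0] i) := by
      funext i
      fin_cases i <;> simp
    change MvPowerSeries.map φ G.toPowerSeries = subst ![X 1, X 0] (MvPowerSeries.map φ _)
    rw [e, ← map_subst HasSubst.X_X, ← h]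

theorem fg_map_map {T : Type*} [CommRing T] (G : FormalGroup R) (φ : R →+* S) (ψ : S →+* T) :
    (G.map φ).map ψ = G.map (ψ.comp φ) := by
  ext1
  simp [FormalGroup.map_toPowerSeries, map_map]

theorem fg_map_id (G : FormalGroup R) : G.map (RingHom.id R) = G := by
  ext1
  simp [FormalGroup.map_toPowerSeries]

theorem hasSubst_fg (G : FormalGroup R) : PowerSeries.HasSubst G.toPowerSeries :=
  PowerSeries.HasSubst.of_constantCoeff_zero G.zero_constantCoeff

theorem hasSubst_subst_X {σ : Type*} {θ : PowerSeries R} (h0 : PowerSeries.constantCoeff θ = 0)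
    (i : σ) : PowerSeries.HasSubst (PowerSeries.subst (X i : MvPowerSeries σ R) θ) :=
  PowerSeries.HasSubst.of_constantCoeff_zero
    (PowerSeries.constantCoeff_subst_eq_zero (constantCoeff_X i) θ h0)

theorem isFGHom_iff [Adic R] {G G' : FormalGroup R} {θ : PowerSeries R} :
    IsFGHom G G' θ ↔ PowerSeries.constantCoeff θ = 0 ∧
      ev1 (PowerSeries.map C θ) G.toPowerSeries =
        ev2 (MvPowerSeries.map C G'.toPowerSeries) (ev1 (PowerSeries.map C θ) (X 0))
          (ev1 (PowerSeries.map C θ) (X 1)) := by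
  unfold IsFGHom
  refine and_congr_right fun h0 => ?_
  rw [subst_eq_ev2 (hasSubst_subst_X h0 0) (hasSubst_subst_X h0 1), subst_eq_ev1 (hasSubst_fg G),
    subst_eq_ev1 (PowerSeries.HasSubst.X 0), subst_eq_ev1 (PowerSeries.HasSubst.X 1)]

theorem IsFGHom.ev1_add [Adic R] {G G' : FormalGroup R} {θ : PowerSeries R} (h : IsFGHom G G' θ)
    {s t : R} (hs : s ∈ Nil R) (ht : t ∈ Nil R) :
    ev1 θ (ev2 G.toPowerSeries s t) = ev2 G'.toPowerSeries (ev1 θ s) (ev1 θ t) := by
  have hc := pair_mem_Nil hs ht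
  have h2 := congrArg (fun F => ev F ![s, t]) h.2
  simp only [ev_subst1 hc (hasSubst_fg G),
    ev_subst2 hc (hasSubst_subst_X h.1 0) (hasSubst_subst_X h.1 1),
    ev_subst1 hc (PowerSeries.HasSubst.X _), ev_X hc] at h2
  exact h2

theorem IsFGHom.map {G G' : FormalGroup R} {θ : PowerSeries R} (h : IsFGHom G G' θ)
    (φ : R →+* S) : IsFGHom (G.map φ) (G'.map φ) (PowerSeries.map φ θ) := by
  refine ⟨by rw [ps_constantCoeff_map, h.1, map_zero], ?_⟩
  have h2 := congrArg (MvPowerSeries.map φ) h.2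
  rw [PowerSeries.map_subst (hasSubst_fg G),
    map_subst (hasSubst_pair (hasSubst_subst_X h.1 0) (hasSubst_subst_X h.1 1))] at h2
  rw [FormalGroup.map_toPowerSeries, FormalGroup.map_toPowerSeries, h2]
  congr 1
  funext i
  fin_cases i
  · simp [PowerSeries.map_subst (PowerSeries.HasSubst.X (0 : Fin 2))]
  · simp [PowerSeries.map_subst (PowerSeries.HasSubst.X (1 : Fin 2))]

theorem IsFGHom.of_map_injective {G G' : FormalGroup R} {θ : PowerSeries R} {φ : R →+* S}
    (hφ : Function.Injective φ) (h : IsFGHom (G.map φ) (G'.map φ) (PowerSeries.map φ θ)) :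
    IsFGHom G G' θ := by
  have h0 : PowerSeries.constantCoeff θ = 0 := by
    apply hφ
    rw [map_zero, ← ps_constantCoeff_map]
    exact h.1
  refine ⟨h0, ?_⟩
  have hinj : Function.Injective (MvPowerSeries.map (σ := Fin 2) φ) := fun f g hfg => by
    ext α
    apply hφ
    rw [← coeff_map, ← coeff_map, hfg]
  apply hinj
  rw [PowerSeries.map_subst (hasSubst_fg G),
    map_subst (hasSubst_pair (hasSubst_subst_X h0 0) (hasSubst_subst_X h0 1))]
  have h2 := h.2
  rw [FormalGroup.map_toPowerSeries, FormalGroup.map_toPowerSeries] at h2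
  rw [h2]
  congr 1
  funext i
  fin_cases i
  · simp [PowerSeries.map_subst (PowerSeries.HasSubst.X (0 : Fin 2))]
  · simp [PowerSeries.map_subst (PowerSeries.HasSubst.X (1 : Fin 2))]

/-- To prove that `θ` is a homomorphism it is enough to test it on the points `X 0`, `X 1`. -/
theorem isFGHom_of_forall [Adic R] {G G' : FormalGroup R} {θ : PowerSeries R}
    (h0 : PowerSeries.constantCoeff θ = 0)
    (h : ∀ s ∈ Nil (MvPowerSeries (Fin 2) R), ∀ t ∈ Nil (MvPowerSeries (Fin 2) R),
      ev1 (PowerSeries.map C θ) (ev2 (G.map C).toPowerSeries s t) =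
        ev2 (G'.map C).toPowerSeries (ev1 (PowerSeries.map C θ) s)
          (ev1 (PowerSeries.map C θ) t)) : IsFGHom G G' θ := by
  rw [isFGHom_iff]
  refine ⟨h0, ?_⟩
  have := h _ (X_mem_Nil 0) _ (X_mem_Nil 1)
  rwa [FormalGroup.map_toPowerSeries, ev2_map_C_X] at this

theorem ev1_map_subst [Adic S] (φ : R →+* S) {b : PowerSeries R}
    (hb : PowerSeries.constantCoeff b = 0) (f : PowerSeries R) {t : S} (ht : t ∈ Nil S) :
    ev1 (PowerSeries.map φ (PowerSeries.subst b f)) t =
      ev1 (PowerSeries.map φ f) (ev1 (PowerSeries.map φ b) t) := by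
  have hb' := PowerSeries.HasSubst.of_constantCoeff_zero' hb
  have e : PowerSeries.map φ (PowerSeries.subst b f) =
      PowerSeries.subst (PowerSeries.map φ b) (PowerSeries.map φ f) :=
    PowerSeries.map_subst hb' f
  rw [e, ev1_subst ht (PowerSeries.HasSubst.of_constantCoeff_zero' (by
    rw [ps_constantCoeff_map, hb, map_zero]))]

theorem ev1_map_subst2 [Adic S] (φ : R →+* S) {b c : PowerSeries R}
    (hb : PowerSeries.constantCoeff b = 0) (hc : PowerSeries.constantCoeff c = 0)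
    (F : MvPowerSeries (Fin 2) R) {t : S} (ht : t ∈ Nil S) :
    ev1 (PowerSeries.map φ (subst ![b, c] F)) t =
      ev2 (MvPowerSeries.map φ F) (ev1 (PowerSeries.map φ b) t) (ev1 (PowerSeries.map φ c) t) := by
  have hb' := PowerSeries.HasSubst.of_constantCoeff_zero' hb
  have hc' := PowerSeries.HasSubst.of_constantCoeff_zero' hc
  have e : PowerSeries.map φ (subst ![b, c] F) =
      subst ![PowerSeries.map φ b, PowerSeries.map φ c] (MvPowerSeries.map φ F) := by
    have := map_subst (hasSubst_pair hb' hc') (h := φ) F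
    refine this.trans ?_
    congr 1
    funext i
    fin_cases i <;> rfl
  rw [e]
  exact ev_subst2 (c := fun _ : Unit => t) (fun _ => ht)
    (PowerSeries.HasSubst.of_constantCoeff_zero' (by
      rw [ps_constantCoeff_map, hb, map_zero]))
    (PowerSeries.HasSubst.of_constantCoeff_zero' (by
      rw [ps_constantCoeff_map, hc, map_zero])) _

theorem constantCoeff_map_eq_zero (φ : R →+* S) {θ : PowerSeries R}
    (h : PowerSeries.constantCoeff θ = 0) : PowerSeries.constantCoeff (PowerSeries.map φ θ) = 0 := by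
  rw [ps_constantCoeff_map, h, map_zero]

theorem constantCoeff_subst1 {b f : PowerSeries R} (hb : PowerSeries.constantCoeff b = 0)
    (hf : PowerSeries.constantCoeff f = 0) :
    PowerSeries.constantCoeff (PowerSeries.subst b f) = 0 :=
  PowerSeries.constantCoeff_subst_eq_zero hb f hf

theorem constantCoeff_subst2 {b c : PowerSeries R} (hb : PowerSeries.constantCoeff b = 0)
    (hc : PowerSeries.constantCoeff c = 0) (G : FormalGroup R) :
    PowerSeries.constantCoeff (subst ![b, c] G.toPowerSeries : PowerSeries R) = 0 :=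
  constantCoeff_subst_eq_zero (hasSubst_pair (PowerSeries.HasSubst.of_constantCoeff_zero' hb)
    (PowerSeries.HasSubst.of_constantCoeff_zero' hc)) (fun i => by
      fin_cases i
      · exact hb
      · exact hc) G.zero_constantCoeff

theorem IsFGHom.comp {G G' G'' : FormalGroup R} {θ θ' : PowerSeries R} (h' : IsFGHom G' G'' θ')
    (h : IsFGHom G G' θ) : IsFGHom G G'' (PowerSeries.subst θ θ') := by
  letI := Adic.discrete R
  refine isFGHom_of_forall (constantCoeff_subst1 h.1 h'.1) fun s hs t ht => ?_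
  have h1 := IsFGHom.map h (C : R →+* MvPowerSeries (Fin 2) R)
  have h2 := IsFGHom.map h' (C : R →+* MvPowerSeries (Fin 2) R)
  have e1 := IsFGHom.ev1_add h1 hs ht
  have e2 := IsFGHom.ev1_add h2 (ev1_mem_Nil' hs h1.1) (ev1_mem_Nil' ht h1.1)
  rw [ev1_map_subst _ h.1 _ hs, ev1_map_subst _ h.1 _ ht,
    ev1_map_subst _ h.1 _ (ev2_mem_Nil (G.map C) hs ht)]
  exact (congrArg _ e1).trans e2

theorem isFGHom_X (G : FormalGroup R) : IsFGHom G G PowerSeries.X := by
  letI := Adic.discrete R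
  refine isFGHom_of_forall PowerSeries.constantCoeff_X fun s hs t ht => ?_
  rw [PowerSeries.map_X, ev1_X hs, ev1_X ht, ev1_X (ev2_mem_Nil (G.map C) hs ht)]

theorem isFGHom_zero (G G' : FormalGroup R) : IsFGHom G G' 0 := by
  letI := Adic.discrete R
  refine isFGHom_of_forall (map_zero _) fun s hs t ht => ?_
  simp only [map_zero, ev1_zero]
  exact (fg_add_zero (G'.map C) (Ideal.zero_mem _)).symm

theorem IsFGHom.inv {G G' : FormalGroup R} {θ : PowerSeries R} (h : IsFGHom G G' θ)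
    (hu : IsUnit (PowerSeries.coeff 1 θ)) : IsFGHom G' G (θ.substInvOfIsUnit hu) := by
  letI := Adic.discrete R
  have hi0 := PowerSeries.constantCoeff_substInvOfIsUnit θ hu
  refine isFGHom_of_forall hi0 fun s hs t ht => ?_
  have h1 := IsFGHom.map h (C : R →+* MvPowerSeries (Fin 2) R)
  have hr : ∀ a ∈ Nil (MvPowerSeries (Fin 2) R), ev1 (PowerSeries.map C θ)
      (ev1 (PowerSeries.map C (θ.substInvOfIsUnit hu)) a) = a := fun a ha => by
    rw [← ev1_map_subst _ hi0 _ ha, PowerSeries.subst_substInvOfIsUnit_right θ h.1 hu,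
      PowerSeries.map_X, ev1_X ha]
  have hi0' := constantCoeff_map_eq_zero (C : R →+* MvPowerSeries (Fin 2) R) hi0
  have hs' := ev1_mem_Nil' hs hi0'
  have ht' := ev1_mem_Nil' ht hi0'
  refine ev1_injective (f := PowerSeries.map C θ)
    (ev1_mem_Nil' (ev2_mem_Nil (G'.map C) hs ht) hi0') (ev2_mem_Nil (G.map C) hs' ht')
    (by rw [PowerSeries.coeff_map]; exact hu.map _) ?_
  have e := IsFGHom.ev1_add h1 hs' ht'
  rw [hr s hs, hr t ht] at e
  rw [hr _ (ev2_mem_Nil (G'.map C) hs ht)]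
  exact e.symm

theorem IsFGHom.add {G G' : FormalGroup R} [G'.IsComm] {θ θ' : PowerSeries R}
    (h : IsFGHom G G' θ) (h' : IsFGHom G G' θ') :
    IsFGHom G G' (subst ![θ, θ'] G'.toPowerSeries) := by
  letI := Adic.discrete R
  refine isFGHom_of_forall (constantCoeff_subst2 h.1 h'.1 G') fun s hs t ht => ?_
  have h1 := IsFGHom.map h (C : R →+* MvPowerSeries (Fin 2) R)
  have h2 := IsFGHom.map h' (C : R →+* MvPowerSeries (Fin 2) R)
  have e1 := IsFGHom.ev1_add h1 hs ht
  have e2 := IsFGHom.ev1_add h2 hs ht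
  rw [ev1_map_subst2 _ h.1 h'.1 _ hs, ev1_map_subst2 _ h.1 h'.1 _ ht,
    ev1_map_subst2 _ h.1 h'.1 _ (ev2_mem_Nil (G.map C) hs ht)]
  rw [e1, e2]
  let a : Pt (G'.map (C : R →+* MvPowerSeries (Fin 2) R)) := ⟨_, ev1_mem_Nil' hs h1.1⟩
  let b : Pt (G'.map (C : R →+* MvPowerSeries (Fin 2) R)) := ⟨_, ev1_mem_Nil' ht h1.1⟩
  let c : Pt (G'.map (C : R →+* MvPowerSeries (Fin 2) R)) := ⟨_, ev1_mem_Nil' hs h2.1⟩
  let d : Pt (G'.map (C : R →+* MvPowerSeries (Fin 2) R)) := ⟨_, ev1_mem_Nil' ht h2.1⟩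
  exact congrArg Pt.val (add_add_add_comm a b c d)

theorem constantCoeff_mulSeries (G : FormalGroup R) (m : ℕ) :
    PowerSeries.constantCoeff (mulSeries G m) = 0 := by
  induction m with
  | zero => simp [mulSeries]
  | succ m ih => exact constantCoeff_subst2 ih PowerSeries.constantCoeff_X G

theorem isFGHom_mulSeries (G : FormalGroup R) [G.IsComm] (m : ℕ) :
    IsFGHom G G (mulSeries G m) := by
  induction m with
  | zero => exact isFGHom_zero G G
  | succ m ih => exact IsFGHom.add ih (isFGHom_X G)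

theorem mulSeries_map (G : FormalGroup R) (φ : R →+* S) (m : ℕ) :
    mulSeries (G.map φ) m = PowerSeries.map φ (mulSeries G m) := by
  induction m with
  | zero => simp [mulSeries]
  | succ m ih =>
    have := map_subst (hasSubst_pair (PowerSeries.HasSubst.of_constantCoeff_zero'
      (constantCoeff_mulSeries G m)) (PowerSeries.HasSubst.X' (R := R))) (h := φ) G.toPowerSeries
    refine Eq.trans ?_ this.symm
    change subst ![mulSeries (G.map φ) m, PowerSeries.X] (MvPowerSeries.map φ _) = _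
    congr 1
    funext i
    fin_cases i
    · exact ih
    · exact (PowerSeries.map_X φ).symm

/-- The uniqueness part of transport of structure. -/
theorem fg_eq_of_isFGHom {G G' H : FormalGroup R} {γ : PowerSeries R}
    (hu : IsUnit (PowerSeries.coeff 1 γ)) (h : IsFGHom G H γ) (h' : IsFGHom G' H γ) : G = G' := by
  letI := Adic.discrete R
  ext1
  refine ev1_injective (f := PowerSeries.map C γ) (mem_Nil_of_constantCoeff G.zero_constantCoeff)
    (mem_Nil_of_constantCoeff G'.zero_constantCoeff)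
    (by rw [PowerSeries.coeff_map]; exact hu.map _) ?_
  rw [(isFGHom_iff.1 h).2, (isFGHom_iff.1 h').2]

end hom

namespace Pt

variable {A : Type*} [CommRing A] [Adic A] {G G' : FormalGroup A} [G.IsComm] [G'.IsComm]

/-- The homomorphism of groups of points induced by a homomorphism of formal group laws. -/
noncomputable def hom {θ : PowerSeries A} (h : IsFGHom G G' θ) : Pt G →+ Pt G' where
  toFun := app G' θ h.1
  map_zero' := ext (by rw [app_val, zero_val, ev1_at_zero, h.1]; rfl)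
  map_add' s t := ext (IsFGHom.ev1_add h s.2 t.2)

@[simp] theorem hom_val {θ : PowerSeries A} (h : IsFGHom G G' θ) (t : Pt G) :
    (hom h t).1 = ev1 θ t.1 := rfl

theorem nsmul_val (m : ℕ) (t : Pt G) : (m • t).1 = ev1 (mulSeries G m) t.1 := by
  induction m with
  | zero => simp [mulSeries]
  | succ m ih =>
    rw [succ_nsmul, add_val, ih]
    have := ev_subst2 (c := fun _ : Unit => t.1) (fun _ => t.2)
      (PowerSeries.HasSubst.of_constantCoeff_zero' (constantCoeff_mulSeries G m))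
      (PowerSeries.HasSubst.X' (R := A)) G.toPowerSeries
    have e : ev (PowerSeries.X : PowerSeries A) (fun _ : Unit => t.1) = t.1 := ev1_X t.2
    rw [e] at this
    exact this.symm

theorem hom_bijective {θ : PowerSeries A} (h : IsFGHom G G' θ)
    (hu : IsUnit (PowerSeries.coeff 1 θ)) : Function.Bijective (hom h) := by
  refine ⟨fun s t hst => ext (ev1_injective s.2 t.2 hu (congrArg Pt.val hst)), fun s => ?_⟩
  obtain ⟨t, ht, e⟩ := exists_ev1_eq_of_unit (f := θ) (h.1.symm ▸ Ideal.zero_mem _) hu s.2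
  exact ⟨⟨t, ht⟩, ext e⟩

/-- Congruent group laws have congruent sums. -/
theorem add_val_congr {J : Ideal A} (hJ : Closed J)
    (hG : ∀ α, coeff α G.toPowerSeries - coeff α G'.toPowerSeries ∈ J) {s t : Pt G} {s' t' : Pt G'}
    (hs : s.1 - s'.1 ∈ J) (ht : t.1 - t'.1 ∈ J) : (s + t).1 - (s' + t').1 ∈ J :=
  ev_congr_mod hJ (pair_mem_Nil s.2 t.2) (pair_mem_Nil s'.2 t'.2) hG fun i => by
    fin_cases i
    · exact hs
    · exact ht

theorem nsmul_val_congr {J : Ideal A} (hJ : Closed J)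
    (hG : ∀ α, coeff α G.toPowerSeries - coeff α G'.toPowerSeries ∈ J) {t : Pt G} {t' : Pt G'}
    (ht : t.1 - t'.1 ∈ J) (m : ℕ) : (m • t).1 - (m • t').1 ∈ J := by
  induction m with
  | zero => simp
  | succ m ih =>
    rw [succ_nsmul, succ_nsmul]
    exact add_val_congr hJ hG ih ht

end Pt

section series

variable {R : Type*} [CommRing R]

/-- The universal point `X` of `G` over `R⟦X⟧`. -/
noncomputable def ptX [Adic R] (G : FormalGroup R) :
    Pt (G.map (PowerSeries.C : R →+* PowerSeries R)) := ⟨PowerSeries.X, X_mem_Nil ()⟩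

theorem nsmul_ptX [Adic R] (G : FormalGroup R) [G.IsComm] (m : ℕ) :
    (m • ptX G).1 = mulSeries G m := by
  rw [Pt.nsmul_val, mulSeries_map]
  exact ev1_map_C_X _

theorem coeff_one_mulSeries (G : FormalGroup R) [G.IsComm] (m : ℕ) :
    PowerSeries.coeff 1 (mulSeries G m) = m := by
  letI := Adic.discrete R
  have h := Pt.nsmul_val_sub_mem m (ptX G)
  rw [nsmul_ptX, Ideal.mem_span_singleton] at h
  have h1 := PowerSeries.X_pow_dvd_iff.1 h 1 (by norm_num)
  change PowerSeries.coeff 1 (mulSeries G m - (m : PowerSeries R) * PowerSeries.X) = 0 at h1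
  rw [map_sub, ← map_natCast (PowerSeries.C (R := R)), PowerSeries.coeff_C_mul,
    PowerSeries.coeff_one_X, mul_one, sub_eq_zero] at h1
  exact h1

/-- Homomorphisms commute with the `m`-series. -/
theorem IsFGHom.subst_mulSeries {G G' : FormalGroup R} [G.IsComm] [G'.IsComm] {θ : PowerSeries R}
    (h : IsFGHom G G' θ) (m : ℕ) :
    PowerSeries.subst (mulSeries G m) θ = PowerSeries.subst θ (mulSeries G' m) := by
  letI := Adic.discrete R
  have h1 := IsFGHom.map h (PowerSeries.C : R →+* PowerSeries R)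
  have e := congrArg Pt.val (map_nsmul (Pt.hom h1) m (ptX G))
  rw [Pt.hom_val, nsmul_ptX, Pt.nsmul_val, Pt.hom_val, mulSeries_map] at e
  rw [subst_eq_ev1 (PowerSeries.HasSubst.of_constantCoeff_zero' (constantCoeff_mulSeries G m)),
    subst_eq_ev1 (PowerSeries.HasSubst.of_constantCoeff_zero' h.1)]
  have e2 : ev1 (PowerSeries.map (PowerSeries.C : R →+* PowerSeries R) θ) (ptX G).1 = θ :=
    ev1_map_C_X θ
  rw [e2] at e
  exact e

theorem mulSeries_mul (G : FormalGroup R) [G.IsComm] (m l : ℕ) :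
    mulSeries G (m * l) = PowerSeries.subst (mulSeries G l) (mulSeries G m) := by
  letI := Adic.discrete R
  rw [← nsmul_ptX G (m * l), mul_nsmul', Pt.nsmul_val, nsmul_ptX, mulSeries_map,
    subst_eq_ev1 (PowerSeries.HasSubst.of_constantCoeff_zero' (constantCoeff_mulSeries G l))]
  rfl

/-- The inverse series. -/
theorem exists_negSeries (G : FormalGroup R) [G.IsComm] :
    ∃ ν : PowerSeries R, IsFGHom G G ν ∧ PowerSeries.coeff 1 ν = -1 ∧
      subst ![ν, PowerSeries.X] G.toPowerSeries = (0 : PowerSeries R) := by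
  letI := Adic.discrete R
  set ν : PowerSeries R := (-ptX G).1 with hν
  have h0 : PowerSeries.constantCoeff ν = 0 := by
    have := (Pt.neg_val_mem_iff (J := Ideal.span {PowerSeries.X}) (ptX G)).2
      (Ideal.mem_span_singleton_self _)
    rwa [Ideal.mem_span_singleton, PowerSeries.X_dvd_iff] at this
  have h1 : subst ![ν, PowerSeries.X] G.toPowerSeries = (0 : PowerSeries R) := by
    rw [subst_eq_ev2 (PowerSeries.HasSubst.of_constantCoeff_zero' h0) PowerSeries.HasSubst.X']
    exact congrArg Pt.val (neg_add_cancel (ptX G))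
  refine ⟨ν, isFGHom_of_forall h0 fun s hs t ht => ?_, ?_, h1⟩
  · have key : ∀ a : Pt (G.map (C : R →+* MvPowerSeries (Fin 2) R)),
        Pt.app (G.map C) (PowerSeries.map C ν) (constantCoeff_map_eq_zero _ h0) a = -a := by
      intro a
      rw [eq_neg_iff_add_eq_zero]
      apply Pt.ext
      have := ev1_map_subst2 (C : R →+* MvPowerSeries (Fin 2) R) h0 PowerSeries.constantCoeff_X
        G.toPowerSeries a.2
      rw [h1, map_zero, ev1_zero, PowerSeries.map_X, ev1_X a.2] at this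
      exact this.symm
    have := key (⟨s, hs⟩ + ⟨t, ht⟩)
    rw [neg_add, ← key, ← key] at this
    exact congrArg Pt.val this
  · have h := Pt.add_val_sub_mem (-ptX G) (ptX G)
    rw [neg_add_cancel, Pt.zero_val, ← hν, Ideal.mem_span_singleton'] at h
    obtain ⟨c, hc⟩ := h
    obtain ⟨ν', hν'⟩ := PowerSeries.X_dvd_iff.2 h0
    have h2 : PowerSeries.coeff 1 (c * (ν * (ptX G).1)) = 0 := by
      have : c * (ν * (ptX G).1) = PowerSeries.X ^ 2 * (c * ν') := by
        rw [hν']
        change c * (PowerSeries.X * ν' * PowerSeries.X) = _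
        ring
      rw [this, PowerSeries.coeff_X_pow_mul']
      simp
    rw [hc] at h2
    change PowerSeries.coeff 1 (0 - ν - PowerSeries.X) = 0 at h2
    rw [map_sub, map_sub, map_zero, PowerSeries.coeff_one_X] at h2
    linear_combination -h2

/-- Transport of structure along a series with unit linear coefficient. -/
theorem exists_transport (H : FormalGroup R) [H.IsComm] {γ : PowerSeries R}
    (h0 : PowerSeries.constantCoeff γ = 0) (hu : IsUnit (PowerSeries.coeff 1 γ)) :
    ∃ G : FormalGroup R, G.IsComm ∧ IsFGHom G H γ := by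
  letI := Adic.discrete R
  set ι := γ.substInvOfIsUnit hu with hι
  have hi0 : PowerSeries.constantCoeff ι = 0 := PowerSeries.constantCoeff_substInvOfIsUnit γ hu
  -- the operation on points of any power series ring
  let op : ∀ (τ : Type) [Finite τ], MvPowerSeries τ R → MvPowerSeries τ R → MvPowerSeries τ R :=
    fun τ _ s t => ev1 (PowerSeries.map C ι) (ev2 (MvPowerSeries.map C H.toPowerSeries)
      (ev1 (PowerSeries.map C γ) s) (ev1 (PowerSeries.map C γ) t))
  have hγ : ∀ (τ : Type) [Finite τ], ∀ s ∈ Nil (MvPowerSeries τ R),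
      ev1 (PowerSeries.map C γ) s ∈ Nil (MvPowerSeries τ R) := fun τ _ s hs =>
    ev1_mem_Nil' hs (constantCoeff_map_eq_zero _ h0)
  have hH : ∀ (τ : Type) [Finite τ], ∀ s ∈ Nil (MvPowerSeries τ R),
      ∀ t ∈ Nil (MvPowerSeries τ R), ev2 (MvPowerSeries.map C H.toPowerSeries)
        (ev1 (PowerSeries.map C γ) s) (ev1 (PowerSeries.map C γ) t) ∈ Nil (MvPowerSeries τ R) :=
    fun τ _ s hs t ht => ev2_mem_Nil (H.map C) (hγ τ s hs) (hγ τ t ht)
  have hop : ∀ (τ : Type) [Finite τ], ∀ s ∈ Nil (MvPowerSeries τ R),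
      ∀ t ∈ Nil (MvPowerSeries τ R), op τ s t ∈ Nil (MvPowerSeries τ R) :=
    fun τ _ s hs t ht => ev1_mem_Nil' (hH τ s hs t ht) (constantCoeff_map_eq_zero _ hi0)
  have hγop : ∀ (τ : Type) [Finite τ], ∀ s ∈ Nil (MvPowerSeries τ R),
      ∀ t ∈ Nil (MvPowerSeries τ R), ev1 (PowerSeries.map C γ) (op τ s t) =
        ev2 (MvPowerSeries.map C H.toPowerSeries)
          (ev1 (PowerSeries.map C γ) s) (ev1 (PowerSeries.map C γ) t) := fun τ _ s hs t ht => by
    change ev1 _ (ev1 _ _) = _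
    rw [← ev1_map_subst _ hi0 _ (hH τ s hs t ht), hι,
      PowerSeries.subst_substInvOfIsUnit_right γ h0 hu, PowerSeries.map_X, ev1_X (hH τ s hs t ht)]
  set F : MvPowerSeries (Fin 2) R := op (Fin 2) (X 0) (X 1) with hF
  have hFev : ∀ (τ : Type) [Finite τ], ∀ s ∈ Nil (MvPowerSeries τ R),
      ∀ t ∈ Nil (MvPowerSeries τ R), ev2 (MvPowerSeries.map C F) s t = op τ s t := by
    intro τ _ s hs t ht
    let φ : MvPowerSeries (Fin 2) R →+* MvPowerSeries τ R :=
      (evHom ![s, t] (pair_mem_Nil hs ht)).comp (MvPowerSeries.map C)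
    have hφ : MapsNil φ := (mapsNil_evHom _).comp mapsNil_C.map
    have hφC : φ.comp C = C := RingHom.ext fun r => by simp [φ]
    have hφ0 : φ (X 0) = s := by simp [φ]
    have hφ1 : φ (X 1) = t := by simp [φ]
    have e : ev2 (MvPowerSeries.map C F) s t = φ F := by
      simp [φ, evHom_apply, ev2]
    have x0 := X_mem_Nil (A := R) (0 : Fin 2)
    have x1 := X_mem_Nil (A := R) (1 : Fin 2)
    rw [e, hF]
    change φ (ev1 _ _) = ev1 _ _
    rw [map_ev1 φ (hH _ _ x0 _ x1) (hφ _ (hH _ _ x0 _ x1)),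
      map_ev2 φ (hγ _ _ x0) (hγ _ _ x1) (hφ _ (hγ _ _ x0)) (hφ _ (hγ _ _ x1)),
      map_ev1 φ x0 (hφ _ x0), map_ev1 φ x1 (hφ _ x1), hφ0, hφ1, map_map,
      ← RingHom.comp_apply (PowerSeries.map φ), ← PowerSeries.map_comp,
      ← RingHom.comp_apply (PowerSeries.map φ), ← PowerSeries.map_comp, hφC]
  have hlin : F - (X 0 + X 1) ∈ Ideal.span (Set.range (X : Fin 2 → MvPowerSeries (Fin 2) R)) ^ 2 := by
    set 𝔪 := Ideal.span (Set.range (X : Fin 2 → MvPowerSeries (Fin 2) R)) with h𝔪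
    have hsq : ∀ a ∈ 𝔪, ∀ b ∈ 𝔪, ∀ c, a * b * c ∈ 𝔪 ^ 2 := fun a ha b hb c =>
      Ideal.mul_mem_right _ _ (by rw [sq]; exact Ideal.mul_mem_mul ha hb)
    have hx : ∀ i, (X i : MvPowerSeries (Fin 2) R) ∈ 𝔪 := fun i => Ideal.subset_span ⟨i, rfl⟩
    obtain ⟨c0, e0⟩ := exists_ev1_eq (X_mem_Nil (A := R) (0 : Fin 2)) (PowerSeries.map C γ)
    obtain ⟨c1, e1⟩ := exists_ev1_eq (X_mem_Nil (A := R) (1 : Fin 2)) (PowerSeries.map C γ)
    have x0 := X_mem_Nil (A := R) (0 : Fin 2)
    have x1 := X_mem_Nil (A := R) (1 : Fin 2)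
    obtain ⟨c2, e2⟩ := exists_ev1_eq (hH _ _ x0 _ x1) (PowerSeries.map C ι)
    rw [constantCoeff_map_eq_zero _ h0, zero_add, PowerSeries.coeff_map] at e0 e1
    rw [constantCoeff_map_eq_zero _ hi0, zero_add, PowerSeries.coeff_map] at e2
    let a : Pt (H.map (C : R →+* MvPowerSeries (Fin 2) R)) := ⟨_, hγ _ _ x0⟩
    let b : Pt (H.map (C : R →+* MvPowerSeries (Fin 2) R)) := ⟨_, hγ _ _ x1⟩
    have ha : a.1 ∈ 𝔪 := ev1_mem_of_mem x0 (hx 0)
      (by rw [constantCoeff_map_eq_zero _ h0]; exact Ideal.zero_mem _)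
    have hb : b.1 ∈ 𝔪 := ev1_mem_of_mem x1 (hx 1)
      (by rw [constantCoeff_map_eq_zero _ h0]; exact Ideal.zero_mem _)
    have hab : (a + b).1 ∈ 𝔪 := (Pt.fil _ 𝔪).add_mem ha hb
    obtain ⟨c3, e3⟩ := Ideal.mem_span_singleton'.1 (Pt.add_val_sub_mem a b)
    have hone : (C (PowerSeries.coeff 1 ι) * C (PowerSeries.coeff 1 γ) :
        MvPowerSeries (Fin 2) R) = 1 := by
      rw [← map_mul, hι, PowerSeries.coeff_one_substInvOfIsUnit γ hu, IsUnit.val_inv_mul, map_one]
    have e4 : F = C (PowerSeries.coeff 1 ι) * (a + b).1 + (a + b).1 ^ 2 * c2 := e2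
    have e5 : a.1 = C (PowerSeries.coeff 1 γ) * X 0 + X 0 ^ 2 * c0 := e0
    have e6 : b.1 = C (PowerSeries.coeff 1 γ) * X 1 + X 1 ^ 2 * c1 := e1
    have e7 : F - (X 0 + X 1) = (a + b).1 * (a + b).1 * c2 +
        a.1 * b.1 * (C (PowerSeries.coeff 1 ι) * c3) +
        X 0 * X 0 * (C (PowerSeries.coeff 1 ι) * c0) +
        X 1 * X 1 * (C (PowerSeries.coeff 1 ι) * c1) := by
      linear_combination e4 - C (PowerSeries.coeff 1 ι) * e3 + C (PowerSeries.coeff 1 ι) * e5 +
        C (PowerSeries.coeff 1 ι) * e6 + (X 0 + X 1) * hone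
    rw [e7]
    exact Ideal.add_mem _ (Ideal.add_mem _ (Ideal.add_mem _ (hsq _ hab _ hab _) (hsq _ ha _ hb _))
      (hsq _ (hx 0) _ (hx 0) _)) (hsq _ (hx 1) _ (hx 1) _)
  rw [mem_span_X_pow_iff] at hlin
  have hF0 : constantCoeff F = 0 := by
    have := hlin 0 (by simp)
    simpa using this
  have hsub : ∀ i j : Fin 3, PowerSeries.HasSubst
      (subst ![(X i : MvPowerSeries (Fin 3) R), X j] F) := fun i j =>
    PowerSeries.HasSubst.of_constantCoeff_zero
      (constantCoeff_subst_eq_zero HasSubst.X_X (fun k => by fin_cases k <;> simp) hF0)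
  have hX3 : ∀ i : Fin 3, (X i : MvPowerSeries (Fin 3) R) ∈ Nil _ := fun i => X_mem_Nil i
  have hunit : ∀ (τ : Type), IsUnit (PowerSeries.coeff 1
      (PowerSeries.map (C : R →+* MvPowerSeries τ R) γ)) := fun τ => by
    rw [PowerSeries.coeff_map]
    exact hu.map _
  let G : FormalGroup R :=
    { toPowerSeries := F
      zero_constantCoeff := hF0
      lin_coeff_X := by
        have := hlin (Finsupp.single 0 1) (by simp)
        simpa [coeff_index_single_X, sub_eq_zero] using this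
      lin_coeff_Y := by
        have := hlin (Finsupp.single 1 1) (by simp)
        simpa [coeff_index_single_X, sub_eq_zero] using this
      assoc := by
        change subst ![subst ![X 0, X 1] F, X 2] F = subst ![X 0, subst ![X 1, X 2] F] F
        rw [subst_eq_ev2 (hsub 0 1) (PowerSeries.HasSubst.X 2),
          subst_eq_ev2 (PowerSeries.HasSubst.X 0) (hsub 1 2),
          subst_eq_ev2 (PowerSeries.HasSubst.X 0) (PowerSeries.HasSubst.X 1),
          subst_eq_ev2 (PowerSeries.HasSubst.X 1) (PowerSeries.HasSubst.X 2),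
          hFev _ _ (hX3 0) _ (hX3 1), hFev _ _ (hX3 1) _ (hX3 2),
          hFev _ _ (hop _ _ (hX3 0) _ (hX3 1)) _ (hX3 2),
          hFev _ _ (hX3 0) _ (hop _ _ (hX3 1) _ (hX3 2))]
        change ev1 _ _ = ev1 _ _
        rw [hγop _ _ (hX3 0) _ (hX3 1), hγop _ _ (hX3 1) _ (hX3 2)]
        congr 1
        exact fg_assoc (H.map C) (hγ _ _ (hX3 0)) (hγ _ _ (hX3 1)) (hγ _ _ (hX3 2)) }
  have x0 := X_mem_Nil (A := R) (0 : Fin 2)
  have x1 := X_mem_Nil (A := R) (1 : Fin 2)
  refine ⟨G, ⟨?_⟩, isFGHom_iff.2 ⟨h0, hγop _ _ x0 _ x1⟩⟩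
  change F = subst ![X 1, X 0] F
  rw [subst_eq_ev2 (PowerSeries.HasSubst.X 1) (PowerSeries.HasSubst.X 0),
    hFev _ _ x1 _ x0]
  change ev1 _ _ = ev1 _ _
  congr 1
  exact fg_comm (H.map C) (hγ _ _ x0) (hγ _ _ x1)

end series

end Crest.Agent.R227
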