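import Crest.Agent.R227.Norm
import Crest.Agent.R227.Pt

/-! Row 227 (S0351), module `Cover`: the universal cover and its rigidity. -/

set_option autoImplicit false
set_option linter.unusedSectionVars false
set_option linter.style.haveILetI false

namespace Crest.Agent.R227

open MvPowerSeries Crest.LubinTate

section

variable {A : Type*} [CommRing A] [Adic A]

theorem isDef_comap {σ : Type*} [Finite σ] {𝔞 : Ideal A} (h : IsDef 𝔞) :
    IsDef (𝔞.comap (constantCoeff : MvPowerSeries σ A →+* A)) := by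
  obtain ⟨⟨k, hk⟩, l, hl⟩ := h
  refine ⟨⟨k, ?_⟩, l, ?_⟩
  · rw [idl_mv]
    exact (Ideal.le_comap_pow _ k).trans (Ideal.comap_mono hk)
  · rw [idl_mv]
    exact (Ideal.le_comap_pow _ l).trans (Ideal.comap_mono hl)

variable {M : Type*} [AddCommGroup M] {p : ℕ}

theorem cover_pow_nsmul_congr {𝔞 : Ideal A} (hp : (p : A) ∈ 𝔞) {G : FormalGroup A} [G.IsComm]
    {s t : Pt G} (h : s.1 - t.1 ∈ 𝔞) (N : ℕ) :
    p ^ N • s - p ^ N • t ∈ Pt.fil G (𝔞 ^ (N + 1)) := by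
  have h1 : (s - t).1 ∈ 𝔞 ^ (0 + 1) := by
    rw [zero_add, pow_one]; exact (Pt.sub_val_mem_iff s t).2 h
  have h2 := Pt.pow_nsmul_mem_pow hp h1 N
  rwa [zero_add, nsmul_sub] at h2

theorem cover_eq_of_fil {𝔞 : Ideal A} (h𝔞 : Small 𝔞) {G : FormalGroup A} [G.IsComm]
    {s t : Pt G} (h : ∀ i, s - t ∈ Pt.fil G (𝔞 ^ (i + 1))) : s = t :=
  Pt.ext (sub_eq_zero.1 (h𝔞.eq_zero fun N =>
    Ideal.pow_le_pow_right (Nat.le_succ N) (Pt.sub_mem_fil.1 (h N))))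

theorem cover_exists_lim {𝔞 : Ideal A} (h𝔞 : IsDef 𝔞) (hp : (p : A) ∈ 𝔞) {G : FormalGroup A}
    [G.IsComm] (u : ℕ → Pt G) (hu : ∀ j, (p • u (j + 1)).1 - (u j).1 ∈ 𝔞) :
    ∃ y : Pt G, ∀ i, y - p ^ i • u i ∈ Pt.fil G (𝔞 ^ (i + 1)) := by
  obtain ⟨L, hL⟩ := h𝔞.exists_lim (fun j => (p ^ j • u j).1) fun j => by
    have := Pt.sub_mem_fil.1 (cover_pow_nsmul_congr hp (hu j) j)
    rwa [← mul_smul, ← pow_succ] at this
  have hN : L ∈ Nil A := by
    have h1 := hL 0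
    rw [zero_add, pow_one] at h1
    have h2 := Ideal.add_mem _ (h𝔞.1.le_Nil h1) (p ^ 0 • u 0).2
    rwa [sub_add_cancel] at h2
  exact ⟨⟨L, hN⟩, fun i => Pt.sub_mem_fil.2 (hL i)⟩

theorem addHom_congr_of_div (hdiv : ∀ y : M, ∃ y', p • y' = y) {𝔞 J : Ideal A} (h𝔞 : Small 𝔞)
    (hp : (p : A) ∈ 𝔞) (hJ : Closed J) {G G' : FormalGroup A} [G.IsComm] [G'.IsComm]
    (hG : ∀ α, coeff α G.toPowerSeries - coeff α G'.toPowerSeries ∈ J)
    (a : M →+ Pt G) (a' : M →+ Pt G') (h : ∀ y, (a y).1 - (a' y).1 ∈ 𝔞) (y : M) :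
    (a y).1 - (a' y).1 ∈ J := by
  have hdiv' : ∀ N : ℕ, ∃ y', p ^ N • y' = y := by
    intro N
    induction N with
    | zero => exact ⟨y, by simp⟩
    | succ N ih =>
      obtain ⟨y', hy'⟩ := ih
      obtain ⟨y'', hy''⟩ := hdiv y'
      exact ⟨y'', by rw [pow_succ, mul_smul, hy'', hy']⟩
  refine hJ.mem_of_small h𝔞 fun N => ?_
  obtain ⟨z, rfl⟩ := hdiv' N
  rw [map_nsmul, map_nsmul]
  have h1 := Pt.nsmul_val_congr hJ hG (t := Pt.cast G (a' z)) (t' := a' z) (by simp) (p ^ N)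
  have h2 := cover_pow_nsmul_congr hp (s := a z) (t := Pt.cast G (a' z)) (h z) N
  have h3 := Submodule.add_mem_sup h1 (Ideal.pow_le_pow_right (Nat.le_succ N) (Pt.sub_mem_fil.1 h2))
  rwa [sub_add_sub_cancel'] at h3

theorem addHom_ext_of_div (hdiv : ∀ y : M, ∃ y', p • y' = y) {𝔞 : Ideal A} (h𝔞 : Small 𝔞)
    (hp : (p : A) ∈ 𝔞) {G : FormalGroup A} [G.IsComm] (a a' : M →+ Pt G)
    (h : ∀ y, (a y).1 - (a' y).1 ∈ 𝔞) : a = a' := by
  ext y
  have := addHom_congr_of_div hdiv h𝔞 hp closed_bot (G := G) (G' := G) (by simp) a a' h y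
  exact sub_eq_zero.1 (Ideal.mem_bot.1 this)

/-- The universal cover. -/
theorem exists_cover {O : Type*} [CommRing O] [Adic O] {𝔞 : Ideal A} (h𝔞 : IsDef 𝔞)
    (hp : (p : A) ∈ 𝔞) (Γ : FormalGroup O) [Γ.IsComm]
    (hbij : Function.Bijective fun y : Pt Γ => p • y) (ρ : O →+* A ⧸ 𝔞)
    (hρ : ∀ y ∈ Nil O, IsNilpotent (ρ y)) (G : FormalGroup A) [G.IsComm]
    (hG : Γ.map ρ = G.map (Ideal.Quotient.mk 𝔞)) :
    ∃ π : Pt Γ →+ Pt G, ∀ y, Ideal.Quotient.mk 𝔞 (π y).1 = ρ y.1 := by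
  letI := Adic.discrete (A ⧸ 𝔞)
  have hρ' : MapsNil ρ := hρ
  have hmk : MapsNil (Ideal.Quotient.mk 𝔞) := mapsNil_of_idl fun a ha => by
    obtain ⟨k, hk⟩ := h𝔞.2
    exact mem_Nil_of_isNilpotent ⟨k, by
      rw [← map_pow, Ideal.Quotient.eq_zero_iff_mem]; exact hk (Ideal.pow_mem_pow ha k)⟩
  let φΓ : Pt Γ →+ Pt (Γ.map ρ) := Pt.map ρ hρ' rfl
  let φG : Pt G →+ Pt (Γ.map ρ) := Pt.map (Ideal.Quotient.mk 𝔞) hmk hG.symm
  have hker : ∀ s t : Pt G, φG s = φG t → s.1 - t.1 ∈ 𝔞 := fun s t h =>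
    Ideal.Quotient.eq.1 (congrArg Pt.val h)
  have hlift : ∀ y : Pt Γ, ∃ t : Pt G, φG t = φΓ y := by
    intro y
    obtain ⟨t, ht⟩ := Ideal.Quotient.mk_surjective (ρ y.1)
    obtain ⟨k, hk⟩ := hρ y.1 y.2
    refine ⟨⟨t, mem_Nil_of_pow (k := k) (h𝔞.1.le_Nil ?_)⟩, Pt.ext ht⟩
    rw [← Ideal.Quotient.eq_zero_iff_mem, map_pow, ht, hk]
  choose ℓ hℓ using hlift
  let e : Pt Γ ≃+ Pt Γ := AddEquiv.ofBijective (nsmulAddMonoidHom p) hbij
  let δ : AddMonoid.End (Pt Γ) := e.symm.toAddMonoidHom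
  have hδ : ∀ y, p • δ y = y := fun y => e.apply_symm_apply y
  have hlim : ∀ y : Pt Γ, ∃ z : Pt G, ∀ i, z - p ^ i • ℓ ((δ ^ i) y) ∈ Pt.fil G (𝔞 ^ (i + 1)) := by
    intro y
    refine cover_exists_lim h𝔞 hp (fun i => ℓ ((δ ^ i) y)) fun j => hker _ _ ?_
    rw [map_nsmul, hℓ, hℓ, ← map_nsmul, pow_succ']
    exact congrArg φΓ (hδ _)
  choose π hπ using hlim
  refine ⟨AddMonoidHom.mk' π fun y y' => cover_eq_of_fil h𝔞.1 fun i => ?_, fun y => ?_⟩
  · have h1 := cover_pow_nsmul_congr hp (s := ℓ ((δ ^ i) (y + y')))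
      (t := ℓ ((δ ^ i) y) + ℓ ((δ ^ i) y')) (hker _ _ (by
        rw [map_add φG, hℓ, hℓ, hℓ, map_add, map_add])) i
    have h2 := sub_mem (add_mem (hπ (y + y') i) h1) (add_mem (hπ y i) (hπ y' i))
    convert h2 using 1
    rw [nsmul_add]; abel
  · have h1 := Pt.sub_mem_fil.1 (hπ y 0)
    simp only [pow_zero, one_smul, zero_add, pow_one, AddMonoid.End.one_apply] at h1
    exact (Ideal.Quotient.eq.2 h1).trans (congrArg Pt.val (hℓ y))

end

section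

variable {A : Type*} [CommRing A] [Adic A] {p : ℕ} [Fact p.Prime]

theorem nsmul_val_of_mulSeries {Γ : FormalGroup A} [Γ.IsComm] {n : ℕ}
    (hΓ : mulSeries Γ p = PowerSeries.X ^ p ^ n) (j : ℕ) (y : Pt Γ) :
    (p ^ j • y).1 = y.1 ^ (p ^ n) ^ j := by
  induction j with
  | zero => simp
  | succ j ih =>
    rw [pow_succ', mul_smul, Pt.nsmul_val, hΓ, ev1_X_pow (Pt.mem _), ih, ← pow_mul, ← pow_succ]

theorem nsmul_bijective [CharP A p] [PerfectRing A p] {Γ : FormalGroup A} [Γ.IsComm] {n : ℕ}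
    (hΓ : mulSeries Γ p = PowerSeries.X ^ p ^ n) : Function.Bijective fun y : Pt Γ => p • y := by
  have h1 : ∀ y : Pt Γ, (p • y).1 = y.1 ^ p ^ n := fun y => by
    simpa using nsmul_val_of_mulSeries hΓ 1 y
  have h2 := bijective_iterateFrobenius A p n
  constructor
  · intro y y' h
    refine Pt.ext (h2.1 ?_)
    rw [iterateFrobenius_def, iterateFrobenius_def, ← h1, ← h1]
    exact congrArg Pt.val h
  · intro y
    obtain ⟨t, ht⟩ := h2.2 y.1
    rw [iterateFrobenius_def] at ht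
    exact ⟨⟨t, mem_Nil_of_pow (k := p ^ n) (ht ▸ y.2)⟩, Pt.ext ((h1 _).trans ht)⟩

set_option linter.unusedVariables false in
/-- In characteristic `p` the cover is onto when `G` is `p`-divisible. -/
theorem cover_surjective [CharP A p] {𝔞 : Ideal A} (h𝔞 : IsDef 𝔞) {Γ G : FormalGroup A}
    [Γ.IsComm] [G.IsComm] {n : ℕ} (hn : 1 ≤ n) (hΓ : mulSeries Γ p = PowerSeries.X ^ p ^ n)
    (hG : ∀ α, coeff α G.toPowerSeries - coeff α Γ.toPowerSeries ∈ 𝔞) (π : Pt Γ →+ Pt G)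
    (hπ : ∀ y, (π y).1 - y.1 ∈ 𝔞) (hdiv : ∀ t : Pt G, ∃ t', p • t' = t) :
    Function.Surjective π := by
  intro t₀
  have hp : (p : A) ∈ 𝔞 := by rw [CharP.cast_eq_zero]; exact 𝔞.zero_mem
  choose dv hdv using hdiv
  let t : ℕ → Pt G := fun j => dv^[j] t₀
  have ht : ∀ j, p • t (j + 1) = t j := fun j => by
    simp only [t, Function.iterate_succ_apply', hdv]
  have ht' : ∀ j, p ^ j • t j = t₀ := fun j => by
    induction j with
    | zero => simp [t]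
    | succ j ih => rw [pow_succ, mul_smul, ht, ih]
  have hu : ∀ j, (p • Pt.cast Γ (t (j + 1))).1 - (Pt.cast Γ (t j)).1 ∈ 𝔞 := fun j => by
    have := Pt.nsmul_val_congr h𝔞.closed hG (t := t (j + 1)) (t' := Pt.cast Γ (t (j + 1)))
      (by simp) p
    rw [ht] at this
    rw [← neg_sub]
    exact neg_mem this
  have hlim : ∀ j, ∃ y : Pt Γ, ∀ i, y - p ^ i • Pt.cast Γ (t (j + i)) ∈ Pt.fil Γ (𝔞 ^ (i + 1)) :=
    fun j => cover_exists_lim h𝔞 hp (fun i => Pt.cast Γ (t (j + i))) fun i => hu (j + i)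
  choose y hy using hlim
  have hy1 : ∀ j, p • y (j + 1) = y j := fun j => cover_eq_of_fil h𝔞.1 fun i => by
    have h1 := nsmul_mem (hy (j + 1) i) p
    have h2 : y j - p ^ (i + 1) • Pt.cast Γ (t (j + (i + 1))) ∈ Pt.fil Γ (𝔞 ^ (i + 1)) :=
      Ideal.pow_le_pow_right (Nat.le_succ _) (hy j (i + 1))
    rw [show j + (i + 1) = j + 1 + i by omega] at h2
    convert sub_mem h1 h2 using 1
    rw [nsmul_sub, pow_succ', mul_smul]; abel
  have hy2 : ∀ j, p ^ j • y j = y 0 := fun j => by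
    induction j with
    | zero => simp
    | succ j ih => rw [pow_succ, mul_smul, hy1, ih]
  refine ⟨y 0, cover_eq_of_fil h𝔞.1 fun j => ?_⟩
  have h1 := Pt.sub_mem_fil.1 (hy j 0)
  simp only [pow_zero, one_smul, zero_add, pow_one, add_zero, Pt.cast_val] at h1
  have h2 := Ideal.add_mem _ (hπ (y j)) h1
  rw [sub_add_sub_cancel] at h2
  have h3 := cover_pow_nsmul_congr hp h2 j
  rwa [← map_nsmul, hy2, ht'] at h3

end

theorem pt_divisible {K : Type*} [NontriviallyNormedField K] [VF K] (G : FormalGroup (Ob K))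
    [G.IsComm] {m d : ℕ} (hd : IsUnit (PowerSeries.coeff d (mulSeries G m))) (t : Pt G) :
    ∃ t' : Pt G, m • t' = t := by
  have hd0 : d ≠ 0 := by
    rintro rfl
    rw [PowerSeries.coeff_zero_eq_constantCoeff_apply, constantCoeff_mulSeries] at hd
    exact not_isUnit_zero hd
  obtain ⟨s, hs, h⟩ := exists_zero (mulSeries G m - PowerSeries.C t.1) (by
    rw [map_sub, constantCoeff_mulSeries, PowerSeries.constantCoeff_C, zero_sub]
    exact neg_mem t.2) (d := d) (by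
    rwa [map_sub, PowerSeries.coeff_C, if_neg hd0, sub_zero])
  refine ⟨⟨s, hs⟩, Pt.ext ?_⟩
  rw [ev1_sub, ev1_C hs, sub_eq_zero] at h
  rw [Pt.nsmul_val]
  exact h

end Crest.Agent.R227
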