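import Crest.Agent.R227.Asym

/-! Row 227 (S0351), module `Descent`: Frobenius descent of asymptotic relations. -/

set_option autoImplicit false
set_option linter.unusedSectionVars false
set_option linter.style.haveILetI false

namespace Crest.Agent.R227

open MvPowerSeries Filter

variable {p : ℕ} [Fact p.Prime] {K : Type*} [NontriviallyNormedField K] [VF K] [CharP K p]
  {σ : Type*} [Finite σ]

theorem truncTotal_map {R S : Type*} [CommRing R] [CommRing S] (φ : R →+* S) (N : ℕ)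
    (F : MvPowerSeries σ R) :
    truncTotal N (MvPowerSeries.map φ F) = MvPolynomial.map φ (truncTotal N F) := by
  ext α
  rw [MvPolynomial.coeff_map, coeff_truncTotal_eq_ite, coeff_truncTotal_eq_ite, coeff_map]
  split_ifs <;> simp

theorem eval_trunc_map {R S : Type*} [CommRing R] [CommRing S] (φ : R →+* S) (N : ℕ)
    (F : MvPowerSeries σ R) (a : σ → R) :
    MvPolynomial.eval (fun i => φ (a i)) (truncTotal N (MvPowerSeries.map φ F)) =
      φ (MvPolynomial.eval a (truncTotal N F)) := by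
  rw [truncTotal_map, MvPolynomial.eval_map, ← MvPolynomial.coe_eval₂Hom,
    ← MvPolynomial.eval₂_id, ← MvPolynomial.coe_eval₂Hom, MvPolynomial.map_eval₂Hom,
    RingHom.comp_id]

theorem norm_ev_sub_trunc_le {ρ : ℝ} (hρ0 : 0 ≤ ρ) (hρ : ρ < 1) {a : σ → Ob K}
    (ha : ∀ i, ‖(a i : K)‖ ≤ ρ) (F : MvPowerSeries σ (Ob K)) (N : ℕ) :
    ‖((ev F a : Ob K) : K) - MvPolynomial.eval (fun i => (a i : K))
      (truncTotal N (MvPowerSeries.map (Ob K).subtype F))‖ ≤ ρ ^ N := by
  have h := norm_le_of_mem_span_range hρ0 ha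
    (ev_sub_trunc_mem (fun i => mem_Nil_Ob.2 ((ha i).trans_lt hρ)) N F)
  have e := eval_trunc_map (Ob K).subtype N F a
  simp only [Subring.coe_subtype] at e
  rw [e]
  exact h

/-- An integral series that vanishes at all Frobenius powers of `l` vanishes asymptotically. -/
theorem asymZero_of_ev {q : ℕ} (hq : 2 ≤ q) {ρ : ℝ} (hρ0 : 0 ≤ ρ) (hρ : ρ < 1) {l : σ → Ob K}
    (hl : ∀ i, ‖(l i : K)‖ ≤ ρ) {F : MvPowerSeries σ (Ob K)}
    (hF : ∀ m : ℕ, ev F (fun i => l i ^ q ^ m) = 0) :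
    AsymZero q ρ (MvPowerSeries.map (Ob K).subtype F) (fun i => (l i : K)) := by
  intro N ρ' hρ'
  refine Eventually.of_forall fun m => ?_
  have hq0 : q ^ m ≠ 0 := pow_ne_zero _ (by omega)
  have h := norm_ev_sub_trunc_le (ρ := ρ ^ q ^ m) (pow_nonneg hρ0 _) (pow_lt_one₀ hρ0 hρ hq0)
    (a := fun i => l i ^ q ^ m) (fun i => by
      rw [SubmonoidClass.coe_pow, norm_pow]
      exact pow_le_pow_left₀ (norm_nonneg _) (hl i) _) F N
  rw [hF m, ZeroMemClass.coe_zero, zero_sub, norm_neg] at h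
  refine le_trans h ?_
  rw [← pow_mul, mul_comm, pow_mul]
  exact pow_le_pow_left₀ (pow_nonneg hρ0 _) hρ'.le _

/-- The series whose truncation of degree `N` is asymptotically at most `r` along the Frobenius
powers of `l`. -/
def asymSub {q : ℕ} (hq : 2 ≤ q) {r : ℝ} (hr : 0 ≤ r) (N : ℕ) (l : σ → K) :
    Submodule K (MvPowerSeries σ K) where
  carrier := {F | ∀ ρ' : ℝ, r < ρ' → ∀ᶠ m : ℕ in atTop,
    ‖MvPolynomial.eval (fun i => l i ^ q ^ m) (truncTotal N F)‖ ≤ ρ' ^ q ^ m}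
  add_mem' {F G} hF hG ρ' hρ' := by
    filter_upwards [hF ρ' hρ', hG ρ' hρ'] with m h1 h2
    rw [map_add, map_add]
    exact (IsUltrametricDist.norm_add_le_max _ _).trans (max_le h1 h2)
  zero_mem' ρ' hρ' := Eventually.of_forall fun m => by
    rw [map_zero, map_zero, norm_zero]
    exact pow_nonneg (hr.trans hρ'.le) _
  smul_mem' c F hF ρ' hρ' := by
    obtain ⟨ρ'', h1, h2⟩ := exists_between hρ'
    have h0 : 0 < ρ'' := hr.trans_lt h1
    have h3 : Tendsto (fun m : ℕ => (ρ' / ρ'') ^ q ^ m) atTop atTop :=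
      (tendsto_pow_atTop_atTop_of_one_lt ((one_lt_div h0).2 h2)).comp
        (tendsto_pow_atTop_atTop_of_one_lt (by omega : 1 < q))
    filter_upwards [hF ρ'' h1, h3.eventually_ge_atTop ‖c‖] with m h4 h5
    rw [map_smul, MvPolynomial.smul_eval, norm_mul]
    calc _ ≤ (ρ' / ρ'') ^ q ^ m * ρ'' ^ q ^ m :=
          mul_le_mul h5 h4 (norm_nonneg _) ((norm_nonneg c).trans h5)
      _ = ρ' ^ q ^ m := by rw [← mul_pow, div_mul_cancel₀ _ h0.ne']

theorem two_le_pow_p {h : ℕ} (hh : 1 ≤ h) : 2 ≤ p ^ h :=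
  (Fact.out : p.Prime).two_le.trans (Nat.le_self_pow (by omega) p)

theorem frob_mem_asymSub {h : ℕ} (hh : 1 ≤ h) {r : ℝ} (hr : 0 ≤ r) {N : ℕ} {l : σ → K}
    {F : MvPowerSeries σ K} (hF : F ∈ asymSub (two_le_pow_p (p := p) hh) hr N l) :
    MvPowerSeries.map (iterateFrobenius K p h) F ∈ asymSub (two_le_pow_p (p := p) hh) hr N l := by
  intro ρ' hρ'
  obtain ⟨M, hM⟩ := eventually_atTop.1 (hF ρ' hρ')
  refine eventually_atTop.2 ⟨M + 1, fun m hm => ?_⟩
  obtain ⟨m, rfl⟩ : ∃ m', m = m' + 1 := ⟨m - 1, by omega⟩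
  have e := eval_trunc_map (iterateFrobenius K p h) N F (fun i => l i ^ (p ^ h) ^ m)
  simp only [iterateFrobenius_def] at e
  simp only [pow_succ (p ^ h) m, pow_mul]
  rw [e, norm_pow]
  exact pow_le_pow_left₀ (norm_nonneg _) (hM m (by omega)) _

/-- An element with minimal support has Frobenius-fixed coefficients. -/
theorem exists_frob_fixed (φ : K →+* K) (V : Submodule K (MvPowerSeries σ K))
    (hV : ∀ F ∈ V, MvPowerSeries.map φ F ∈ V) (N : ℕ) {α₀ : σ →₀ ℕ} {F : MvPowerSeries σ K}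
    (hF : F ∈ V) (hα : coeff α₀ F ≠ 0) :
    ∃ P ∈ V, coeff α₀ P = 1 ∧ ∀ α : σ →₀ ℕ, α.degree < N → φ (coeff α P) = coeff α P := by
  classical
  have hex : ∃ n, ∃ P ∈ V, coeff α₀ P = 1 ∧ (truncTotal N P).support.card = n :=
    ⟨_, (coeff α₀ F)⁻¹ • F, V.smul_mem _ hF, by simp [hα], rfl⟩
  obtain ⟨P, hP, hP1, hc⟩ := Nat.find_spec hex
  refine ⟨P, hP, hP1, fun α₁ hα₁ => ?_⟩
  by_contra hne
  set c : K := coeff α₁ P / (φ (coeff α₁ P) - coeff α₁ P) with hcdef
  set Q : MvPowerSeries σ K := P - c • (MvPowerSeries.map φ P - P) with hQ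
  have hQc : ∀ α, coeff α Q = coeff α P - c * (φ (coeff α P) - coeff α P) := fun α => by
    simp [hQ]
  have hQV : Q ∈ V := V.sub_mem hP (V.smul_mem _ (V.sub_mem (hV P hP) hP))
  refine Nat.find_min hex (m := (truncTotal N Q).support.card) ?_
    ⟨Q, hQV, by rw [hQc, hP1]; simp, rfl⟩
  rw [← hc]
  refine Finset.card_lt_card ⟨fun α hα => ?_, fun hsub => ?_⟩
  · rw [MvPolynomial.mem_support_iff, coeff_truncTotal_eq_ite] at hα ⊢
    split_ifs at hα ⊢ with h
    · intro h0
      exact hα (by rw [hQc, h0]; simp)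
    · exact hα
  · have h1 : α₁ ∈ (truncTotal N P).support := by
      rw [MvPolynomial.mem_support_iff, coeff_truncTotal _ hα₁]
      intro h0
      exact hne (by rw [h0, map_zero])
    have h2 := hsub h1
    rw [MvPolynomial.mem_support_iff, coeff_truncTotal _ hα₁, hQc, hcdef,
      div_mul_cancel₀ _ (sub_ne_zero.2 hne), sub_self] at h2
    exact h2 rfl

/-- Frobenius descent: an asymptotic relation with a nonzero coefficient at `α₀` gives an exact
integral relation with coefficient `1` at `α₀`. -/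
theorem descent {h : ℕ} (hh : 1 ≤ h) {ρ : ℝ} (hρ0 : 0 ≤ ρ) (hρ : ρ < 1) (L : Set (σ → Ob K))
    (hL : ∀ l ∈ L, ∀ i, ‖(l i : K)‖ ≤ ρ) {F : MvPowerSeries σ K} {α₀ : σ →₀ ℕ}
    (hα : coeff α₀ F ≠ 0) (hF : ∀ l ∈ L, AsymZero (p ^ h) ρ F (fun i => (l i : K))) :
    ∃ F' : MvPowerSeries σ (Ob K), coeff α₀ F' = 1 ∧ ∀ l ∈ L, ev F' l = 0 := by
  have hq := two_le_pow_p (p := p) hh
  let φ := iterateFrobenius K p h
  have hφ : ∀ x, φ x = x ^ p ^ h := fun x => iterateFrobenius_def ..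
  let V : Submodule K (MvPowerSeries σ K) :=
    ⨅ (N : ℕ) (l : L), asymSub hq (pow_nonneg hρ0 N) N (fun i => (l.1 i : K))
  have hV : ∀ G, G ∈ V ↔ ∀ (N : ℕ) (l : L),
      G ∈ asymSub hq (pow_nonneg hρ0 N) N (fun i => (l.1 i : K)) := fun G => by
    simp only [V, Submodule.mem_iInf]
  choose P hPV hP1 hPf using fun N => exists_frob_fixed φ V
    (fun G hG => (hV _).2 fun N l => frob_mem_asymSub hh _ ((hV G).1 hG N l)) N
    ((hV F).2 fun N l => hF l.1 l.2 N) hα
  have hfin : {c : K | c ^ p ^ h = c}.Finite := by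
    have := Polynomial.finite_setOfPred_isRoot (FiniteField.X_pow_card_sub_X_ne_zero K hq)
    simpa [sub_eq_zero] using this
  have hlim : ∀ α : σ →₀ ℕ, ∃ c : K, c ^ p ^ h = c ∧
      ∀ᶠ N in (hyperfilter ℕ : Filter ℕ), coeff α (P N) = c := fun α => by
    have h1 : ∀ᶠ N in (hyperfilter ℕ : Filter ℕ), ∃ c ∈ {c : K | c ^ p ^ h = c},
        coeff α (P N) = c := by
      refine ((eventually_gt_atTop α.degree).filter_mono Nat.hyperfilter_le_atTop).mono
        fun N hN => ?_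
      exact ⟨_, (hφ _).symm.trans (hPf N α hN), rfl⟩
    exact (Ultrafilter.eventually_exists_mem_iff hfin).1 h1
  choose c hc hcP using hlim
  have hc1 : ∀ α, ‖c α‖ ≤ 1 := fun α => by
    by_contra hlt
    push Not at hlt
    have h1 := pow_lt_pow_right₀ hlt (show 1 < p ^ h from hq)
    rw [pow_one, ← norm_pow, hc] at h1
    exact lt_irrefl _ h1
  let F' : MvPowerSeries σ (Ob K) := fun α => ⟨c α, hc1 α⟩
  have hF' : ∀ α, coeff α (MvPowerSeries.map (Ob K).subtype F') = c α := fun _ => rfl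
  refine ⟨F', Subtype.ext ?_, fun l hl => ?_⟩
  · obtain ⟨N, hN⟩ := (hcP α₀).exists
    exact hN.symm.trans (hP1 N)
  have key : ∀ N : ℕ, ‖((ev F' l : Ob K) : K)‖ ≤ ρ ^ N := fun N => by
    set G := MvPowerSeries.map (Ob K).subtype F' with hG
    have h1 : ∀ᶠ M in (hyperfilter ℕ : Filter ℕ), ∀ α ∈ {α : σ →₀ ℕ | α.degree < N},
        coeff α (P M) = c α :=
      (eventually_all_finite (Finsupp.finite_of_degree_lt N)).2 fun α _ => hcP α
    obtain ⟨M, hM⟩ := h1.exists
    have h2 : truncTotal N (P M) = truncTotal N G := by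
      ext α
      rw [coeff_truncTotal_eq_ite, coeff_truncTotal_eq_ite]
      split_ifs with hα
      · rw [hM α hα, hF']
      · rfl
    have h3 : MvPowerSeries.map φ G = G := by
      ext α
      rw [coeff_map, hF', hφ, hc]
    have h4 : ∀ m : ℕ, MvPolynomial.eval (fun i => (l i : K) ^ (p ^ h) ^ m) (truncTotal N G) =
        MvPolynomial.eval (fun i => (l i : K)) (truncTotal N G) ^ (p ^ h) ^ m := fun m => by
      induction m with
      | zero => simp
      | succ m ih =>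
        have e := eval_trunc_map φ N G (fun i => (l i : K) ^ (p ^ h) ^ m)
        simp only [hφ] at e
        rw [h3, ih] at e
        simp only [pow_succ (p ^ h) m, pow_mul]
        exact e
    have h5 : ‖MvPolynomial.eval (fun i => (l i : K)) (truncTotal N G)‖ ≤ ρ ^ N := by
      refine le_of_forall_gt_imp_ge_of_dense fun ρ' hρ' => ?_
      obtain ⟨m, hm⟩ := ((hV _).1 (hPV M) N ⟨l, hl⟩ ρ' hρ').exists
      rw [h2, h4, norm_pow] at hm
      exact le_of_pow_le_pow_left₀ (pow_ne_zero _ (by omega))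
        ((pow_nonneg hρ0 N).trans hρ'.le) hm
    have h6 := norm_ev_sub_trunc_le hρ0 hρ (hL l hl) F' N
    have h7 := IsUltrametricDist.norm_add_le_max
      (((ev F' l : Ob K) : K) - MvPolynomial.eval (fun i => (l i : K)) (truncTotal N G))
      (MvPolynomial.eval (fun i => (l i : K)) (truncTotal N G))
    rw [sub_add_cancel] at h7
    exact h7.trans (max_le h6 h5)
  refine Subtype.ext (norm_le_zero_iff.1 ?_)
  exact ge_of_tendsto' (tendsto_pow_atTop_nhds_zero_of_lt_one hρ0 hρ) key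

end Crest.Agent.R227
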