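import Crest.Agent.R227.Phi

/-! Row 227 (S0351), module `E0`: basic facts on the Lubin-Tate ring and its height ideals. -/

set_option autoImplicit false
set_option linter.unusedSectionVars false
set_option linter.style.haveILetI false

namespace Crest.Agent.R227

open MvPowerSeries Crest.LubinTate

variable {p : ℕ} [Fact p.Prime] {n : ℕ}

/-- The coefficient of `X ^ (p ^ j)` in the `p`-series. -/
noncomputable def vv (p : ℕ) {R : Type*} [CommRing R] (H : FormalGroup R) (j : ℕ) : R :=
  PowerSeries.coeff (p ^ j) (mulSeries H p)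

theorem vv_map {R S : Type*} [CommRing R] [CommRing S] (H : FormalGroup R) (φ : R →+* S) (j : ℕ) :
    vv p (H.map φ) j = φ (vv p H j) := by
  rw [vv, vv, mulSeries_map, PowerSeries.coeff_map]

theorem vv_zero {R : Type*} [CommRing R] (H : FormalGroup R) [H.IsComm] : vv p H 0 = p := by
  rw [vv, pow_zero, coeff_one_mulSeries]

/-- The standing hypotheses. -/
structure LTS (Γ : FormalGroup (GaloisField p n)) (H : FormalGroup (LTRing p n)) : Prop where
  hn : 1 ≤ n
  hΓ : mulSeries Γ p = PowerSeries.X ^ p ^ n
  hH : IsUniversalDeformation p n Γ H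

variable (p n) in
/-- The maximal ideal. -/
noncomputable abbrev mE : Ideal (LTRing p n) := RingHom.ker (LTRing.residue p n)

noncomputable instance instAdicWitt : Adic (WittVector p (GaloisField p n)) :=
  ⟨Ideal.span {(p : WittVector p (GaloisField p n))}, inferInstance⟩

theorem residue_C (w : WittVector p (GaloisField p n)) :
    LTRing.residue p n (C w) = WittVector.constantCoeff w := rfl

theorem residue_X (i : Fin (n - 1)) : LTRing.residue p n (X i) = 0 := by
  simp [LTRing.residue]

theorem residue_surjective : Function.Surjective (LTRing.residue p n) := fun a =>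
  ⟨C (WittVector.teichmuller p a), by simp [residue_C]⟩

theorem ker_constantCoeff_witt :
    RingHom.ker (WittVector.constantCoeff : WittVector p (GaloisField p n) →+* _) =
      Ideal.span {(p : WittVector p (GaloisField p n))} := WittVector.ker_constantCoeff

theorem idl_E0 : idl (LTRing p n) = mE p n := by
  rw [idl_mv, mE, LTRing.residue, ← RingHom.comap_ker, ker_constantCoeff_witt]
  rfl

theorem isMaximal_mE : (mE p n).IsMaximal :=
  RingHom.ker_isMaximal_of_surjective _ residue_surjective

theorem mE_eq : mE p n = IsLocalRing.maximalIdeal (LTRing p n) :=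
  IsLocalRing.eq_maximalIdeal isMaximal_mE

theorem mem_Nil_E0 {f : LTRing p n} : f ∈ Nil (LTRing p n) ↔ LTRing.residue p n f = 0 := by
  rw [Nil, idl_E0, isMaximal_mE.isPrime.radical]
  rfl

theorem residue_sub_C (f : LTRing p n) : LTRing.residue p n (f - C (constantCoeff f)) = 0 := by
  rw [map_sub, residue_C, sub_eq_zero]
  rfl

variable {Γ : FormalGroup (GaloisField p n)} {H : FormalGroup (LTRing p n)}

theorem heightIdeal_le_iff {h : ℕ} {J : Ideal (LTRing p n)} :
    heightIdeal p n H h ≤ J ↔ ∀ j < h, vv p H j ∈ J := by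
  induction h with
  | zero => simp [heightIdeal]
  | succ h ih =>
    rw [heightIdeal, sup_le_iff, ih, Ideal.span_singleton_le_iff_mem]
    constructor
    · rintro ⟨h1, h2⟩ j hj
      rcases Nat.lt_succ_iff_lt_or_eq.1 hj with hj | rfl
      · exact h1 j hj
      · exact h2
    · exact fun h1 => ⟨fun j hj => h1 j (Nat.lt_succ_of_lt hj), h1 h (Nat.lt_succ_self h)⟩

theorem vv_mem_heightIdeal {h j : ℕ} (hj : j < h) : vv p H j ∈ heightIdeal p n H h :=
  heightIdeal_le_iff.1 le_rfl j hj

theorem LTS.residue_coeff (S : LTS Γ H) (j : ℕ) :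
    LTRing.residue p n (PowerSeries.coeff j (mulSeries H p)) = if j = p ^ n then 1 else 0 := by
  rw [← PowerSeries.coeff_map, ← mulSeries_map, S.hH.1, S.hΓ, PowerSeries.coeff_X_pow]

theorem LTS.residue_vv (S : LTS Γ H) {j : ℕ} (hj : j < n) :
    LTRing.residue p n (vv p H j) = 0 := by
  rw [vv, S.residue_coeff, if_neg]
  exact fun h => hj.ne (Nat.pow_right_injective (Fact.out : p.Prime).two_le h)

theorem LTS.heightIdeal_le (S : LTS Γ H) {h : ℕ} (hh : h ≤ n) : heightIdeal p n H h ≤ mE p n :=
  heightIdeal_le_iff.2 fun _ hj => S.residue_vv (hj.trans_le hh)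

/-- Reduction of a point modulo an ideal that contains the image of the maximal ideal. -/
theorem mk_comp_eq {B B' : Type*} [CommRing B] [CommRing B'] {x : LTRing p n →+* B} (r : B →+* B')
    (hx : ∀ f, LTRing.residue p n f = 0 → r (x f) = 0) {η : GaloisField p n →+* B'}
    (hη : ∀ w, r (x (C w)) = η (WittVector.constantCoeff w)) :
    r.comp x = η.comp (LTRing.residue p n) := by
  ext1 f
  have := hx _ (residue_sub_C f)
  rw [map_sub, map_sub, sub_eq_zero, hη] at this
  exact this

end Crest.Agent.R227
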