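import Crest.Agent.R227.E0

/-! Row 227 (S0351), module `E0Coord`: the coefficients `v_1, …, v_{n-1}` are coordinates. -/

set_option autoImplicit false
set_option linter.unusedSectionVars false
set_option linter.style.haveILetI false

namespace Crest.Agent.R227

open MvPowerSeries Crest.LubinTate

variable {p : ℕ} [Fact p.Prime] {n : ℕ} {Γ : FormalGroup (GaloisField p n)}
  {H : FormalGroup (LTRing p n)} [Γ.IsComm] [H.IsComm]

namespace E0Coord

theorem exists_mk {R B σ : Type*} [CommRing R] [CommRing B] [Adic B] [Finite σ] (s : R →+* B)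
    (a : σ → B) (ha : ∀ i, a i ∈ Nil B) :
    ∃ x : MvPowerSeries σ R →+* B, (∀ w, x (C w) = s w) ∧ ∀ i, x (X i) = a i :=
  ⟨(evHom a ha).comp (MvPowerSeries.map s), fun w => by simp, fun i => by simp⟩

theorem shift_injective {B σ : Type*} [CommRing B] [Adic B] [Finite σ] {c : σ → B}
    (hc : ∀ i, c i ∈ Nil B) {T : MvPowerSeries σ B →+* MvPowerSeries σ B}
    (hC : ∀ b, T (C b) = C b) (hX : ∀ i, T (X i) = C (c i) + X i) : Function.Injective T := by
  obtain ⟨T', hC', hX'⟩ := exists_mk (C : B →+* MvPowerSeries σ B) (fun i => C (-c i) + X i)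
    fun i => Ideal.add_mem _ (mapsNil_C _ (neg_mem (hc i))) (X_mem_Nil i)
  have e : ∀ i, (T'.comp T) (X i) = X i := fun i => by
    rw [RingHom.comp_apply, hX, map_add, hC', hX', map_neg, add_neg_cancel_left]
  have : T'.comp T = RingHom.id _ :=
    hom_ext (fun i => by rw [e]; exact X_mem_Nil i)
      (fun b => by rw [RingHom.comp_apply, hC, hC']; rfl) e
  exact Function.LeftInverse.injective (g := T') fun f => DFunLike.congr_fun this f

theorem dvd_of_cc {w : WittVector p (GaloisField p n)} (hw : WittVector.constantCoeff w = 0) :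
    ∃ w', w = p * w' := by
  have : w ∈ Ideal.span {(p : WittVector p (GaloisField p n))} := by
    rw [← ker_constantCoeff_witt]; exact hw
  exact Ideal.mem_span_singleton.1 this

theorem map_mem_of_cc {B : Type*} [CommRing B] (s : WittVector p (GaloisField p n) →+* B)
    {J : Ideal B} (hp : (p : B) ∈ J) {w : WittVector p (GaloisField p n)}
    (hw : WittVector.constantCoeff w = 0) : s w ∈ J := by
  obtain ⟨w', rfl⟩ := dvd_of_cc hw
  rw [map_mul, map_natCast]
  exact Ideal.mul_mem_right _ _ hp

theorem cc_vv (S : LTS Γ H) (j : Fin (n - 1)) :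
    WittVector.constantCoeff (constantCoeff (vv p H (j + 1))) = 0 :=
  S.residue_vv (by omega)

open TrivSqZeroExt DualNumber in
/-- The Kodaira–Spencer map is injective. -/
theorem jac_injective (S : LTS Γ H) (a : Fin (n - 1) → GaloisField p n)
    (ha : ∀ i : Fin (n - 1), ∑ j, WittVector.constantCoeff
      (coeff (Finsupp.single j 1) (vv p H (i + 1))) * a j = 0) : a = 0 := by
  let B := DualNumber (GaloisField p n)
  letI : Adic B := Adic.discrete B
  let s : WittVector p (GaloisField p n) →+* B :=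
    (algebraMap (GaloisField p n) B).comp WittVector.constantCoeff
  letI alg : Algebra (WittVector p (GaloisField p n)) B := s.toAlgebra
  let r : B →+* GaloisField p n := (fstHom (GaloisField p n) (GaloisField p n) _).toRingHom
  have hr : ∀ b : B, r b = b.fst := fun _ => rfl
  have hs : ∀ w, s w = inl (WittVector.constantCoeff w) := fun _ => rfl
  haveI : CharP B p := charP_of_injective_algebraMap (R := GaloisField p n)
    (algebraMap (GaloisField p n) B).injective p
  have hp : (p : B) = 0 := CharP.cast_eq_zero B p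
  have hN : ∀ (a : Fin (n - 1) → GaloisField p n) j, (inr (a j) : B) ∈ Nil B :=
    fun a j => mem_Nil_of_isNilpotent (isNilpotent_inr _)
  have hm2 : IsLocalRing.maximalIdeal B ^ 2 = ⊥ := by
    rw [maximalIdeal_eq_span_singleton_eps, Ideal.span_singleton_pow, eps_pow_two,
      Ideal.span_singleton_eq_bot]
  have hker : RingHom.ker r = IsLocalRing.maximalIdeal B := by
    ext b
    rw [RingHom.mem_ker, hr, maximalIdeal_eq_span_singleton_eps, Ideal.mem_span_singleton,
      fst_eq_zero_iff_eps_dvd]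
  have hcomp : IsAdicComplete (IsLocalRing.maximalIdeal B) B :=
    IsDef.isAdicComplete ⟨⟨2, hm2.le⟩, 1, by rw [pow_one]; exact bot_le⟩
  have hex : ∀ a : Fin (n - 1) → GaloisField p n,
      ∃ φ : LTRing p n →ₐ[WittVector p (GaloisField p n)] B, (∀ w, φ (C w) = s w) ∧
        (∀ j, φ (X j) = inr (a j)) ∧ r.comp φ.toRingHom = LTRing.residue p n := by
    intro a
    obtain ⟨x, hC, hX⟩ := exists_mk s (fun j => (inr (a j) : B)) (hN a)
    refine ⟨{ x with commutes' := fun w => hC w }, hC, hX, ?_⟩
    letI := Adic.discrete (GaloisField p n)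
    have e : ∀ j, (r.comp x) (X j) = 0 := fun j => by rw [RingHom.comp_apply, hX]; rfl
    exact hom_ext (ψ := r.comp x) (fun j => by rw [e]; exact Ideal.zero_mem _)
      (fun w => by rw [RingHom.comp_apply, hC]; rfl) (fun j => by rw [e, residue_X])
  obtain ⟨φ, hC, hX, hφ⟩ := hex a
  obtain ⟨φ₀, hC₀, hX₀, hφ₀⟩ := hex 0
  have hv : ∀ j < n, PowerSeries.coeff (p ^ j) (mulSeries (H.map φ.toRingHom) p) = 0 := by
    intro j hj
    change vv p (H.map φ.toRingHom) j = 0
    rcases j with _ | j
    · rw [vv_zero, hp]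
    · rw [vv_map]
      have hN' : ∀ i, φ.toRingHom (X i) ∈ Nil B := fun i => by
        change φ (X i) ∈ _
        rw [hX]; exact hN a i
      have h1 := ev_sub_linear_mem hN'
        (MvPowerSeries.map (φ.toRingHom.comp C) (vv p H (j + 1)))
      rw [← hom_eq_ev _ hN'] at h1
      have h2 : Ideal.span (Set.range fun i => φ.toRingHom (X i)) ≤
          IsLocalRing.maximalIdeal B := by
        rw [Ideal.span_le, ← hker]
        rintro _ ⟨i, rfl⟩
        change r (φ (X i)) = 0
        rw [hX]; rfl
      have h3 := Ideal.pow_right_mono h2 2 h1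
      rw [hm2, Ideal.mem_bot, sub_eq_zero] at h3
      rw [h3, constantCoeff_map]
      have h4 : ∀ w, (φ.toRingHom.comp C) w = inl (WittVector.constantCoeff w) := fun w => hC w
      have h5 : ∀ i, φ.toRingHom (X i) = inr (a i) := hX
      have h6 : ∀ c d : GaloisField p n, (inl c : B) * (inr d : B) = (inr (c * d) : B) :=
        fun c d => inl_mul_inr c d
      simp only [coeff_map, h4, h5, h6]
      rw [cc_vv S ⟨j, by omega⟩]
      exact (add_eq_right.2 (inl_zero _)).trans
        ((inr_sum _ _ _).symm.trans (by rw [ha ⟨j, by omega⟩]; exact inr_zero _))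
  have hG : (H.map φ.toRingHom).map r = Γ := by rw [fg_map_map, hφ, S.hH.1]
  obtain ⟨w, -, hw⟩ := exists_w hp (H.map φ.toRingHom) hv
  have hwX : PowerSeries.map r w = PowerSeries.X := by
    have h1 := congrArg (PowerSeries.map r) hw
    rw [← mulSeries_map, hG, S.hΓ, PowerSeries.map_expand,
      ← PowerSeries.expand_X _ (pow_ne_zero_p p n)] at h1
    exact (mv_expand_injective (σ := Unit) (pow_ne_zero_p p n) h1).symm
  have hhom := isFGHom_mulSeries (H.map φ.toRingHom) p
  rw [hw] at hhom
  have hhom2 := IsFGHom.of_expand hhom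
  have hF : (iterateFrobenius B p n).comp φ.toRingHom = φ₀.toRingHom := by
    have h2 : 2 ≤ p ^ n := (Fact.out : p.Prime).two_le.trans (Nat.le_self_pow (by
      have := S.hn; omega) p)
    have e : ∀ j, ((iterateFrobenius B p n).comp φ.toRingHom) (X j) = 0 := fun j => by
      change φ (X j) ^ p ^ n = 0
      obtain ⟨m, hm⟩ := Nat.exists_eq_add_of_le h2
      rw [hX, hm, pow_add, pow_two, inr_mul_inr, zero_mul]
    refine hom_ext (fun j => by rw [e]; exact Ideal.zero_mem _) (fun w => ?_) fun j => ?_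
    · change φ (C w) ^ p ^ n = φ₀ (C w)
      letI := Fintype.ofFinite (GaloisField p n)
      have hcard : Fintype.card (GaloisField p n) = p ^ n := by
        rw [← Nat.card_eq_fintype_card, GaloisField.card p n (by have := S.hn; omega)]
      rw [hC, hC₀, hs, inl_pow, ← hcard, FiniteField.pow_card]
    · rw [e]
      change 0 = φ₀ (X j)
      rw [hX₀]; simp
  rw [fg_map_map, hF] at hhom2
  have huniq := (S.hH.2 B hcomp r (fun c => ⟨inl c, rfl⟩) hker (RingHom.ext fun _ => rfl)
    (H.map φ.toRingHom) hG).unique ⟨hφ, PowerSeries.X, isFGHom_X _, PowerSeries.map_X _⟩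
    ⟨hφ₀, w, hhom2, hwX⟩
  funext j
  have h1 := hX j
  rw [huniq, hX₀] at h1
  exact (inr_injective h1).symm

end E0Coord

open E0Coord

theorem LTS.exists_coord (S : LTS Γ H) :
    ∃ ψ : LTRing p n ≃+* LTRing p n, (∀ w, ψ (C w) = C w) ∧
      ∀ i : Fin (n - 1), ψ (X i) = vv p H (i + 1) - C (constantCoeff (vv p H (i + 1))) := by
  classical
  let T : Fin (n - 1) → LTRing p n := fun i =>
    vv p H (i + 1) - C (constantCoeff (vv p H (i + 1)))
  have h0 : ∀ i, constantCoeff (T i) = 0 := fun i => by simp [T]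
  have hJ : IsUnit (Matrix.of fun i j => coeff (Finsupp.single j 1) (T i)).det := by
    apply WittVector.isUnit_of_coeff_zero_ne_zero
    change WittVector.constantCoeff _ ≠ 0
    rw [RingHom.map_det, Ne, ← Matrix.exists_mulVec_eq_zero_iff]
    rintro ⟨a, ha0, ha⟩
    refine ha0 (jac_injective S a fun i => ?_)
    have h1 := congrFun ha i
    rw [Pi.zero_apply] at h1
    rw [← h1]
    refine Finset.sum_congr rfl fun j _ => ?_
    have : coeff (Finsupp.single j 1) (T i) = coeff (Finsupp.single j 1) (vv p H (i + 1)) := by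
      simp [T, coeff_C]
    rw [← this]
    rfl
  have hS : HasSubst T := hasSubst_of_constantCoeff_zero h0
  have hb := subst_bijective T h0 hJ
  rw [← coe_substAlgHom hS] at hb
  refine ⟨RingEquiv.ofBijective (substAlgHom hS).toRingHom hb, fun w => ?_, fun i => ?_⟩
  · exact (substAlgHom hS).commutes w
  · exact substAlgHom_X hS i

theorem LTS.heightIdeal_n (S : LTS Γ H) : heightIdeal p n H n = mE p n := by
  refine le_antisymm (S.heightIdeal_le le_rfl) fun f hf => ?_
  obtain ⟨ψ, hC, hX⟩ := S.exists_coord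
  have hp : (p : LTRing p n) ∈ heightIdeal p n H n := by
    rw [← vv_zero H]
    exact vv_mem_heightIdeal S.hn
  obtain ⟨g, rfl⟩ := ψ.surjective f
  obtain ⟨g', hg, -⟩ := exists_eq_C_add_sum g
  have h1 : ψ g = C (constantCoeff g) + ∑ i, ψ (X i) * ψ (g' i) := by
    conv_lhs => rw [hg]
    simp only [map_add, map_sum, map_mul, hC]
  have h2 : WittVector.constantCoeff (constantCoeff g) = 0 := by
    have h3 : LTRing.residue p n (ψ g) = 0 := hf
    rw [h1, map_add, map_sum, Finset.sum_eq_zero, add_zero] at h3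
    · exact h3
    · intro i _
      rw [map_mul, hX, residue_sub_C, zero_mul]
  rw [h1]
  refine Ideal.add_mem _ (map_mem_of_cc C hp h2)
    (Ideal.sum_mem _ fun i _ => Ideal.mul_mem_right _ _ ?_)
  rw [hX]
  exact Ideal.sub_mem _ (vv_mem_heightIdeal (by omega)) (map_mem_of_cc C hp (cc_vv S i))

theorem LTS.map_mem (S : LTS Γ H) {B : Type*} [CommRing B] {x : LTRing p n →+* B} {𝔞 : Ideal B}
    (hp : (p : B) ∈ 𝔞) (hv : ∀ j : Fin (n - 1), x (vv p H (j + 1)) ∈ 𝔞) {f : LTRing p n}
    (hf : LTRing.residue p n f = 0) : x f ∈ 𝔞 := by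
  have : heightIdeal p n H n ≤ 𝔞.comap x := heightIdeal_le_iff.2 fun j hj => by
    rcases j with _ | j
    · rw [vv_zero, Ideal.mem_comap, map_natCast]
      exact hp
    · exact hv ⟨j, by omega⟩
  rw [S.heightIdeal_n] at this
  exact this hf

variable {B : Type*} [CommRing B] [Adic B]

theorem LTS.hom_ext (S : LTS Γ H) {x x' : LTRing p n →+* B}
    (hx : ∀ f, LTRing.residue p n f = 0 → x f ∈ Nil B) (hC : ∀ w, x (C w) = x' (C w))
    (hv : ∀ j : Fin (n - 1), x (vv p H (j + 1)) = x' (vv p H (j + 1))) : x = x' := by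
  obtain ⟨ψ, hψC, hψX⟩ := S.exists_coord
  have h : x.comp ψ.toRingHom = x'.comp ψ.toRingHom := by
    refine R227.hom_ext (fun i => ?_) (fun w => ?_) fun i => ?_
    · change x (ψ (X i)) ∈ _
      rw [hψX]
      exact hx _ (residue_sub_C _)
    · change x (ψ (C w)) = x' (ψ (C w))
      rw [hψC, hC]
    · change x (ψ (X i)) = x' (ψ (X i))
      rw [hψX, map_sub, map_sub, hv, hC]
  ext1 f
  obtain ⟨g, rfl⟩ := ψ.surjective f
  exact DFunLike.congr_fun h g

theorem LTS.exists_hom (S : LTS Γ H) (s : WittVector p (GaloisField p n) →+* B)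
    (hp : (p : B) ∈ Nil B) (a : Fin (n - 1) → B) (ha : ∀ j, a j ∈ Nil B) :
    ∃ x : LTRing p n →+* B, (∀ w, x (C w) = s w) ∧ ∀ j : Fin (n - 1), x (vv p H (j + 1)) = a j := by
  obtain ⟨ψ, hψC, hψX⟩ := S.exists_coord
  obtain ⟨y, hC, hX⟩ := exists_mk s (fun j => a j - s (constantCoeff (vv p H (j + 1))))
    fun j => Ideal.sub_mem _ (ha j) (map_mem_of_cc s hp (cc_vv S j))
  refine ⟨y.comp ψ.symm.toRingHom, fun w => ?_, fun j => ?_⟩
  · change y (ψ.symm (C w)) = _
    rw [← hψC, RingEquiv.symm_apply_apply, hC]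
  · change y (ψ.symm _) = _
    have : vv p H (j + 1) = ψ (X j + C (constantCoeff (vv p H (j + 1)))) := by
      rw [map_add, hψX, hψC, sub_add_cancel]
    rw [this, RingEquiv.symm_apply_apply, map_add, hX, hC, sub_add_cancel]

theorem LTS.injective (S : LTS Γ H) {x : LTRing p n →+* MvPowerSeries (Fin (n - 1)) B}
    {s : WittVector p (GaloisField p n) →+* B} (hs : Function.Injective s) (hp : (p : B) ∈ Nil B)
    (hC : ∀ w, x (C w) = C (s w)) {c : Fin (n - 1) → B} (hc : ∀ j, c j ∈ Nil B)
    (hv : ∀ j : Fin (n - 1), x (vv p H (j + 1)) = C (c j) + X j) : Function.Injective x := by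
  obtain ⟨ψ, hψC, hψX⟩ := S.exists_coord
  have hc' : ∀ j, c j - s (constantCoeff (vv p H (j + 1))) ∈ Nil B :=
    fun j => Ideal.sub_mem _ (hc j) (map_mem_of_cc s hp (cc_vv S j))
  have hN : ∀ j, (C (c j - s (constantCoeff (vv p H (j + 1)))) + X j :
      MvPowerSeries (Fin (n - 1)) B) ∈ Nil _ :=
    fun j => Ideal.add_mem _ (mapsNil_C _ (hc' j)) (X_mem_Nil j)
  obtain ⟨T, hTC, hTX⟩ := exists_mk (C : B →+* MvPowerSeries (Fin (n - 1)) B) _ hN
  have h : T.comp (MvPowerSeries.map s) = x.comp ψ.toRingHom := by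
    refine R227.hom_ext (fun i => ?_) (fun w => ?_) fun i => ?_
    · rw [RingHom.comp_apply, map_X, hTX]
      exact hN i
    · change _ = x (ψ (C w))
      rw [RingHom.comp_apply, map_C, hTC, hψC, hC]
    · change _ = x (ψ (X i))
      rw [RingHom.comp_apply, map_X, hTX, hψX, map_sub, map_sub, hv, hC]
      ring
  have h1 : Function.Injective (MvPowerSeries.map (σ := Fin (n - 1)) s) := fun f g hfg => by
    ext1 α
    apply hs
    rw [← coeff_map, hfg, coeff_map]
  have h2 : Function.Injective (x.comp ψ.toRingHom) := by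
    rw [← h, RingHom.coe_comp]
    exact (shift_injective hc' hTC hTX).comp h1
  exact Function.Injective.of_comp_right (g := ψ) h2 ψ.surjective

theorem LTS.ker_eq (S : LTS Γ H) {h : ℕ} (hh : 1 ≤ h) (hn : h ≤ n)
    {x : LTRing p n →+* MvPowerSeries {j : Fin (n - 1) // h ≤ j + 1} B}
    {s : WittVector p (GaloisField p n) →+* B}
    (hs : RingHom.ker s = Ideal.span {(p : WittVector p (GaloisField p n))})
    (hC : ∀ w, x (C w) = C (s w)) {c : {j : Fin (n - 1) // h ≤ j + 1} → B} (hc : ∀ j, c j ∈ Nil B)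
    (hv0 : ∀ j : Fin (n - 1), j + 1 < h → x (vv p H (j + 1)) = 0)
    (hv : ∀ j : {j : Fin (n - 1) // h ≤ j + 1}, x (vv p H (j.1 + 1)) = C (c j) + X j) :
    RingHom.ker x = heightIdeal p n H h := by
  obtain ⟨ψ, hψC, hψX⟩ := S.exists_coord
  have hp : (p : LTRing p n) ∈ heightIdeal p n H h := by
    rw [← vv_zero H]
    exact vv_mem_heightIdeal hh
  have hsp : (p : B) = 0 := by
    rw [← map_natCast s, ← RingHom.mem_ker, hs]
    exact Ideal.mem_span_singleton_self _
  have hs0 : ∀ j : Fin (n - 1), s (constantCoeff (vv p H (j + 1))) = 0 := fun j =>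
    map_mem_of_cc s (J := ⊥) hsp (cc_vv S j)
  refine le_antisymm (fun f hf => ?_) (heightIdeal_le_iff.2 fun j hj => ?_)
  · have hN : ∀ j, (C (c j) + X j : MvPowerSeries {j : Fin (n - 1) // h ≤ j + 1} B) ∈ Nil _ :=
      fun j => Ideal.add_mem _ (mapsNil_C _ (hc j)) (X_mem_Nil j)
    obtain ⟨T, hTC, hTX⟩ :=
      exists_mk (C : B →+* MvPowerSeries {j : Fin (n - 1) // h ≤ j + 1} B) _ hN
    obtain ⟨π, hπC, hπX⟩ := exists_mk (C : WittVector p (GaloisField p n) →+*
        MvPowerSeries {j : Fin (n - 1) // h ≤ j + 1} _)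
      (fun j : Fin (n - 1) => if hj : h ≤ j + 1 then X ⟨j, hj⟩ else 0) fun j => by
        split_ifs
        · exact X_mem_Nil _
        · exact Ideal.zero_mem _
    obtain ⟨ρ, hρC, hρX⟩ := exists_mk (C : WittVector p (GaloisField p n) →+* LTRing p n)
      (fun j : {j : Fin (n - 1) // h ≤ j + 1} => X j.1) fun j => X_mem_Nil _
    have e : T.comp ((MvPowerSeries.map s).comp π) = x.comp ψ.toRingHom := by
      refine R227.hom_ext (fun i => ?_) (fun w => ?_) fun i => ?_
      · rw [RingHom.comp_apply, RingHom.comp_apply, hπX]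
        split_ifs
        · rw [map_X, hTX]
          exact hN _
        · simp
      · change _ = x (ψ (C w))
        rw [RingHom.comp_apply, RingHom.comp_apply, hπC, map_C, hTC, hψC, hC]
      · change _ = x (ψ (X i))
        rw [RingHom.comp_apply, RingHom.comp_apply, hπX, hψX, map_sub, hC, hs0, map_zero,
          sub_zero]
        split_ifs with hi
        · rw [map_X, hTX, hv ⟨i, hi⟩]
        · rw [hv0 i (by omega), map_zero, map_zero]
    obtain ⟨g, rfl⟩ := ψ.surjective f
    have h1 : MvPowerSeries.map s (π g) = 0 := by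
      apply shift_injective hc hTC hTX
      rw [map_zero]
      exact (DFunLike.congr_fun e g).trans hf
    obtain ⟨g', hg'⟩ := exists_eq_C_mul (c := (p : WittVector p (GaloisField p n))) (F := π g)
      fun α => by rw [← hs, RingHom.mem_ker, ← coeff_map, h1, map_zero]
    have hN' : ∀ i, (ρ.comp π) (X i) ∈ Nil (LTRing p n) := fun i => by
      rw [RingHom.comp_apply, hπX]
      split_ifs
      · rw [hρX]
        exact X_mem_Nil _
      · simp
    have h2 := ev_sub_ev_mem (J := (heightIdeal p n H h).comap ψ.toRingHom) (a := X)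
      (fun i => X_mem_Nil i) hN' (fun i => by
        rw [RingHom.comp_apply, hπX]
        split_ifs with hi
        · rw [hρX, sub_self]
          exact Ideal.zero_mem _
        · rw [map_zero, sub_zero]
          change ψ (X i) ∈ heightIdeal p n H h
          rw [hψX]
          exact Ideal.sub_mem _ (vv_mem_heightIdeal (by omega)) (map_mem_of_cc C hp (cc_vv S i)))
      (MvPowerSeries.map C g)
    have h3 : (ρ.comp π).comp C = C := RingHom.ext fun w => by
      rw [RingHom.comp_apply, RingHom.comp_apply, hπC, hρC]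
    have h4 := hom_eq_ev (ρ.comp π) hN' g
    rw [h3] at h4
    rw [ev_map_C_X, ← h4, RingHom.comp_apply, hg', map_mul, hρC, map_natCast] at h2
    have h5 : ψ (g - p * ρ g') ∈ heightIdeal p n H h := h2
    rw [map_sub, map_mul, map_natCast] at h5
    simpa using Ideal.add_mem _ h5 (Ideal.mul_mem_right (ψ (ρ g')) _ hp)
  · rw [RingHom.mem_ker]
    rcases j with _ | j
    · rw [vv_zero, map_natCast, ← map_natCast (C : B →+* _), hsp, map_zero]
    · exact hv0 ⟨j, by omega⟩ hj

theorem LTS.isPrime (S : LTS Γ H) {h : ℕ} (hn : h ≤ n) : (heightIdeal p n H h).IsPrime := by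
  rcases Nat.eq_zero_or_pos h with rfl | hh
  · exact Ideal.isPrime_bot
  letI := Adic.discrete (GaloisField p n)
  obtain ⟨x, hC, hv⟩ := S.exists_hom
    ((C : GaloisField p n →+* MvPowerSeries {j : Fin (n - 1) // h ≤ j + 1} _).comp
      WittVector.constantCoeff)
    (by rw [← map_natCast (C : GaloisField p n →+* _), CharP.cast_eq_zero, map_zero]
        exact Ideal.zero_mem _)
    (fun j => if hj : h ≤ j + 1 then X ⟨j, hj⟩ else 0) fun j => by
      split_ifs
      · exact X_mem_Nil _
      · exact Ideal.zero_mem _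
  rw [← S.ker_eq hh hn (x := x) ker_constantCoeff_witt hC (c := fun _ => 0)
    (fun _ => Ideal.zero_mem _) (fun j hj => by rw [hv, dif_neg (by omega)])
    fun j => by rw [hv, dif_pos j.2, map_zero, zero_add]]
  haveI : IsDomain (MvPowerSeries {j : Fin (n - 1) // h ≤ j + 1} (GaloisField p n)) :=
    NoZeroDivisors.to_isDomain _
  exact RingHom.ker_isPrime x

end Crest.Agent.R227
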