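import Crest.Agent.R227.E0

/-! Row 227 (S0351), module `E0Stab`: the action of the stabilizer group. -/

set_option autoImplicit false
set_option linter.unusedSectionVars false
set_option linter.style.haveILetI false

namespace Crest.Agent.R227

open MvPowerSeries Crest.LubinTate

section stabaux

variable {R S : Type*} [CommRing R] [CommRing S]

theorem stab_map_subst (φ : R →+* S) {b : PowerSeries R} (hb : PowerSeries.constantCoeff b = 0)
    (f : PowerSeries R) : PowerSeries.map φ (PowerSeries.subst b f) =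
      PowerSeries.subst (PowerSeries.map φ b) (PowerSeries.map φ f) :=
  PowerSeries.map_subst (PowerSeries.HasSubst.of_constantCoeff_zero' hb) f

theorem stab_map_map {T : Type*} [CommRing T] (φ : R →+* S) (ψ : S →+* T) (f : PowerSeries R) :
    PowerSeries.map ψ (PowerSeries.map φ f) = PowerSeries.map (ψ.comp φ) f := by
  rw [PowerSeries.map_comp, RingHom.comp_apply]

theorem stab_exists_lift {r : R →+* S} (hr : Function.Surjective r) {g : PowerSeries S}
    (g0 : PowerSeries.constantCoeff g = 0) :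
    ∃ γ : PowerSeries R, PowerSeries.constantCoeff γ = 0 ∧ PowerSeries.map r γ = g := by
  choose s hs using hr
  refine ⟨PowerSeries.mk fun i => if i = 0 then 0 else s (PowerSeries.coeff i g), by simp, ?_⟩
  ext i
  rw [PowerSeries.coeff_map, PowerSeries.coeff_mk]
  split_ifs with hi
  · subst hi
    rw [map_zero, PowerSeries.coeff_zero_eq_constantCoeff_apply, g0]
  · exact hs _

theorem stab_dvd_subst {b f : PowerSeries R} (hb : PowerSeries.HasSubst b)
    (hf : PowerSeries.constantCoeff f = 0) : b ∣ PowerSeries.subst b f := by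
  obtain ⟨f', rfl⟩ := PowerSeries.X_dvd_iff.2 hf
  rw [PowerSeries.subst_mul hb, PowerSeries.subst_X hb]
  exact dvd_mul_right _ _

/-- The height is invariant under isomorphisms. -/
theorem stab_coeff_mulSeries_eq_zero {p : ℕ} [Fact p.Prime] (hp : (p : R) = 0)
    {G G' : FormalGroup R} [G.IsComm] [G'.IsComm] {θ : PowerSeries R} (hθ : IsFGHom G G' θ)
    (hu : IsUnit (PowerSeries.coeff 1 θ)) {h : ℕ}
    (hc : ∀ j < h, PowerSeries.coeff (p ^ j) (mulSeries G' p) = 0) :
    ∀ j < h, PowerSeries.coeff (p ^ j) (mulSeries G p) = 0 := by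
  obtain ⟨w, hw0, hw⟩ := exists_w hp G' hc
  have hθs := PowerSeries.HasSubst.of_constantCoeff_zero' hθ.1
  have hps := PowerSeries.HasSubst.of_constantCoeff_zero' (constantCoeff_mulSeries G p)
  have h1 := IsFGHom.subst_mulSeries hθ p
  rw [hw, phi_subst_expand hθs] at h1
  have hq := pow_ne_zero_p p h
  have h2 : (PowerSeries.X : PowerSeries R) ^ p ^ h ∣ PowerSeries.subst (mulSeries G p) θ := by
    rw [h1]
    refine (pow_dvd_pow_of_dvd (PowerSeries.X_dvd_iff.2 hθ.1) _).trans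
      (stab_dvd_subst (PowerSeries.HasSubst.of_constantCoeff_zero' ?_) hw0)
    rw [map_pow, hθ.1, zero_pow hq]
  have h3 : PowerSeries.subst (PowerSeries.subst (mulSeries G p) θ) (θ.substInvOfIsUnit hu) =
      mulSeries G p := by
    rw [← PowerSeries.subst_comp_subst_apply hθs hps,
      PowerSeries.subst_substInvOfIsUnit_left θ hθ.1 hu, PowerSeries.subst_X hps]
  have h4 : (PowerSeries.X : PowerSeries R) ^ p ^ h ∣ mulSeries G p := by
    rw [← h3]
    exact h2.trans (stab_dvd_subst (PowerSeries.HasSubst.of_constantCoeff_zero'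
      (constantCoeff_subst1 (constantCoeff_mulSeries G p) hθ.1))
      (PowerSeries.constantCoeff_substInvOfIsUnit θ hu))
  exact fun j hj => PowerSeries.X_pow_dvd_iff.1 h4 _
    (Nat.pow_lt_pow_right (Fact.out : p.Prime).one_lt hj)

theorem stab_mulSeries_one (G : FormalGroup R) [G.IsComm] : mulSeries G 1 = PowerSeries.X := by
  letI := Adic.discrete R
  rw [← nsmul_ptX, one_nsmul]
  rfl

theorem stab_coeff_mem_pow {σ : Type*} {J : Ideal R} {𝔍 : Ideal (MvPowerSeries σ R)}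
    (h : ∀ f ∈ 𝔍, ∀ α, coeff α f ∈ J) (N : ℕ) : ∀ f ∈ 𝔍 ^ N, ∀ α, coeff α f ∈ J ^ N := by
  classical
  induction N with
  | zero => simp
  | succ N ih =>
    intro f hf
    rw [pow_succ] at hf
    refine Submodule.mul_induction_on hf (fun a ha b hb α => ?_) (fun a b ha hb α => ?_)
    · rw [coeff_mul, pow_succ]
      exact Ideal.sum_mem _ fun c _ => Ideal.mul_mem_mul (ih a ha _) (h b hb _)
    · rw [map_add]
      exact Ideal.add_mem _ (ha α) (hb α)

theorem stab_ker_map_pow {σ : Type*} (r : R →+* S) {N : ℕ} (hN : RingHom.ker r ^ N = ⊥) :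
    RingHom.ker (MvPowerSeries.map (σ := σ) r) ^ N = ⊥ := by
  refine eq_bot_iff.2 fun f hf => ?_
  have := stab_coeff_mem_pow (J := RingHom.ker r) (fun g hg α => by
    rw [RingHom.mem_ker] at hg ⊢
    rw [← coeff_map, hg, map_zero]) N f hf
  rw [hN] at this
  exact MvPowerSeries.ext fun α => by simpa using this α

/-- A multiple of a lift of an endomorphism is an endomorphism. -/
theorem stab_isFGHom_lift [Adic R] (r : R →+* S) (G : FormalGroup R) [G.IsComm]
    {δ' : PowerSeries R} (h0 : PowerSeries.constantCoeff δ' = 0)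
    (hδ : IsFGHom (G.map r) (G.map r) (PowerSeries.map r δ')) {M : ℕ}
    (hkill : ∀ t : Pt (G.map (C : R →+* MvPowerSeries (Fin 2) R)),
      t.1 ∈ RingHom.ker (MvPowerSeries.map r) → M • t = 0) :
    IsFGHom G G (PowerSeries.subst δ' (mulSeries G M)) := by
  have h0' := constantCoeff_map_eq_zero (C : R →+* MvPowerSeries (Fin 2) R) h0
  have hG : G.toPowerSeries ∈ Nil (MvPowerSeries (Fin 2) R) :=
    mem_Nil_of_constantCoeff G.zero_constantCoeff
  let a : Pt (G.map (C : R →+* MvPowerSeries (Fin 2) R)) := ⟨_, ev1_mem_Nil' hG h0'⟩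
  let b : Pt (G.map (C : R →+* MvPowerSeries (Fin 2) R)) := ⟨_, ev1_mem_Nil' (X_mem_Nil 0) h0'⟩
  let c : Pt (G.map (C : R →+* MvPowerSeries (Fin 2) R)) := ⟨_, ev1_mem_Nil' (X_mem_Nil 1) h0'⟩
  have ha : a.1 = PowerSeries.subst G.toPowerSeries δ' := (subst_eq_ev1 (hasSubst_fg G) δ').symm
  have hbc : (b + c).1 = subst ![PowerSeries.subst (X 0 : MvPowerSeries (Fin 2) R) δ',
      PowerSeries.subst (X 1 : MvPowerSeries (Fin 2) R) δ'] G.toPowerSeries := by
    rw [subst_eq_ev2 (hasSubst_subst_X h0 0) (hasSubst_subst_X h0 1),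
      subst_eq_ev1 (PowerSeries.HasSubst.X 0), subst_eq_ev1 (PowerSeries.HasSubst.X 1)]
    rfl
  have h1 : (a - (b + c)).1 ∈ RingHom.ker (MvPowerSeries.map (σ := Fin 2) r) := by
    rw [Pt.sub_val_mem_iff, RingHom.mem_ker, map_sub, sub_eq_zero, ha, hbc,
      PowerSeries.map_subst (hasSubst_fg G),
      map_subst (hasSubst_pair (hasSubst_subst_X h0 0) (hasSubst_subst_X h0 1))]
    have h2 := hδ.2
    rw [FormalGroup.map_toPowerSeries] at h2
    rw [h2]
    congr 1
    funext i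
    fin_cases i
    · simp [PowerSeries.map_subst (PowerSeries.HasSubst.X (0 : Fin 2))]
    · simp [PowerSeries.map_subst (PowerSeries.HasSubst.X (1 : Fin 2))]
  have h2 := hkill _ h1
  rw [nsmul_sub, nsmul_add, sub_eq_zero] at h2
  have h3 := congrArg Pt.val h2
  rw [Pt.add_val, Pt.nsmul_val, Pt.nsmul_val, Pt.nsmul_val, mulSeries_map] at h3
  refine isFGHom_iff.2 ⟨constantCoeff_subst1 h0 (constantCoeff_mulSeries G M), ?_⟩
  rw [ev1_map_subst _ h0 _ hG, ev1_map_subst _ h0 _ (X_mem_Nil 0),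
    ev1_map_subst _ h0 _ (X_mem_Nil 1)]
  exact h3

end stabaux

variable {p : ℕ} [Fact p.Prime] {n : ℕ} {Γ : FormalGroup (GaloisField p n)}
  {H : FormalGroup (LTRing p n)} [Γ.IsComm] [H.IsComm]

theorem stab_residue_algebraMap : (LTRing.residue p n).comp
    (algebraMap (WittVector p (GaloisField p n)) (LTRing p n)) = WittVector.constantCoeff :=
  RingHom.ext fun _ => rfl

theorem stab_isUnit {f : LTRing p n} (h : IsUnit (LTRing.residue p n f)) : IsUnit f := by
  by_contra h1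
  have h2 : f ∈ mE p n := by
    rw [mE_eq]
    exact h1
  exact h.ne_zero h2

theorem LTS.stab_univ (S : LTS Γ H) (G : FormalGroup (LTRing p n))
    (hG : G.map (LTRing.residue p n) = Γ) :
    ∃! φ : LTRing p n →ₐ[WittVector p (GaloisField p n)] LTRing p n,
      (LTRing.residue p n).comp φ.toRingHom = LTRing.residue p n ∧
      ∃ θ : PowerSeries (LTRing p n), IsFGHom (H.map φ.toRingHom) G θ ∧
        PowerSeries.map (LTRing.residue p n) θ = PowerSeries.X :=
  S.hH.2 (LTRing p n) (by rw [← mE_eq, ← idl_E0]; infer_instance) (LTRing.residue p n)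
    residue_surjective mE_eq stab_residue_algebraMap G hG

theorem LTS.stab_X_eq_id (S : LTS Γ H)
    {φ : LTRing p n →ₐ[WittVector p (GaloisField p n)] LTRing p n}
    (hφ : IsStabilizerMap p n H PowerSeries.X φ) : φ = AlgHom.id _ _ := by
  refine (S.stab_univ H S.hH.1).unique hφ ⟨rfl, PowerSeries.X, ?_, PowerSeries.map_X _⟩
  have : H.map (AlgHom.id (WittVector p (GaloisField p n)) (LTRing p n)).toRingHom = H :=
    fg_map_id H
  rw [this]
  exact isFGHom_X H

theorem stab_comp {g g' : PowerSeries (GaloisField p n)}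
    {φ φ' : LTRing p n →ₐ[WittVector p (GaloisField p n)] LTRing p n}
    (hφ : IsStabilizerMap p n H g φ) (hφ' : IsStabilizerMap p n H g' φ') :
    IsStabilizerMap p n H (PowerSeries.subst g g') (φ'.comp φ) := by
  obtain ⟨h1, θ, h2, h3⟩ := hφ
  obtain ⟨h1', θ', h2', h3'⟩ := hφ'
  have e : (φ'.comp φ).toRingHom = φ'.toRingHom.comp φ.toRingHom := rfl
  have h4 := IsFGHom.map h2 φ'.toRingHom
  rw [fg_map_map] at h4
  refine ⟨by rw [e, ← RingHom.comp_assoc, h1', h1], _, e ▸ IsFGHom.comp h2' h4, ?_⟩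
  rw [stab_map_subst _ h4.1, stab_map_map, h1', h3, h3']

theorem stab_inv {g : PowerSeries (GaloisField p n)} (hg : IsFGAut Γ g) :
    IsFGAut Γ (g.substInvOfIsUnit hg.2) :=
  ⟨IsFGHom.inv hg.1 hg.2, by
    rw [PowerSeries.coeff_one_substInvOfIsUnit]
    exact Units.isUnit _⟩

theorem stab_le_comap {g : PowerSeries (GaloisField p n)} (hg : IsFGAut Γ g)
    {φ : LTRing p n →ₐ[WittVector p (GaloisField p n)] LTRing p n}
    (hφ : IsStabilizerMap p n H g φ) (h : ℕ) :
    heightIdeal p n H h ≤ Ideal.comap φ.toRingHom (heightIdeal p n H h) := by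
  rw [heightIdeal_le_iff]
  intro j hj
  obtain ⟨-, θ, h2, h3⟩ := hφ
  have hp : (p : LTRing p n ⧸ heightIdeal p n H h) = 0 := by
    rw [← map_natCast (Ideal.Quotient.mk (heightIdeal p n H h)), Ideal.Quotient.eq_zero_iff_mem,
      ← vv_zero H]
    exact vv_mem_heightIdeal (by omega)
  have hu : IsUnit (PowerSeries.coeff 1 θ) :=
    stab_isUnit (by rw [← PowerSeries.coeff_map, h3]; exact hg.2)
  have := stab_coeff_mulSeries_eq_zero hp
    (IsFGHom.map h2 (Ideal.Quotient.mk (heightIdeal p n H h)))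
    (by rw [PowerSeries.coeff_map]; exact hu.map _) (h := h) (fun i hi => by
      change vv p _ i = 0
      rw [vv_map, Ideal.Quotient.eq_zero_iff_mem]
      exact vv_mem_heightIdeal hi) j hj
  change vv p _ j = 0 at this
  rw [vv_map, vv_map, Ideal.Quotient.eq_zero_iff_mem] at this
  exact this

theorem LTS.exists_stab (S : LTS Γ H) {g : PowerSeries (GaloisField p n)} (hg : IsFGAut Γ g) :
    ∃ φ, IsStabilizerMap p n H g φ := by
  obtain ⟨γ, h0, h1⟩ := stab_exists_lift (residue_surjective (p := p) (n := n)) hg.1.1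
  have hu : IsUnit (PowerSeries.coeff 1 γ) :=
    stab_isUnit (by rw [← PowerSeries.coeff_map, h1]; exact hg.2)
  obtain ⟨G, -, hG⟩ := exists_transport H h0 hu
  have h2 := IsFGHom.map hG (LTRing.residue p n)
  rw [S.hH.1, h1] at h2
  obtain ⟨φ, ⟨h3, θ, h4, h5⟩, -⟩ := S.stab_univ G (fg_eq_of_isFGHom hg.2 h2 hg.1)
  refine ⟨φ, h3, _, IsFGHom.comp hG h4, ?_⟩
  rw [stab_map_subst _ h4.1, h5, h1, PowerSeries.X_subst]

theorem LTS.isStable (S : LTS Γ H) (M h : ℕ) :
    IsStableIdeal p n Γ H M (heightIdeal p n H h) := by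
  intro g φ hg _ hφ
  refine le_antisymm (fun x hx => ?_) (stab_le_comap hg hφ h)
  obtain ⟨φ', hφ'⟩ := S.exists_stab (stab_inv hg)
  have h1 := stab_comp hφ hφ'
  rw [PowerSeries.subst_substInvOfIsUnit_left g hg.1.1 hg.2] at h1
  have h2 : φ' (φ x) = x := DFunLike.congr_fun (S.stab_X_eq_id h1) x
  rw [← h2]
  exact stab_le_comap (stab_inv hg) hφ' h hx

/-- The automorphism `1 + p ^ m δ`. -/
noncomputable def gm (Γ : FormalGroup (GaloisField p n)) (m : ℕ) (δ : PowerSeries (GaloisField p n)) :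
    PowerSeries (GaloisField p n) :=
  subst ![PowerSeries.X, PowerSeries.subst δ (mulSeries Γ (p ^ m))] Γ.toPowerSeries

variable {δ : PowerSeries (GaloisField p n)} {m : ℕ}

theorem isFGHom_gm (hδ : IsFGHom Γ Γ δ) (m : ℕ) : IsFGHom Γ Γ (gm Γ m δ) :=
  IsFGHom.add (isFGHom_X Γ) (IsFGHom.comp (isFGHom_mulSeries Γ _) hδ)

theorem LTS.stab_mulSeries_pow (S : LTS Γ H) (m : ℕ) :
    mulSeries Γ (p ^ m) = PowerSeries.X ^ (p ^ n) ^ m := by
  induction m with
  | zero => rw [pow_zero, pow_zero, pow_one, stab_mulSeries_one]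
  | succ m ih =>
    have hs := PowerSeries.HasSubst.X_pow (R := GaloisField p n) (pow_ne_zero_p p n)
    rw [pow_succ, mulSeries_mul, ih, S.hΓ, PowerSeries.subst_pow hs, PowerSeries.subst_X hs,
      ← pow_mul, ← pow_succ']

theorem LTS.coeff_gm (S : LTS Γ H) (hδ : IsFGHom Γ Γ δ) {i : ℕ} (hi : i ≤ m) :
    PowerSeries.coeff i (gm Γ m δ) = PowerSeries.coeff i PowerSeries.X := by
  letI := Adic.discrete (GaloisField p n)
  have hs := PowerSeries.HasSubst.of_constantCoeff_zero' hδ.1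
  have h0 := constantCoeff_subst1 hδ.1 (constantCoeff_mulSeries Γ (p ^ m))
  have h1 := Pt.add_val_sub_left_mem (ptX Γ) ⟨_, mem_Nil_of_constantCoeff h0⟩
  have h2 : gm Γ m δ = (ptX Γ + ⟨_, mem_Nil_of_constantCoeff h0⟩).1 :=
    subst_eq_ev2 PowerSeries.HasSubst.X' (PowerSeries.HasSubst.of_constantCoeff_zero' h0) _
  rw [← h2, Ideal.mem_span_singleton] at h1
  have h3 : (PowerSeries.X : PowerSeries (GaloisField p n)) ^ (p ^ n) ^ m ∣
      PowerSeries.subst δ (mulSeries Γ (p ^ m)) := by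
    rw [S.stab_mulSeries_pow, PowerSeries.subst_pow hs, PowerSeries.subst_X hs]
    exact pow_dvd_pow_of_dvd (PowerSeries.X_dvd_iff.2 hδ.1) _
  have h4 : m < (p ^ n) ^ m :=
    Nat.lt_pow_self (Nat.one_lt_pow (by have := S.hn; omega) (Fact.out : p.Prime).one_lt)
  have h5 := PowerSeries.X_pow_dvd_iff.1 (h3.trans h1) i (by omega)
  rw [map_sub, sub_eq_zero] at h5
  exact h5

theorem LTS.isFGAut_gm (S : LTS Γ H) (hδ : IsFGHom Γ Γ δ) (hm : 1 ≤ m) : IsFGAut Γ (gm Γ m δ) :=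
  ⟨isFGHom_gm hδ m, by rw [S.coeff_gm hδ hm]; simp⟩

theorem hom_gm {O : Type*} [CommRing O] [Adic O] (ι : GaloisField p n →+* O) (hδ : IsFGHom Γ Γ δ)
    (m : ℕ) (y : Pt (Γ.map ι)) :
    Pt.hom (IsFGHom.map (isFGHom_gm hδ m) ι) y = y + p ^ m • Pt.hom (IsFGHom.map hδ ι) y := by
  apply Pt.ext
  rw [Pt.hom_val, Pt.add_val, Pt.nsmul_val, Pt.hom_val, mulSeries_map, gm,
    ev1_map_subst2 ι PowerSeries.constantCoeff_X
      (constantCoeff_subst1 hδ.1 (constantCoeff_mulSeries Γ (p ^ m))) _ y.2,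
    ev1_map_subst ι hδ.1 _ y.2, PowerSeries.map_X, ev1_X y.2]
  rfl

theorem LTS.stab_key (S : LTS Γ H) (hδ : IsFGHom Γ Γ δ)
    {φ : LTRing p n →ₐ[WittVector p (GaloisField p n)] LTRing p n}
    (hφ : IsStabilizerMap p n H (gm Γ m δ) φ) (hm : 1 ≤ m) {𝔞 : Ideal (LTRing p n)} {N : ℕ}
    (h1 : 𝔞 ≤ mE p n) (h2 : mE p n ^ N ≤ 𝔞)
    (hkill : ∀ [Adic (LTRing p n ⧸ 𝔞)] (𝔍 : Ideal (MvPowerSeries (Fin 2) (LTRing p n ⧸ 𝔞))),
      (p : MvPowerSeries (Fin 2) (LTRing p n ⧸ 𝔞)) ∈ 𝔍 →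
      ∀ t : Pt ((H.map (Ideal.Quotient.mk 𝔞)).map
        (C : LTRing p n ⧸ 𝔞 →+* MvPowerSeries (Fin 2) (LTRing p n ⧸ 𝔞))),
        t.1 ∈ 𝔍 → (p ^ m • t).1 ∈ 𝔍 ^ N) (f : LTRing p n) : φ f - f ∈ 𝔞 := by
  letI := Adic.discrete (LTRing p n ⧸ 𝔞)
  haveI : Nontrivial (LTRing p n ⧸ 𝔞) :=
    Ideal.Quotient.nontrivial_iff.2 fun h => isMaximal_mE.ne_top (top_le_iff.1 (h ▸ h1))
  haveI : IsLocalRing (LTRing p n ⧸ 𝔞) :=
    IsLocalRing.of_surjective' (Ideal.Quotient.mk 𝔞) Ideal.Quotient.mk_surjective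
  let r : LTRing p n ⧸ 𝔞 →+* GaloisField p n :=
    Ideal.Quotient.lift 𝔞 (LTRing.residue p n) fun a ha => h1 ha
  have hr : r.comp (Ideal.Quotient.mk 𝔞) = LTRing.residue p n := RingHom.ext fun _ => rfl
  have hrs : Function.Surjective r := fun a => by
    obtain ⟨x, rfl⟩ := residue_surjective a
    exact ⟨Ideal.Quotient.mk 𝔞 x, rfl⟩
  have hker : RingHom.ker r = IsLocalRing.maximalIdeal _ :=
    IsLocalRing.eq_maximalIdeal (RingHom.ker_isMaximal_of_surjective r hrs)
  have hnil : RingHom.ker r ^ N = ⊥ := by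
    have h3 : RingHom.ker r ≤ (mE p n).map (Ideal.Quotient.mk 𝔞) := fun x hx => by
      obtain ⟨y, rfl⟩ := Ideal.Quotient.mk_surjective x
      exact Ideal.mem_map_of_mem _ hx
    refine eq_bot_iff.2 ((Ideal.pow_right_mono h3 N).trans ?_)
    rw [← Ideal.map_pow, Ideal.map_le_iff_le_comap]
    exact fun x hx => Ideal.Quotient.eq_zero_iff_mem.2 (h2 hx)
  have hc : IsAdicComplete (IsLocalRing.maximalIdeal (LTRing p n ⧸ 𝔞)) (LTRing p n ⧸ 𝔞) := by
    rw [← hker]
    exact IsDef.isAdicComplete ⟨⟨N, hnil.le⟩, 1, by rw [pow_one]; exact bot_le⟩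
  have hHb : (H.map (Ideal.Quotient.mk 𝔞)).map r = Γ := by rw [fg_map_map, hr, S.hH.1]
  obtain ⟨δ', hδ0, hδ'⟩ := stab_exists_lift hrs hδ.1
  have hη := stab_isFGHom_lift r (H.map (Ideal.Quotient.mk 𝔞)) hδ0 (by rwa [hHb, hδ'])
    (M := p ^ m) fun t ht => by
      have := hkill _ (by
        rw [RingHom.mem_ker, map_natCast, ← map_natCast (C : GaloisField p n →+* _),
          CharP.cast_eq_zero, map_zero]) t ht
      rw [stab_ker_map_pow r hnil] at this
      exact Pt.ext this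
  have hA := IsFGHom.add (isFGHom_X _) hη
  set A := subst ![PowerSeries.X, PowerSeries.subst δ' (mulSeries (H.map (Ideal.Quotient.mk 𝔞))
    (p ^ m))] (H.map (Ideal.Quotient.mk 𝔞)).toPowerSeries with hAdef
  have hrA : PowerSeries.map r A = gm Γ m δ := by
    have := map_subst (hasSubst_pair PowerSeries.HasSubst.X'
      (PowerSeries.HasSubst.of_constantCoeff_zero' hη.1)) (h := r)
      (H.map (Ideal.Quotient.mk 𝔞)).toPowerSeries
    refine this.trans ?_
    rw [gm, ← FormalGroup.map_toPowerSeries, hHb]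
    congr 1
    funext i
    fin_cases i
    · exact PowerSeries.map_X r
    · refine (stab_map_subst r hδ0 _).trans ?_
      rw [hδ', ← mulSeries_map, hHb]
      rfl
  have hu : IsUnit (PowerSeries.coeff 1 A) := by
    by_contra h3
    have h4 : PowerSeries.coeff 1 A ∈ RingHom.ker r := by
      rw [hker]
      exact h3
    rw [RingHom.mem_ker, ← PowerSeries.coeff_map, hrA] at h4
    exact (S.isFGAut_gm hδ hm).2.ne_zero h4
  obtain ⟨h3, θ, h4, h5⟩ := hφ
  have h6 := IsFGHom.map h4 (Ideal.Quotient.mk 𝔞)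
  rw [fg_map_map] at h6
  have h7 := (S.hH.2 (LTRing p n ⧸ 𝔞) hc r hrs hker (RingHom.ext fun _ => rfl) _ hHb).unique
    (y₁ := (Ideal.Quotient.mkₐ _ 𝔞).comp φ) (y₂ := Ideal.Quotient.mkₐ _ 𝔞)
    ⟨by rw [← h3]; rfl, _, IsFGHom.comp (IsFGHom.inv hA hu) h6, by
      rw [stab_map_subst _ h6.1, stab_map_map, hr, h5, ← hrA, ← stab_map_subst _ hA.1,
        PowerSeries.subst_substInvOfIsUnit_left A hA.1 hu, PowerSeries.map_X]⟩
    ⟨hr, PowerSeries.X, isFGHom_X _, PowerSeries.map_X _⟩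
  exact Ideal.Quotient.eq.1 (DFunLike.congr_fun h7 f)

theorem LTS.stab_sub_mem_zero (S : LTS Γ H) (hδ : IsFGHom Γ Γ δ)
    {φ : LTRing p n →ₐ[WittVector p (GaloisField p n)] LTRing p n}
    (hφ : IsStabilizerMap p n H (gm Γ m δ) φ) (hm : 1 ≤ m) (f : LTRing p n) :
    φ f - f ∈ mE p n ^ (m + 1) := by
  refine S.stab_key hδ hφ hm (N := m + 1) (Ideal.pow_le_self (by omega)) le_rfl
    (fun 𝔍 hp t ht => ?_) f
  have := Pt.pow_nsmul_mem_pow hp (j := 0) (t := t) (by simpa using ht) m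
  simpa using this

theorem LTS.stab_sub_mem (S : LTS Γ H) (hδ : IsFGHom Γ Γ δ)
    {φ : LTRing p n →ₐ[WittVector p (GaloisField p n)] LTRing p n}
    (hφ : IsStabilizerMap p n H (gm Γ m δ) φ) (hm : 1 ≤ m) {h : ℕ} (hh : 1 ≤ h) (hn : h ≤ n)
    (f : LTRing p n) : φ f - f ∈ heightIdeal p n H h ⊔ mE p n ^ (p ^ h) ^ m := by
  refine S.stab_key hδ hφ hm (N := (p ^ h) ^ m)
    (sup_le (S.heightIdeal_le hn) (Ideal.pow_le_self (pow_ne_zero _ (pow_ne_zero_p p h))))
    le_sup_right (fun 𝔍 _ t ht => ?_) f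
  have hv : ∀ j < h, vv p (H.map (Ideal.Quotient.mk
      (heightIdeal p n H h ⊔ mE p n ^ (p ^ h) ^ m))) j = 0 := fun j hj => by
    rw [vv_map, Ideal.Quotient.eq_zero_iff_mem]
    exact Ideal.mem_sup_left (vv_mem_heightIdeal hj)
  obtain ⟨w, hw0, hw⟩ := exists_w (by rw [← vv_zero (H.map (Ideal.Quotient.mk _))]; exact hv 0 hh)
    _ hv
  have key : ∀ k : ℕ, (p ^ k • t).1 ∈ 𝔍 ^ (p ^ h) ^ k := by
    intro k
    induction k with
    | zero => simpa using ht
    | succ k ih =>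
      have hN := (p ^ k • t).2
      rw [pow_succ' p, mul_nsmul', Pt.nsmul_val, mulSeries_map, hw, PowerSeries.map_expand,
        ev1_expand hN, pow_succ]
      have h1 := Ideal.pow_mem_pow ih (p ^ h)
      rw [← pow_mul 𝔍] at h1
      refine ev1_mem_of_mem (pow_mem_Nil hN (pow_ne_zero_p p h)) h1 ?_
      rw [constantCoeff_map_eq_zero _ hw0]
      exact Ideal.zero_mem _
  exact key m

end Crest.Agent.R227
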