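import Crest.Agent.R227.LTAux

/-! Row 227 (S0351), module `LT`: the Lubin-Tate law over `ℤ_[p]` with `[p] = p X + X ^ (p ^ e)`. -/

set_option autoImplicit false
set_option linter.unusedSectionVars false
set_option linter.style.haveILetI false
set_option linter.unusedVariables false

namespace Crest.Agent.R227

open MvPowerSeries Crest.LubinTate

variable {p : ℕ} [Fact p.Prime]

/-- `F` is the Lubin-Tate law of `p X + X ^ (p ^ e)`. -/
structure IsLT (p : ℕ) [Fact p.Prime] (e : ℕ) (F : FormalGroup ℤ_[p]) : Prop where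
  mul : mulSeries F p = PowerSeries.C (p : ℤ_[p]) * PowerSeries.X + PowerSeries.X ^ p ^ e
  deg : ∀ α : Fin 2 →₀ ℕ, coeff α F.toPowerSeries ≠ 0 → (p ^ e - 1) ∣ (α 0 + α 1 - 1)

namespace LTAux

section

variable {R : Type*} [CommRing R] {σ : Type*} [Finite σ]

theorem pair_mem {s t : MvPowerSeries σ R} (hs : s ∈ mm σ R) (ht : t ∈ mm σ R) :
    ∀ i, ![s, t] i ∈ mm σ R := by
  intro i
  fin_cases i
  · exact hs
  · exact ht

theorem Sol.op {p k : ℕ} {F : MvPowerSeries (Fin 2) R} (hF : Sol p k F) {s t : MvPowerSeries σ R}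
    (hs : Sol p k s) (ht : Sol p k t) : Sol p k (subst ![s, t] F : MvPowerSeries σ R) := by
  rw [← sb_apply _ (pair_mem hs.1 ht.1)]
  refine Sol.hom (RingHom.id R) (fun r => sb_C _ _ r) (fun i => ?_) hF
  rw [sb_X]
  fin_cases i
  · exact hs
  · exact ht

theorem op_lin {F : MvPowerSeries (Fin 2) R} (hF : F - (X 0 + X 1) ∈ mm (Fin 2) R ^ 2)
    {s t : MvPowerSeries σ R} (hs : s ∈ mm σ R) (ht : t ∈ mm σ R) :
    (subst ![s, t] F : MvPowerSeries σ R) - (s + t) ∈ mm σ R ^ 2 := by
  have := map_mem_pow (ψ := sb _ (pair_mem hs ht))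
    (fun i => by rw [sb_X]; exact pair_mem hs ht i) hF
  rwa [map_sub, map_add, sb_X, sb_X, sb_apply] at this

theorem coeff_rescale_const (a : R) (F : MvPowerSeries (Fin 2) R) (α : Fin 2 →₀ ℕ) :
    coeff α (rescale (fun _ => a) F) = a ^ (α 0 + α 1) * coeff α F := by
  rw [coeff_rescale, Finsupp.prod_fintype _ _ (by simp), Fin.prod_univ_two, pow_add]

theorem subst_C_mul_X (a : R) (F : MvPowerSeries (Fin 2) R) :
    (subst ![(C a * X 0 : MvPowerSeries (Fin 2) R), C a * X 1] F : MvPowerSeries (Fin 2) R) =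
      rescale (fun _ => a) F := by
  rw [rescale_eq_subst]
  congr 1
  funext i
  fin_cases i <;> simp [smul_eq_C_mul]

end

theorem deg_of_sol {k : ℕ} {F : MvPowerSeries (Fin 2) ℤ_[p]} (hF : Sol p k F)
    (hl : F - (X 0 + X 1) ∈ mm (Fin 2) ℤ_[p] ^ 2) (α : Fin 2 →₀ ℕ) (hα : coeff α F ≠ 0) :
    (k + 1) ∣ (α 0 + α 1 - 1) := by
  let K := AlgebraicClosure ℚ_[p]
  let φ : ℤ_[p] →+* K := (algebraMap ℚ_[p] K).comp PadicInt.Coe.ringHom
  have hφ : Function.Injective φ := (algebraMap ℚ_[p] K).injective.comp Subtype.val_injective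
  obtain ⟨ζ, hζ⟩ := HasEnoughRootsOfUnity.exists_primitiveRoot K (k + 1)
  have hζ' : ζ ^ (k + 2) = ζ := by rw [pow_succ, hζ.pow_eq_one, one_mul]
  have hm : Sol p k (MvPowerSeries.map φ F) :=
    Sol.hom φ (fun r => map_C _ r) (fun i => by rw [map_X]; exact sol_X i) hF
  have hml : MvPowerSeries.map φ F - (X 0 + X 1) ∈ mm (Fin 2) K ^ 2 := by
    have := map_mem_pow (ψ := MvPowerSeries.map φ) (fun i => by rw [map_X]; exact X_mem i) hl
    rwa [map_sub, map_add, map_X, map_X] at this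
  have h0 := (sol_X (p := p) (k := k) (R := K) (0 : Fin 2)).C_mul hζ'
  have h1 := (sol_X (p := p) (k := k) (R := K) (1 : Fin 2)).C_mul hζ'
  have e := Sol.unique (Fact.out : p.Prime).two_le (hm.C_mul hζ') (hm.op h0 h1) (by
    have := Ideal.sub_mem _ (Ideal.mul_mem_left _ (C ζ) hml) (op_lin hml h0.1 h1.1)
    convert this using 1
    ring)
  have e2 := congrArg (coeff α) e
  rw [subst_C_mul_X, coeff_rescale_const, coeff_C_mul, coeff_map] at e2
  have e3 := mul_right_cancel₀ (fun h => hα (hφ (h.trans (map_zero φ).symm))) e2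
  rcases Nat.eq_zero_or_pos (α 0 + α 1) with h | h
  · simp [h]
  · obtain ⟨m, hm⟩ := Nat.exists_eq_add_of_le h
    rw [hm, pow_add, pow_one] at e3
    rw [hm, Nat.add_sub_cancel_left, ← hζ.pow_eq_one_iff_dvd]
    exact (mul_left_cancel₀ (hζ.ne_zero (Nat.succ_ne_zero k)) ((mul_one ζ).trans e3)).symm

end LTAux

open LTAux in
theorem exists_LT (p : ℕ) [Fact p.Prime] {e : ℕ} (he : 1 ≤ e) :
    ∃ F : FormalGroup ℤ_[p], F.IsComm ∧ IsLT p e F := by
  have hp := (Fact.out : p.Prime).two_le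
  obtain ⟨k, hk⟩ : ∃ k, k + 2 = p ^ e :=
    ⟨p ^ e - 2, Nat.sub_add_cancel (hp.trans (Nat.le_self_pow (by omega) p))⟩
  obtain ⟨F, hF, hl⟩ := exists_sol (σ := Fin 2) hk (Ideal.add_mem _ (X_mem 0) (X_mem 1))
  have hl' := (mem_span_X_pow_iff _ _).1 hl
  have x : ∀ i : Fin 3, Sol p k (X i : MvPowerSeries (Fin 3) ℤ_[p]) := sol_X
  let G : FormalGroup ℤ_[p] :=
    { toPowerSeries := F
      zero_constantCoeff := mem_mm.1 hF.1
      lin_coeff_X := by
        have := hl' (Finsupp.single 0 1) (by simp)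
        simpa [coeff_index_single_X, sub_eq_zero] using this
      lin_coeff_Y := by
        have := hl' (Finsupp.single 1 1) (by simp)
        simpa [coeff_index_single_X, sub_eq_zero] using this
      assoc := by
        refine Sol.unique hp (hF.op (hF.op (x 0) (x 1)) (x 2)) (hF.op (x 0) (hF.op (x 1) (x 2))) ?_
        have := Ideal.sub_mem _ (Ideal.add_mem _ (op_lin hl (hF.op (x 0) (x 1)).1 (x 2).1)
          (op_lin hl (x 0).1 (x 1).1)) (Ideal.add_mem _ (op_lin hl (x 0).1 (hF.op (x 1) (x 2)).1)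
          (op_lin hl (x 1).1 (x 2).1))
        convert this using 1
        ring }
  have hm : ∀ m : ℕ, Sol p k (σ := Unit) (mulSeries G m) ∧
      mulSeries G m - (m : PowerSeries ℤ_[p]) * PowerSeries.X ∈ mm Unit ℤ_[p] ^ 2 := by
    intro m
    induction m with
    | zero => exact ⟨sol_zero, by simp [mulSeries]⟩
    | succ m ih =>
      refine ⟨hF.op ih.1 (sol_X ()), ?_⟩
      have := Ideal.add_mem _ (op_lin hl ih.1.1 (X_mem ())) ih.2
      convert this using 1
      change subst ![mulSeries G m, X ()] F - ((m + 1 : ℕ) : MvPowerSeries Unit ℤ_[p]) * X () =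
        subst ![mulSeries G m, X ()] F - (mulSeries G m + X ()) +
          (mulSeries G m - (m : MvPowerSeries Unit ℤ_[p]) * X ())
      push_cast
      ring
  refine ⟨G, ⟨?_⟩, ?_, fun α hα => ?_⟩
  · change F = subst ![X 1, X 0] F
    refine Sol.unique hp hF (hF.op (sol_X 1) (sol_X 0)) ?_
    have := Ideal.sub_mem _ hl (op_lin hl (X_mem 1) (X_mem 0))
    convert this using 1
    ring
  · rw [map_natCast, ← hk]
    refine Sol.unique (σ := Unit) hp (hm p).1 (sol_X ()).f ?_
    have := Ideal.sub_mem _ (hm p).2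
      (Ideal.pow_le_pow_right (by omega : 2 ≤ k + 2) (Ideal.pow_mem_pow (X_mem ()) (k + 2)))
    rwa [sub_sub] at this
  · rw [← hk]
    exact deg_of_sol hF hl α hα

/-- The homomorphism from `ℤ_[p]` to a ring of characteristic `p`. -/
noncomputable def toCharP (p : ℕ) [Fact p.Prime] (R : Type*) [CommRing R] [CharP R p] :
    ℤ_[p] →+* R :=
  (ZMod.castHom (dvd_refl p) R).comp PadicInt.toZMod

theorem padic_hom_ext {R : Type*} [CommRing R] (hp : (p : R) = 0) (κ κ' : ℤ_[p] →+* R) :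
    κ = κ' := by
  ext x
  have h := PadicInt.sub_zmodRepr_mem x
  rw [PadicInt.maximalIdeal_eq_span_p, Ideal.mem_span_singleton'] at h
  obtain ⟨y, hy⟩ := h
  rw [← sub_add_cancel x (PadicInt.zmodRepr x : ℕ), ← hy]
  simp [hp]

variable {R : Type*} [CommRing R] {e : ℕ} {F : FormalGroup ℤ_[p]}

theorem IsLT.mulSeries_map (hF : IsLT p e F) (κ : ℤ_[p] →+* R) :
    mulSeries (F.map κ) p = PowerSeries.C (p : R) * PowerSeries.X + PowerSeries.X ^ p ^ e := by
  rw [R227.mulSeries_map, hF.mul]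
  simp

theorem IsLT.mulSeries_map_char (hF : IsLT p e F) (hp : (p : R) = 0) (κ : ℤ_[p] →+* R) :
    mulSeries (F.map κ) p = PowerSeries.X ^ p ^ e := by
  rw [hF.mulSeries_map, hp, map_zero, zero_mul, zero_add]

/-- Multiplication by `a` with `a ^ (p ^ e) = a` is an endomorphism. -/
theorem IsLT.isFGHom_C_mul_X (hF : IsLT p e F) (he : 1 ≤ e) (κ : ℤ_[p] →+* R) {a : R}
    (ha : a ^ p ^ e = a) :
    IsFGHom (F.map κ) (F.map κ) (PowerSeries.C a * PowerSeries.X) := by
  have hs : ∀ s : MvPowerSeries (Fin 2) R, PowerSeries.HasSubst s →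
      PowerSeries.subst s (PowerSeries.C a * PowerSeries.X : PowerSeries R) = C a * s :=
    fun s hs => by rw [PowerSeries.subst_mul hs, PowerSeries.subst_C, PowerSeries.subst_X hs]
  refine ⟨by simp, ?_⟩
  rw [hs _ (hasSubst_fg _), hs _ (PowerSeries.HasSubst.X 0), hs _ (PowerSeries.HasSubst.X 1),
    LTAux.subst_C_mul_X]
  ext α
  rw [LTAux.coeff_rescale_const, coeff_C_mul, FormalGroup.map_toPowerSeries, coeff_map]
  by_cases hα : coeff α F.toPowerSeries = 0
  · rw [hα, map_zero, mul_zero, mul_zero]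
  · obtain ⟨m, hm⟩ := hF.deg α hα
    have h0 : α 0 + α 1 ≠ 0 := fun h => hα (by
      have : α = 0 := by
        ext i
        fin_cases i
        · exact (Nat.add_eq_zero_iff.1 h).1
        · exact (Nat.add_eq_zero_iff.1 h).2
      rw [this, coeff_zero_eq_constantCoeff_apply, F.zero_constantCoeff])
    have hq : 1 ≤ p ^ e := Nat.one_le_pow _ _ (Fact.out : p.Prime).pos
    have key : ∀ m : ℕ, a ^ ((p ^ e - 1) * m + 1) = a := fun m => by
      induction m with
      | zero => simp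
      | succ m ih =>
        rw [show (p ^ e - 1) * (m + 1) + 1 = (p ^ e - 1) * m + 1 + (p ^ e - 1) by ring, pow_add, ih,
          ← pow_succ', Nat.sub_add_cancel hq, ha]
    rw [show α 0 + α 1 = (p ^ e - 1) * m + 1 by omega, key]

/-- In characteristic `p` the Frobenius is an endomorphism of any law defined over `ℤ_[p]`. -/
theorem isFGHom_X_pow (F : FormalGroup ℤ_[p]) (hp : (p : R) = 0) (κ : ℤ_[p] →+* R) :
    IsFGHom (F.map κ) (F.map κ) (PowerSeries.X ^ p) := by
  have hpp : p.Prime := Fact.out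
  refine ⟨by simp [hpp.ne_zero], ?_⟩
  have hs : ∀ s : MvPowerSeries (Fin 2) R, PowerSeries.HasSubst s →
      PowerSeries.subst s (PowerSeries.X ^ p : PowerSeries R) = s ^ p :=
    fun s hs => by rw [PowerSeries.subst_pow hs, PowerSeries.subst_X hs]
  rw [hs _ (hasSubst_fg _), hs _ (PowerSeries.HasSubst.X 0), hs _ (PowerSeries.HasSubst.X 1)]
  rcases subsingleton_or_nontrivial R with hR | hR
  · ext α
    exact Subsingleton.elim _ _
  haveI : CharP R p := (CharP.charP_iff_prime_eq_zero hpp).2 hp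
  haveI : CharP (MvPowerSeries (Fin 2) R) p :=
    charP_of_injective_ringHom (f := (C : R →+* MvPowerSeries (Fin 2) R)) C_injective p
  have hX : ∀ i : Fin 2, (X i ^ p : MvPowerSeries (Fin 2) R) ∈ LTAux.mm (Fin 2) R := fun i =>
    Ideal.pow_mem_of_mem _ (LTAux.X_mem i) _ hpp.pos
  have e1 : (frobenius (MvPowerSeries (Fin 2) R) p).comp (MvPowerSeries.map κ) =
      (LTAux.sb _ (LTAux.pair_mem (hX 0) (hX 1))).comp (MvPowerSeries.map κ) :=
    LTAux.ext_mm (fun i => by rw [RingHom.comp_apply, map_X, frobenius_def]; exact hX i)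
      (fun r => by
        rw [RingHom.comp_apply, RingHom.comp_apply, map_C, LTAux.sb_C, frobenius_def, ← map_pow]
        congr 1
        exact DFunLike.congr_fun (padic_hom_ext hp ((frobenius R p).comp κ) κ) r)
      (fun i => by
        rw [RingHom.comp_apply, RingHom.comp_apply, map_X, LTAux.sb_X, frobenius_def]
        fin_cases i <;> rfl)
  have h := DFunLike.congr_fun e1 F.toPowerSeries
  rwa [RingHom.comp_apply, RingHom.comp_apply, frobenius_def, LTAux.sb_apply] at h

end Crest.Agent.R227
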