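import Crest.Agent.R227.Lazard
import Crest.Agent.R227.LT

/-! Row 227 (S0351), module `EndM`: endomorphisms of the group of points that come from
endomorphisms of the law; the two generators `ζ`, `Π`. -/

set_option autoImplicit false
set_option linter.unusedSectionVars false
set_option linter.style.haveILetI false

namespace Crest.Agent.R227

open MvPowerSeries Crest.LubinTate

section

variable {k O : Type*} [CommRing k] [CommRing O] [Adic O]

/-- The endomorphisms of `Γ(O)` induced by endomorphisms of `Γ`. -/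
def EndS (Γ : FormalGroup k) [Γ.IsComm] (ι : k →+* O) :
    Submonoid (AddMonoid.End (Pt (Γ.map ι))) where
  carrier := {e | ∃ δ : PowerSeries k, IsFGHom Γ Γ δ ∧
    ∀ y, (e y).1 = ev1 (PowerSeries.map ι δ) y.1}
  one_mem' := ⟨PowerSeries.X, isFGHom_X Γ, fun y => by
    rw [PowerSeries.map_X, ev1_X y.2]
    rfl⟩
  mul_mem' := by
    rintro e e' ⟨δ, hδ, h⟩ ⟨δ', hδ', h'⟩
    refine ⟨_, IsFGHom.comp hδ hδ', fun y => ?_⟩
    rw [ev1_map_subst ι hδ'.1 δ y.2, ← h' y, ← h]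
    rfl

theorem mem_EndS {Γ : FormalGroup k} [Γ.IsComm] {ι : k →+* O}
    {e : AddMonoid.End (Pt (Γ.map ι))} : e ∈ EndS Γ ι ↔ ∃ δ : PowerSeries k, IsFGHom Γ Γ δ ∧
      ∀ y, (e y).1 = ev1 (PowerSeries.map ι δ) y.1 := Iff.rfl

/-- The endomorphism of `Γ(O)` given by `δ`. -/
noncomputable def endOf {Γ : FormalGroup k} [Γ.IsComm] (ι : k →+* O) {δ : PowerSeries k}
    (hδ : IsFGHom Γ Γ δ) : AddMonoid.End (Pt (Γ.map ι)) := Pt.hom (IsFGHom.map hδ ι)

theorem endOf_val {Γ : FormalGroup k} [Γ.IsComm] (ι : k →+* O) {δ : PowerSeries k}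
    (hδ : IsFGHom Γ Γ δ) (y : Pt (Γ.map ι)) :
    (endOf ι hδ y).1 = ev1 (PowerSeries.map ι δ) y.1 := rfl

theorem endOf_mem {Γ : FormalGroup k} [Γ.IsComm] (ι : k →+* O) {δ : PowerSeries k}
    (hδ : IsFGHom Γ Γ δ) : endOf ι hδ ∈ EndS Γ ι := ⟨δ, hδ, fun _ => rfl⟩

theorem EndS_add {Γ : FormalGroup k} [Γ.IsComm] {ι : k →+* O} {e e' : AddMonoid.End (Pt (Γ.map ι))}
    (he : e ∈ EndS Γ ι) (he' : e' ∈ EndS Γ ι) : e + e' ∈ EndS Γ ι := by
  obtain ⟨δ, hδ, h⟩ := he
  obtain ⟨δ', hδ', h'⟩ := he'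
  refine ⟨_, IsFGHom.add hδ hδ', fun y => ?_⟩
  rw [ev1_map_subst2 ι hδ.1 hδ'.1 _ y.2, ← h y, ← h' y]
  rfl

theorem EndS_zero (Γ : FormalGroup k) [Γ.IsComm] (ι : k →+* O) : 0 ∈ EndS Γ ι :=
  ⟨0, isFGHom_zero Γ Γ, fun y => by
    rw [map_zero, ev1_zero]
    rfl⟩

theorem EndS_neg {Γ : FormalGroup k} [Γ.IsComm] {ι : k →+* O} {e : AddMonoid.End (Pt (Γ.map ι))}
    (he : e ∈ EndS Γ ι) : -e ∈ EndS Γ ι := by
  obtain ⟨δ, hδ, h⟩ := he
  obtain ⟨ν, hν, -, h1⟩ := exists_negSeries Γ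
  refine ⟨_, IsFGHom.comp hν hδ, fun y => ?_⟩
  rw [ev1_map_subst ι hδ.1 ν y.2, ← h y]
  have key : endOf ι hν (e y) = -e y := by
    rw [eq_neg_iff_add_eq_zero]
    apply Pt.ext
    have := ev1_map_subst2 ι hν.1 PowerSeries.constantCoeff_X Γ.toPowerSeries (e y).2
    rw [h1, map_zero, ev1_zero, PowerSeries.map_X, ev1_X (e y).2] at this
    exact this.symm
  exact (congrArg Pt.val key).symm

theorem exists_conj {Γ Γ' : FormalGroup k} [Γ.IsComm] [Γ'.IsComm] (ι : k →+* O)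
    {b : PowerSeries k} (hb : IsFGHom Γ Γ' b) (hu : IsUnit (PowerSeries.coeff 1 b)) :
    ∃ c : AddMonoid.End (Pt (Γ'.map ι)) →+* AddMonoid.End (Pt (Γ.map ι)),
      (∀ e ∈ EndS Γ' ι, c e ∈ EndS Γ ι) ∧
      ∀ e : AddMonoid.End (Pt (Γ'.map ι)), Function.Surjective e → Function.Surjective (c e) := by
  have hb' := IsFGHom.inv hb hu
  let B := Pt.hom (IsFGHom.map hb ι)
  let B' := Pt.hom (IsFGHom.map hb' ι)
  have h1 : ∀ y, B (B' y) = y := fun y => Pt.ext (by
    change ev1 _ (ev1 _ y.1) = y.1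
    rw [← ev1_map_subst _ hb'.1 _ y.2, PowerSeries.subst_substInvOfIsUnit_right b hb.1 hu,
      PowerSeries.map_X, ev1_X y.2])
  have hB := Pt.hom_bijective (IsFGHom.map hb ι) (by rw [PowerSeries.coeff_map]; exact hu.map _)
  have h2 : ∀ x, B' (B x) = x := fun x => hB.1 (h1 _)
  refine ⟨{ toFun := fun e => B'.comp (AddMonoidHom.comp e B)
            map_one' := AddMonoidHom.ext h2
            map_mul' := fun e e' => AddMonoidHom.ext fun x => ?_
            map_zero' := AddMonoidHom.ext fun x => map_zero B'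
            map_add' := fun e e' => AddMonoidHom.ext fun x => map_add B' _ _ }, ?_, ?_⟩
  · change B' (e (e' (B x))) = B' (e (B (B' (e' (B x)))))
    rw [h1]
  · rintro e ⟨δ, hδ, h⟩
    refine ⟨_, IsFGHom.comp hb' (IsFGHom.comp hδ hb), fun y => ?_⟩
    rw [ev1_map_subst ι (IsFGHom.comp hδ hb).1 _ y.2, ev1_map_subst ι hb.1 _ y.2]
    change ev1 _ (e (B y)).1 = _
    rw [h]
    rfl
  · intro e he
    exact (Function.LeftInverse.surjective h2).comp (he.comp hB.2)

theorem surjective_sub {Γ : FormalGroup k} [Γ.IsComm] (ι : k →+* O) {a b : k} (hab : IsUnit (a - b))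
    {e e' : AddMonoid.End (Pt (Γ.map ι))} (he : ∀ y, (e y).1 = ι a * y.1)
    (he' : ∀ y, (e' y).1 = ι b * y.1) :
    Function.Surjective (e - e' : AddMonoid.End (Pt (Γ.map ι))) := by
  letI := Adic.discrete k
  have hN : ∀ c : k, (PowerSeries.C c * PowerSeries.X : PowerSeries k) ∈ Nil (PowerSeries k) :=
    fun c => Ideal.mul_mem_left _ _ (X_mem_Nil ())
  let s : Pt (Γ.map (PowerSeries.C : k →+* PowerSeries k)) := ⟨_, hN a⟩
  let t : Pt (Γ.map (PowerSeries.C : k →+* PowerSeries k)) := ⟨_, hN b⟩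
  have hι : MapsNil ι := fun x hx => mem_Nil_of_isNilpotent ((mem_Nil_discrete.1 hx).map ι)
  have h0 : PowerSeries.constantCoeff (s - t).1 = 0 := by
    have := (Pt.sub_val_mem_iff (J := Ideal.span {PowerSeries.X}) s t).2
      (Ideal.sub_mem _ (Ideal.mul_mem_left _ _ (Ideal.mem_span_singleton_self _))
        (Ideal.mul_mem_left _ _ (Ideal.mem_span_singleton_self _)))
    rwa [Ideal.mem_span_singleton, PowerSeries.X_dvd_iff] at this
  have h1 : IsUnit (PowerSeries.coeff 1 (s - t).1) := by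
    obtain ⟨u, -, hu⟩ := Pt.exists_sub_val_eq s t
    have h2 := congrArg (PowerSeries.coeff 1) hu
    change PowerSeries.coeff 1 (PowerSeries.C a * PowerSeries.X - PowerSeries.C b * PowerSeries.X)
      = _ at h2
    rw [PowerSeries.coeff_one_mul, h0, mul_zero, add_zero, map_sub, PowerSeries.coeff_C_mul,
      PowerSeries.coeff_C_mul, PowerSeries.coeff_one_X, mul_one, mul_one] at h2
    exact isUnit_of_mul_isUnit_left (h2 ▸ hab)
  intro z
  obtain ⟨y, hy, h⟩ := exists_ev1_eq_of_unit (f := PowerSeries.map ι (s - t).1)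
    (by rw [constantCoeff_map_eq_zero ι h0]; exact Ideal.zero_mem _)
    (by rw [PowerSeries.coeff_map]; exact h1.map _) z.2
  refine ⟨⟨y, hy⟩, Pt.ext ?_⟩
  let φ : PowerSeries k →+* O := (evHom (fun _ : Unit => y) fun _ => hy).comp (MvPowerSeries.map ι)
  have hφ : MapsNil φ := (mapsNil_evHom _).comp hι.map
  have hφ' : ∀ f, φ f = ev1 (PowerSeries.map ι f) y := fun f => evHom_apply _ _
  have hφC : φ.comp PowerSeries.C = ι := RingHom.ext fun r => by
    rw [RingHom.comp_apply, hφ', PowerSeries.map_C, ev1_C hy]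
  let m := Pt.map (G := Γ.map (PowerSeries.C : k →+* PowerSeries k)) (G' := Γ.map ι) φ hφ
    (by rw [fg_map_map, hφC])
  have hm : ∀ c : k, φ (PowerSeries.C c * PowerSeries.X) = ι c * y := fun c => by
    rw [hφ', map_mul, PowerSeries.map_C, PowerSeries.map_X, ev1_C_mul hy, ev1_X hy]
  have e1 : m s = e ⟨y, hy⟩ := Pt.ext ((hm a).trans (he ⟨y, hy⟩).symm)
  have e2 : m t = e' ⟨y, hy⟩ := Pt.ext ((hm b).trans (he' ⟨y, hy⟩).symm)
  rw [← h, ← hφ']
  change (e ⟨y, hy⟩ - e' ⟨y, hy⟩).1 = (m (s - t)).1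
  rw [map_sub, e1, e2]

end

theorem exists_ZP {p : ℕ} [Fact p.Prime] {n : ℕ} (hn : 1 ≤ n) (Γ : FormalGroup (GaloisField p n))
    [Γ.IsComm] (hΓ : mulSeries Γ p = PowerSeries.X ^ p ^ n) {O : Type*} [CommRing O] [Adic O]
    (ι : GaloisField p n →+* O) :
    ∃ Z ∈ EndS Γ ι, ∃ P ∈ EndS Γ ι, P * Z = Z ^ p * P ∧
      P ^ n = (p : AddMonoid.End (Pt (Γ.map ι))) ∧
      ∀ d, 0 < d → d < n → Function.Surjective (Z ^ p ^ d - Z : AddMonoid.End (Pt (Γ.map ι))) := by
  have hpp : p.Prime := Fact.out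
  obtain ⟨F, hFc, hF⟩ := exists_LT p hn
  have hp0 : (p : GaloisField p n) = 0 := CharP.cast_eq_zero _ p
  let κ := toCharP p (GaloisField p n)
  have hFk := hF.mulSeries_map_char hp0 κ
  obtain ⟨b, hb, hb1⟩ := lazard hn Γ (F.map κ) hΓ hFk
  obtain ⟨c, hc, hc'⟩ := exists_conj ι hb (hb1 ▸ isUnit_one)
  obtain ⟨g, hg⟩ := IsCyclic.exists_ofOrder_eq_natCard (α := (GaloisField p n)ˣ)
  rw [Nat.card_units, GaloisField.card p n (by omega)] at hg
  have hq : ∀ d, 1 ≤ p ^ d := fun d => Nat.one_le_pow _ _ hpp.pos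
  have hg1 : (g : GaloisField p n) ^ p ^ n = g := by
    rw [← Nat.sub_add_cancel (hq n), ← hg, pow_succ, ← Units.val_pow_eq_pow_val, pow_orderOf_eq_one,
      Units.val_one, one_mul]
  let Z := endOf ι (hF.isFGHom_C_mul_X hn κ hg1)
  let P := endOf ι (isFGHom_X_pow F hp0 κ)
  have hZ : ∀ y, (Z y).1 = ι g * y.1 := fun y => by
    rw [endOf_val, map_mul, PowerSeries.map_C, PowerSeries.map_X, ev1_C_mul y.2, ev1_X y.2]
  have hP : ∀ y, (P y).1 = y.1 ^ p := fun y => by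
    rw [endOf_val, map_pow, PowerSeries.map_X, ev1_X_pow y.2]
  have hZm : ∀ m y, ((Z ^ m) y).1 = ι (g ^ m) * y.1 := fun m => by
    induction m with
    | zero => simp
    | succ m ih =>
      intro y
      rw [pow_succ]
      change ((Z ^ m) (Z y)).1 = _
      rw [ih, hZ, pow_succ, map_mul, mul_assoc]
  have hPm : ∀ m y, ((P ^ m) y).1 = y.1 ^ p ^ m := fun m => by
    induction m with
    | zero => simp
    | succ m ih =>
      intro y
      rw [pow_succ]
      change ((P ^ m) (P y)).1 = _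
      rw [ih, hP, ← pow_mul, pow_succ']
  refine ⟨c Z, hc _ (endOf_mem _ _), c P, hc _ (endOf_mem _ _), ?_, ?_, fun d h0 hd => ?_⟩
  · rw [← map_pow, ← map_mul, ← map_mul]
    congr 1
    refine AddMonoidHom.ext fun y => Pt.ext ?_
    change (P (Z y)).1 = ((Z ^ p) (P y)).1
    rw [hZm, hP, hP, hZ, mul_pow, map_pow]
  · rw [← map_pow, ← map_natCast c p]
    congr 1
    refine AddMonoidHom.ext fun y => Pt.ext ?_
    change ((P ^ n) y).1 = ((p : AddMonoid.End _) y).1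
    rw [hPm, AddMonoid.End.natCast_apply, Pt.nsmul_val, mulSeries_map, hFk, map_pow,
      PowerSeries.map_X, ev1_X_pow y.2]
  · rw [← map_pow, ← map_sub]
    refine hc' _ (surjective_sub ι (IsUnit.mk0 _ (sub_ne_zero.2 fun h => ?_)) (hZm _) hZ)
    have h1 : g ^ (p ^ d - 1) = 1 := by
      apply mul_right_cancel (b := g)
      rw [← pow_succ, Nat.sub_add_cancel (hq d), one_mul]
      exact Units.ext (by rw [Units.val_pow_eq_pow_val]; exact h)
    have h2 := Nat.le_of_dvd (by have := Nat.one_lt_pow h0.ne' hpp.one_lt; omega)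
      (hg ▸ orderOf_dvd_of_pow_eq_one h1)
    have h3 := Nat.pow_lt_pow_right hpp.one_lt hd
    have := hq d
    omega

end Crest.Agent.R227
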