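import Crest.Agent.R227.Pt

/-! Row 227 (S0351), module `LTAux`: the Lubin-Tate lemma for `f = p X + X ^ q`. -/

set_option autoImplicit false
set_option linter.unusedSectionVars false
set_option linter.style.haveILetI false

namespace Crest.Agent.R227.LTAux

open MvPowerSeries Crest.LubinTate

/-- The ideal spanned by the variables. -/
noncomputable abbrev mm (σ R : Type*) [CommRing R] : Ideal (MvPowerSeries σ R) := Ideal.span (Set.range X)

section general

variable {R K : Type*} [CommRing R] [CommRing K] {σ τ : Type*} [Finite σ] [Finite τ]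

theorem X_mem (i : σ) : (X i : MvPowerSeries σ R) ∈ mm σ R := Ideal.subset_span ⟨i, rfl⟩

theorem mem_mm {F : MvPowerSeries σ R} : F ∈ mm σ R ↔ constantCoeff F = 0 := by
  rw [mm, span_range_X]
  rfl

theorem ext_mm {ψ ψ' : MvPowerSeries τ R →+* MvPowerSeries σ K} (hN : ∀ i, ψ (X i) ∈ mm σ K)
    (hC : ∀ r, ψ (C r) = ψ' (C r)) (hX : ∀ i, ψ (X i) = ψ' (X i)) : ψ = ψ' := by
  letI := Adic.discrete K
  exact hom_ext (fun i => mem_Nil_of_constantCoeff (mem_mm.1 (hN i))) hC hX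

theorem map_mem_pow {ψ : MvPowerSeries τ R →+* MvPowerSeries σ K} (hN : ∀ i, ψ (X i) ∈ mm σ K)
    {N : ℕ} {F : MvPowerSeries τ R} (hF : F ∈ mm τ R ^ N) : ψ F ∈ mm σ K ^ N := by
  have h1 := Ideal.mem_map_of_mem ψ hF
  rw [Ideal.map_pow] at h1
  refine Ideal.pow_right_mono ?_ N h1
  rw [Ideal.map_span, Ideal.span_le]
  rintro _ ⟨_, ⟨i, rfl⟩, rfl⟩
  exact hN i

theorem map_mem {ψ : MvPowerSeries τ R →+* MvPowerSeries σ K} (hN : ∀ i, ψ (X i) ∈ mm σ K)
    {F : MvPowerSeries τ R} (hF : F ∈ mm τ R) : ψ F ∈ mm σ K := by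
  have := map_mem_pow hN (N := 1) (F := F) (by rwa [pow_one])
  rwa [pow_one] at this

theorem eq_zero_of_mem_pow {F : MvPowerSeries σ R} (h : ∀ N, F ∈ mm σ R ^ N) : F = 0 := by
  ext α
  exact (mem_span_X_pow_iff _ _).1 (h (α.degree + 1)) α (Nat.lt_succ_self _)

theorem mem_pow_of_C_mul [NoZeroDivisors R] {c : R} (hc : c ≠ 0) {N : ℕ} {F : MvPowerSeries σ R}
    (h : C c * F ∈ mm σ R ^ N) : F ∈ mm σ R ^ N := by
  rw [mem_span_X_pow_iff] at h ⊢
  intro α hα
  have := h α hα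
  rw [coeff_C_mul] at this
  exact (mul_eq_zero.1 this).resolve_left hc

/-- Substitution of elements of the ideal of the variables, as a ring homomorphism. -/
noncomputable def sb (a : τ → MvPowerSeries σ R) (ha : ∀ i, a i ∈ mm σ R) :
    MvPowerSeries τ R →+* MvPowerSeries σ R :=
  (substAlgHom (R := R) (hasSubst_of_constantCoeff_zero fun i => mem_mm.1 (ha i))).toRingHom

theorem sb_apply (a : τ → MvPowerSeries σ R) (ha : ∀ i, a i ∈ mm σ R) (F : MvPowerSeries τ R) :
    sb a ha F = subst a F := substAlgHom_apply _ F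

@[simp] theorem sb_X (a : τ → MvPowerSeries σ R) (ha : ∀ i, a i ∈ mm σ R) (i : τ) :
    sb a ha (X i) = a i := substAlgHom_X _ i

@[simp] theorem sb_C (a : τ → MvPowerSeries σ R) (ha : ∀ i, a i ∈ mm σ R) (r : R) :
    sb a ha (C r) = C r := by
  rw [sb_apply, subst_C]

variable (p k : ℕ)

theorem f_mem {F : MvPowerSeries σ R} (hF : F ∈ mm σ R) : p * F + F ^ (k + 2) ∈ mm σ R :=
  Ideal.add_mem _ (Ideal.mul_mem_left _ _ hF) (Ideal.pow_mem_of_mem _ hF _ (by omega))

variable (R σ) in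
/-- The substitution `X i ↦ p * X i + X i ^ (k + 2)`. -/
noncomputable def Phi : MvPowerSeries σ R →+* MvPowerSeries σ R :=
  sb (fun i => (p : MvPowerSeries σ R) * X i + X i ^ (k + 2)) fun i => f_mem p k (X_mem i)

theorem Phi_X (i : σ) : Phi R σ p k (X i) = (p : MvPowerSeries σ R) * X i + X i ^ (k + 2) :=
  sb_X _ _ i

theorem Phi_C (r : R) : Phi R σ p k (C r) = C r := sb_C _ _ r

theorem Phi_X_mem (i : σ) : Phi R σ p k (X i) ∈ mm σ R := by
  rw [Phi_X]
  exact f_mem p k (X_mem i)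

theorem Phi_sub_mem (r : ℕ) {D : MvPowerSeries σ R} (hD : D ∈ mm σ R ^ r) :
    Phi R σ p k D - p ^ r * D ∈ mm σ R ^ (r + 1) := by
  have h0 : ∀ D : MvPowerSeries σ R, Phi R σ p k D - D ∈ mm σ R := fun D => by
    have h1 : D - C (constantCoeff D) ∈ mm σ R := mem_mm.2 (by simp)
    have h2 := Ideal.sub_mem _ (map_mem (Phi_X_mem p k) h1) h1
    rwa [map_sub, Phi_C, sub_sub_sub_cancel_right] at h2
  have h1 : ∀ D ∈ mm σ R, Phi R σ p k D - p * D ∈ mm σ R ^ 2 := fun D hD => by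
    induction hD using Submodule.span_induction with
    | mem x hx =>
      obtain ⟨i, rfl⟩ := hx
      rw [Phi_X, add_sub_cancel_left]
      exact Ideal.pow_le_pow_right (by omega) (Ideal.pow_mem_pow (X_mem i) (k + 2))
    | zero => simp
    | add x y _ _ hx hy =>
      have := Ideal.add_mem _ hx hy
      rw [map_add]
      convert this using 1
      ring
    | smul c x hx ih =>
      have h3 := Ideal.mul_mem_mul (h0 c) (map_mem (Phi_X_mem p k) hx)
      rw [← sq] at h3
      have := Ideal.add_mem _ h3 (Ideal.mul_mem_left _ c ih)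
      rw [smul_eq_mul, map_mul]
      convert this using 1
      ring
  induction r generalizing D with
  | zero => simpa using h0 D
  | succ r ih =>
    rw [pow_succ] at hD
    refine Submodule.mul_induction_on hD (fun a ha b hb => ?_) (fun a b ha hb => ?_)
    · have h3 := Ideal.mul_mem_mul (ih ha) (map_mem (Phi_X_mem p k) hb)
      have h4 := Ideal.mul_mem_mul ha (h1 b hb)
      rw [← pow_succ] at h3
      rw [← pow_add] at h4
      have := Ideal.add_mem _ h3 (Ideal.mul_mem_left _ ((p : MvPowerSeries σ R) ^ r) h4)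
      rw [map_mul]
      convert this using 1
      ring
    · have := Ideal.add_mem _ ha hb
      rw [map_add]
      convert this using 1
      ring

/-- The defect of the Lubin-Tate equation. -/
noncomputable def dfc (F : MvPowerSeries σ R) : MvPowerSeries σ R :=
  p * F + F ^ (k + 2) - Phi R σ p k F

theorem dfc_add {F D : MvPowerSeries σ R} (hF : F ∈ mm σ R) {r : ℕ} (hD : D ∈ mm σ R ^ (r + 1)) :
    dfc p k (F + D) - dfc p k F - (p - p ^ (r + 1)) * D ∈ mm σ R ^ (r + 2) := by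
  have hD1 : D ∈ mm σ R := Ideal.pow_le_self (Nat.succ_ne_zero r) hD
  have h1 := Ideal.mul_mem_mul hD (Ideal.pow_mem_of_mem _ (Ideal.add_mem _ hF hD1) (k + 1)
    (Nat.succ_pos k))
  obtain ⟨c, hc⟩ := sub_dvd_pow_sub_pow (F + D) F (k + 1)
  rw [add_sub_cancel_left] at hc
  have h2 := Ideal.mul_mem_mul (Ideal.mul_mem_right c _ hD) hF
  rw [← hc] at h2
  rw [← pow_succ] at h1 h2
  have := Ideal.sub_mem _ (Ideal.add_mem _ h1 h2) (Phi_sub_mem p k _ hD)
  rw [dfc, dfc, map_add]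
  convert this using 1
  ring

/-- Solutions of the Lubin-Tate equation. -/
def Sol (F : MvPowerSeries σ R) : Prop := F ∈ mm σ R ∧ p * F + F ^ (k + 2) = Phi R σ p k F

variable {p k}

theorem sol_X (i : σ) : Sol p k (X i : MvPowerSeries σ R) := ⟨X_mem i, (Phi_X p k i).symm⟩

theorem sol_zero : Sol p k (0 : MvPowerSeries σ R) := ⟨Ideal.zero_mem _, by simp⟩

theorem Sol.C_mul {F : MvPowerSeries σ R} (hF : Sol p k F) {a : R} (ha : a ^ (k + 2) = a) :
    Sol p k (C a * F) := ⟨Ideal.mul_mem_left _ _ hF.1, by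
  rw [map_mul, Phi_C, ← hF.2, mul_pow, ← map_pow, ha]
  ring⟩

theorem Sol.f {F : MvPowerSeries σ R} (hF : Sol p k F) :
    Sol p k ((p : MvPowerSeries σ R) * F + F ^ (k + 2)) :=
  ⟨f_mem p k hF.1, by rw [map_add, map_mul, map_pow, map_natCast, ← hF.2]⟩

theorem Sol.hom {ψ : MvPowerSeries τ R →+* MvPowerSeries σ K} (φ : R →+* K)
    (hC : ∀ r, ψ (C r) = C (φ r)) (hX : ∀ i, Sol p k (ψ (X i))) {F : MvPowerSeries τ R}
    (hF : Sol p k F) : Sol p k (ψ F) := by
  have hN := fun i => (hX i).1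
  refine ⟨map_mem hN hF.1, ?_⟩
  have e : ψ.comp (Phi R τ p k) = (Phi K σ p k).comp ψ :=
    ext_mm (fun i => map_mem hN (Phi_X_mem p k i))
      (fun r => by simp only [RingHom.comp_apply, Phi_C, hC])
      (fun i => by
        rw [RingHom.comp_apply, RingHom.comp_apply, Phi_X, map_add, map_mul, map_pow, map_natCast,
          (hX i).2])
  have h := DFunLike.congr_fun e F
  rw [RingHom.comp_apply, RingHom.comp_apply, ← hF.2, map_add, map_mul, map_pow, map_natCast] at h
  exact h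

theorem Sol.unique [IsDomain R] [CharZero R] (hp : 2 ≤ p) {F F' : MvPowerSeries σ R}
    (hF : Sol p k F) (hF' : Sol p k F') (h : F - F' ∈ mm σ R ^ 2) : F = F' := by
  have key : ∀ r, F - F' ∈ mm σ R ^ (r + 2) := by
    intro r
    induction r with
    | zero => exact h
    | succ r ih =>
      have h1 := dfc_add p k hF'.1 ih
      rw [add_sub_cancel, dfc, dfc, hF.2, hF'.2, sub_self, sub_self, sub_self, zero_sub,
        neg_mem_iff] at h1
      refine mem_pow_of_C_mul (c := (p : R) - p ^ (r + 1 + 1)) ?_ (by simpa using h1)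
      rw [sub_ne_zero]
      have : p ≠ p ^ (r + 1 + 1) := by
        intro h2
        have := Nat.pow_right_injective hp (h2.symm.trans (pow_one p).symm)
        omega
      exact_mod_cast this
  rw [← sub_eq_zero]
  exact eq_zero_of_mem_pow fun N => Ideal.pow_le_pow_right (by omega) (key N)

end general

section padic

variable {p : ℕ} [Fact p.Prime] {σ : Type*} [Finite σ] {k e : ℕ}

theorem dfc_dvd (hk : k + 2 = p ^ e) (F : MvPowerSeries σ ℤ_[p]) :
    ∃ F', dfc p k F = C (p : ℤ_[p]) * F' := by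
  haveI : CharP (MvPowerSeries σ (ZMod p)) p :=
    charP_of_injective_ringHom (f := (C : ZMod p →+* MvPowerSeries σ (ZMod p))) C_injective p
  have e1 : (iterateFrobenius (MvPowerSeries σ (ZMod p)) p e).comp
      (MvPowerSeries.map PadicInt.toZMod) =
      (MvPowerSeries.map PadicInt.toZMod).comp (Phi ℤ_[p] σ p k) :=
    ext_mm (fun i => by
        rw [RingHom.comp_apply, map_X, iterateFrobenius_def, ← hk]
        exact Ideal.pow_mem_of_mem _ (X_mem i) _ (by omega))
      (fun r => by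
        rw [RingHom.comp_apply, RingHom.comp_apply, Phi_C, map_C, iterateFrobenius_def, ← map_pow,
          ZMod.pow_card_pow])
      (fun i => by
        rw [RingHom.comp_apply, RingHom.comp_apply, Phi_X, map_add, map_mul, map_pow, map_natCast,
          map_X, iterateFrobenius_def, hk, CharP.cast_eq_zero, zero_mul, zero_add])
  have h := DFunLike.congr_fun e1 F
  rw [RingHom.comp_apply, RingHom.comp_apply, iterateFrobenius_def] at h
  refine exists_eq_C_mul fun α => ?_
  rw [← PadicInt.maximalIdeal_eq_span_p, ← PadicInt.ker_toZMod, RingHom.mem_ker, ← coeff_map, dfc,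
    map_sub, map_add, map_mul, map_pow, map_natCast, ← h, hk, CharP.cast_eq_zero, zero_mul,
    zero_add, sub_self, map_zero]

theorem step (hk : k + 2 = p ^ e) (r : ℕ) {F : MvPowerSeries σ ℤ_[p]} (hF : F ∈ mm σ ℤ_[p])
    (h : dfc p k F ∈ mm σ ℤ_[p] ^ (r + 2)) :
    ∃ D ∈ mm σ ℤ_[p] ^ (r + 2), dfc p k (F + D) ∈ mm σ ℤ_[p] ^ (r + 3) := by
  obtain ⟨E, hE⟩ := dfc_dvd hk F
  have hp0 : (p : ℤ_[p]) ≠ 0 := Nat.cast_ne_zero.2 (Fact.out : p.Prime).ne_zero
  have hE' : E ∈ mm σ ℤ_[p] ^ (r + 2) := mem_pow_of_C_mul hp0 (hE ▸ h)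
  have hu : IsUnit ((1 : ℤ_[p]) - p ^ (r + 1)) := by
    refine IsLocalRing.isUnit_one_sub_self_of_mem_nonunits _ ?_
    rw [← IsLocalRing.mem_maximalIdeal, PadicInt.maximalIdeal_eq_span_p]
    exact Ideal.pow_mem_of_mem _ (Ideal.mem_span_singleton_self _) _ (Nat.succ_pos r)
  obtain ⟨u, hu⟩ := hu.exists_left_inv
  have hD : -(C u * E) ∈ mm σ ℤ_[p] ^ (r + 2) := neg_mem (Ideal.mul_mem_left _ _ hE')
  refine ⟨_, hD, ?_⟩
  have h1 := dfc_add p k hF hD
  have h2 : (C u : MvPowerSeries σ ℤ_[p]) * (1 - p ^ (r + 1)) = 1 := by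
    have := congrArg (C : ℤ_[p] →+* MvPowerSeries σ ℤ_[p]) hu
    simpa using this
  rw [hE, map_natCast] at h1
  convert h1 using 1
  linear_combination (-(p : MvPowerSeries σ ℤ_[p]) * E) * h2

theorem exists_sol (hk : k + 2 = p ^ e) {L : MvPowerSeries σ ℤ_[p]} (hL : L ∈ mm σ ℤ_[p]) :
    ∃ F, Sol p k F ∧ F - L ∈ mm σ ℤ_[p] ^ 2 := by
  letI := Adic.discrete ℤ_[p]
  choose D hD hD' using fun r (F : MvPowerSeries σ ℤ_[p]) hF h => step hk r (F := F) hF h
  have h0 : dfc p k L ∈ mm σ ℤ_[p] ^ (0 + 2) := by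
    have := dfc_add p k (F := 0) (r := 0) (Ideal.zero_mem _) (D := L) (by simpa using hL)
    simpa [dfc] using this
  let x : ∀ r : ℕ, {F : MvPowerSeries σ ℤ_[p] // F ∈ mm σ ℤ_[p] ∧
      dfc p k F ∈ mm σ ℤ_[p] ^ (r + 2)} := fun r =>
    Nat.rec ⟨L, hL, h0⟩ (fun r F => ⟨F.1 + D r F.1 F.2.1 F.2.2,
      Ideal.add_mem _ F.2.1 (Ideal.pow_le_self (by omega) (hD r F.1 F.2.1 F.2.2)),
      hD' r F.1 F.2.1 F.2.2⟩) r
  have hx : ∀ r, (x (r + 1)).1 - (x r).1 ∈ mm σ ℤ_[p] ^ (r + 2) := fun r => by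
    change (x r).1 + D r _ (x r).2.1 (x r).2.2 - (x r).1 ∈ _
    rw [add_sub_cancel_left]
    exact hD _ _ _ _
  have hdef : IsDef (mm σ ℤ_[p]) := by
    rw [mm, span_range_X]
    exact isDef_idl
  obtain ⟨y, hy⟩ := hdef.exists_lim (fun r => (x r).1) fun j =>
    Ideal.pow_le_pow_right (by omega) (hx j)
  have h1 : y - L ∈ mm σ ℤ_[p] ^ 2 := by
    have := Ideal.add_mem _ (hy (0 + 1)) (hx 0)
    rwa [sub_add_sub_cancel] at this
  refine ⟨y, ⟨?_, ?_⟩, h1⟩
  · have := Ideal.add_mem _ (Ideal.pow_le_self (by omega) h1) hL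
    rwa [sub_add_cancel] at this
  · rw [← sub_eq_zero]
    refine eq_zero_of_mem_pow fun N => ?_
    have h2 := Ideal.pow_le_pow_right (by omega : N ≤ N + 2) (dfc_add p k (x N).2.1 (hy N))
    have h3 := Ideal.pow_le_pow_right (by omega : N ≤ N + 2) (x N).2.2
    have h4 := Ideal.mul_mem_left _ ((p : MvPowerSeries σ ℤ_[p]) - p ^ (N + 1))
      (Ideal.pow_le_pow_right (by omega : N ≤ N + 1) (hy N))
    have := Ideal.add_mem _ (Ideal.add_mem _ h2 h3) h4
    rw [add_sub_cancel] at this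
    change dfc p k y ∈ _
    convert this using 1
    ring

end padic

end Crest.Agent.R227.LTAux
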