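import Mathlib

/-! Row 227 (S0351), module `LazardCoeff`: the symmetric cocycle lemma on coefficients. -/

set_option autoImplicit false
set_option linter.unusedSectionVars false

namespace Crest.Agent.R227.LazardAux

variable {R : Type*} [CommRing R] {p : ℕ} [Fact p.Prime]

theorem cast_eq_of_modEq (hp : (p : R) = 0) {a b : ℕ} (h : a ≡ b [MOD p]) : (a : R) = b := by
  have h1 : ∀ n : ℕ, (n : R) = (n % p : ℕ) := fun n => by
    conv_lhs => rw [← Nat.mod_add_div n p]
    push_cast
    rw [hp, zero_mul, add_zero]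
  rw [h1 a, h1 b, h]

theorem exists_inv (hp : (p : R) = 0) {d : ℕ} (hd : ¬ p ∣ d) : ∃ n : ℕ, (n : R) * d = 1 := by
  have hc : Nat.Coprime d p := ((Nat.Prime.coprime_iff_not_dvd Fact.out).2 hd).symm
  obtain ⟨n, -, hn⟩ := Nat.exists_mul_mod_eq_one_of_coprime hc (Fact.out : p.Prime).one_lt
  refine ⟨n, ?_⟩
  have : d * n ≡ 1 [MOD p] := by
    unfold Nat.ModEq
    rw [hn, Nat.mod_eq_of_lt (Fact.out : p.Prime).one_lt]
  have h2 := cast_eq_of_modEq hp this
  push_cast at h2
  rw [mul_comm, h2]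

theorem cast_pow_p (hp : (p : R) = 0) (m : ℕ) : (m : R) ^ p = m := by
  have : m ^ p ≡ m [MOD p] := by
    rw [← ZMod.natCast_eq_natCast_iff]
    push_cast
    exact ZMod.pow_card _
  have h2 := cast_eq_of_modEq hp this
  push_cast at h2
  exact h2

theorem sum_range_zmod (f : ZMod p → ZMod p) :
    ∑ m ∈ Finset.range p, f (m : ZMod p) = ∑ x : ZMod p, f x := by
  refine Finset.sum_bij (fun m _ => (m : ZMod p)) (fun _ _ => Finset.mem_univ _) ?_ ?_
    (fun _ _ => rfl)
  · intro a ha b hb h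
    have := (ZMod.natCast_eq_natCast_iff a b p).1 h
    exact Nat.ModEq.eq_of_lt_of_lt this (Finset.mem_range.1 ha) (Finset.mem_range.1 hb)
  · intro x _
    exact ⟨x.val, Finset.mem_range.2 (ZMod.val_lt x), ZMod.natCast_zmod_val x⟩

theorem sum_pow_lt (hp : (p : R) = 0) {i : ℕ} (hi : i < p - 1) :
    ∑ m ∈ Finset.range p, (m : R) ^ i = 0 := by
  have h1 : (∑ m ∈ Finset.range p, m ^ i) ≡ 0 [MOD p] := by
    rw [← ZMod.natCast_eq_natCast_iff]
    push_cast
    rw [sum_range_zmod (fun x => x ^ i)]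
    exact FiniteField.sum_pow_lt_card_sub_one (ZMod p) i (by rwa [ZMod.card])
  have h2 := cast_eq_of_modEq hp h1
  push_cast at h2
  exact h2

theorem sum_pow_top (hp : (p : R) = 0) : ∑ m ∈ Finset.range p, (m : R) ^ (p - 1) = -1 := by
  have h2p := (Fact.out : p.Prime).two_le
  have h1 : (∑ m ∈ Finset.range p, m ^ (p - 1)) + 1 ≡ 0 [MOD p] := by
    rw [← ZMod.natCast_eq_natCast_iff]
    push_cast
    rw [sum_range_zmod (fun x => x ^ (p - 1))]
    have : ∀ x : ZMod p, x ^ (p - 1) = 1 - if x = 0 then 1 else 0 := fun x => by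
      split_ifs with h
      · rw [h, zero_pow (by omega), sub_self]
      · rw [ZMod.pow_card_sub_one_eq_one h, sub_zero]
    simp [this]
  have h2 := cast_eq_of_modEq hp h1
  push_cast at h2
  linear_combination h2

theorem coeff_aux (hp : (p : R) = 0) (S : AddSubgroup R) (d : ℕ) (a : ℕ → R)
    (hS : ∀ i, 1 ≤ i → i < d → a i ∈ S) (hsym : ∀ i, 1 ≤ i → i < d → a i = a (d - i))
    (hcoc : ∀ i j k, 1 ≤ i → 1 ≤ j → 1 ≤ k → i + j + k = d →
      a i * ((j + k).choose j : R) = a (i + j) * ((i + j).choose j : R))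
    (hN : ∑ m ∈ Finset.range p, ∑ i ∈ Finset.Ico 1 d, a i * (m : R) ^ i = 0) :
    ∃ α ∈ S, ∀ i, 1 ≤ i → i < d → a i = α * (d.choose i : R) := by
  induction d using Nat.strong_induction_on generalizing a with
  | _ d ih =>
  have h2p := (Fact.out : p.Prime).two_le
  by_cases hd : d < 2
  · exact ⟨0, S.zero_mem, fun i h1 h2 => by omega⟩
  obtain ⟨n, rfl⟩ : ∃ n, d = n + 1 := ⟨d - 1, by omega⟩
  have hn : 1 ≤ n := by omega
  -- the derivative relation
  have h1 : ∀ i j, 1 ≤ i → i + j = n → a i * ((j : R) + 1) = a n * (n.choose j : R) := by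
    intro i j hi hij
    rcases Nat.eq_zero_or_pos j with rfl | hj
    · obtain rfl : i = n := by omega
      simp
    · have := hcoc i j 1 hi hj le_rfl (by omega)
      rw [Nat.choose_succ_self_right, hij] at this
      push_cast at this
      exact this
  have h2 : ∀ i, 1 ≤ i → i < n + 1 → a i * (i : R) = a n * (n.choose (i - 1) : R) := by
    intro i hi hin
    obtain ⟨j, rfl⟩ : ∃ j, i = j + 1 := ⟨i - 1, by omega⟩
    rw [hsym _ hi hin, Nat.add_sub_cancel]
    push_cast
    exact h1 _ j (by omega) (by omega)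
  have h3 : ∀ i, 1 ≤ i → i < n + 1 → a i * ((n + 1 : ℕ) : R) = a n * ((n + 1).choose i : R) := by
    intro i hi hin
    have e1 := h1 i (n - i) hi (by omega)
    have e2 := h2 i hi hin
    obtain ⟨j, rfl⟩ : ∃ j, i = j + 1 := ⟨i - 1, by omega⟩
    rw [Nat.choose_symm (by omega), Nat.cast_sub (by omega)] at e1
    rw [Nat.add_sub_cancel] at e2
    rw [Nat.choose_succ_succ']
    push_cast at e1 e2 ⊢
    linear_combination e1 + e2
  by_cases hpd : p ∣ n + 1
  swap
  · obtain ⟨c, hc⟩ := exists_inv hp hpd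
    refine ⟨c * a n, ?_, fun i hi hin => ?_⟩
    · rw [← nsmul_eq_mul]
      exact S.nsmul_mem (hS n hn (by omega)) c
    · linear_combination c * h3 i hi hin - a i * hc
  -- `p` divides the degree
  have hβ : a n = 0 := by
    rcases (Nat.le_of_dvd (by omega) hpd).eq_or_lt with h | h
    · rw [Finset.sum_comm, Finset.sum_eq_single n] at hN
      · rw [← Finset.mul_sum, show n = p - 1 by omega, sum_pow_top hp] at hN
        rw [show n = p - 1 by omega]
        linear_combination -hN
      · intro i hi hne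
        rw [Finset.mem_Ico] at hi
        rw [← Finset.mul_sum, sum_pow_lt hp (by omega), mul_zero]
      · intro h
        exact absurd (Finset.mem_Ico.2 ⟨hn, by omega⟩) h
    · have e := h2 p (by omega) h
      have e2 : n.choose (p - 1) ≡ 1 [MOD p] := by
        refine Choose.choose_modEq_choose_mod_mul_choose_div_nat.trans ?_
        obtain ⟨c, hc⟩ := hpd
        have hc0 : 1 ≤ c := by
          rcases Nat.eq_zero_or_pos c with rfl | h0
          · omega
          · exact h0
        have e3 : n % p = p - 1 := by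
          have : n = p - 1 + p * (c - 1) := by
            obtain ⟨c', rfl⟩ : ∃ c', c = c' + 1 := ⟨c - 1, by omega⟩
            rw [Nat.add_sub_cancel]
            rw [Nat.mul_succ] at hc
            omega
          rw [this, Nat.add_mul_mod_self_left, Nat.mod_eq_of_lt (by omega)]
        rw [e3, Nat.mod_eq_of_lt (show p - 1 < p by omega), Nat.choose_self,
          Nat.div_eq_of_lt (show p - 1 < p by omega), Nat.choose_zero_right]
      rw [hp, mul_zero, cast_eq_of_modEq hp e2] at e
      simpa using e.symm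
  have h4 : ∀ i, 1 ≤ i → i < n + 1 → ¬ p ∣ i → a i = 0 := by
    intro i hi hin hpi
    obtain ⟨c, hc⟩ := exists_inv hp hpi
    have e := h2 i hi hin
    rw [hβ, zero_mul] at e
    linear_combination c * e - a i * hc
  obtain ⟨d', hd'⟩ := hpd
  have hd'0 : 0 < d' := by
    rcases Nat.eq_zero_or_pos d' with rfl | h0
    · omega
    · exact h0
  have hlt : d' < n + 1 := by
    rw [hd']
    exact lt_mul_of_one_lt_left hd'0 (by omega)
  have hp0 : 0 < p := by omega
  have hL : ∀ x y : ℕ, (((p * x).choose (p * y) : ℕ) : R) = (x.choose y : ℕ) := fun x y =>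
    cast_eq_of_modEq hp Choose.choose_mul_mul_modEq_choose_nat
  obtain ⟨α, hα, hα'⟩ := ih d' hlt (fun i => a (p * i))
    (fun i hi hid => hS _ (Nat.mul_pos hp0 hi) (by rw [hd']; exact Nat.mul_lt_mul_of_pos_left hid hp0))
    (fun i hi hid => by
      rw [hsym _ (Nat.mul_pos hp0 hi) (by rw [hd']; exact Nat.mul_lt_mul_of_pos_left hid hp0),
        hd', Nat.mul_sub])
    (fun i j k hi hj hk hijk => by
      have := hcoc (p * i) (p * j) (p * k) (Nat.mul_pos hp0 hi) (Nat.mul_pos hp0 hj)
        (Nat.mul_pos hp0 hk) (by rw [hd', ← hijk]; ring)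
      rwa [← Nat.mul_add, ← Nat.mul_add, hL, hL] at this)
    (by
      rw [← hN]
      refine Finset.sum_congr rfl fun m _ => ?_
      refine Finset.sum_of_injOn (fun i => p * i) (fun x _ y _ h => Nat.eq_of_mul_eq_mul_left hp0 h)
        ?_ ?_ ?_
      · intro i hi
        rw [Finset.mem_coe, Finset.mem_Ico] at hi ⊢
        exact ⟨Nat.mul_pos hp0 hi.1, by rw [hd']; exact Nat.mul_lt_mul_of_pos_left hi.2 hp0⟩
      · intro i hi hni
        rw [Finset.mem_Ico] at hi
        rw [h4 i hi.1 hi.2, zero_mul]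
        rintro ⟨c, rfl⟩
        refine hni ⟨c, ?_, rfl⟩
        rw [Finset.coe_Ico, Set.mem_Ico]
        refine ⟨Nat.pos_of_mul_pos_left hi.1, ?_⟩
        have := hi.2
        rw [hd'] at this
        exact Nat.lt_of_mul_lt_mul_left this
      · intro i _
        rw [pow_mul, cast_pow_p hp])
  refine ⟨α, hα, fun i hi hin => ?_⟩
  by_cases hpi : p ∣ i
  · obtain ⟨c, rfl⟩ := hpi
    rw [hd', hL]
    refine hα' c (Nat.pos_of_mul_pos_left hi) ?_
    rw [hd'] at hin
    exact Nat.lt_of_mul_lt_mul_left hin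
  · rw [h4 i hi hin hpi]
    obtain ⟨c, hc⟩ := exists_inv hp hpi
    obtain ⟨j, rfl⟩ : ∃ j, i = j + 1 := ⟨i - 1, by omega⟩
    have e := congrArg (Nat.cast : ℕ → R) (Nat.add_one_mul_choose_eq n j)
    have e0 : ((n + 1 : ℕ) : R) = 0 := by
      rw [hd']
      push_cast
      rw [hp, zero_mul]
    rw [Nat.cast_mul, Nat.cast_mul, e0, zero_mul] at e
    have e2 : (((n + 1).choose (j + 1) : ℕ) : R) = 0 := by
      linear_combination (-c : R) * e - (((n + 1).choose (j + 1) : ℕ) : R) * hc
    rw [e2, mul_zero]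

end Crest.Agent.R227.LazardAux
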