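import Crest.Agent.R227.Phi
import Crest.Agent.R227.LazardCoeff

/-! Row 227 (S0351), module `Lazard`: laws with `[p] = X ^ (p ^ e)` are isomorphic. -/

set_option autoImplicit false
set_option linter.unusedSectionVars false
set_option linter.style.haveILetI false

namespace Crest.Agent.R227

open MvPowerSeries Crest.LubinTate

namespace LazardAux

/-- The binary form with coefficients `a 1, …, a (d - 1)`. -/
def cc {B : Type*} [CommRing B] (a : ℕ → B) (d : ℕ) (s t : B) : B :=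
  ∑ i ∈ Finset.Ico 1 d, a i * s ^ i * t ^ (d - i)

section ideal

variable {B : Type*} [CommRing B] {𝔫 : Ideal B}

theorem pow_sub_pow_mem {s s' : B} (hs : s ∈ 𝔫) (hs' : s' ∈ 𝔫) (h : s - s' ∈ 𝔫 ^ 2) (i : ℕ) :
    s ^ i - s' ^ i ∈ 𝔫 ^ (i + 1) := by
  induction i with
  | zero => simp
  | succ i ih =>
    have e : s ^ (i + 1) - s' ^ (i + 1) = (s ^ i - s' ^ i) * s + s' ^ i * (s - s') := by ring
    rw [e]
    refine Ideal.add_mem _ ?_ ?_
    · rw [pow_succ 𝔫 (i + 1)]
      exact Ideal.mul_mem_mul ih hs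
    · rw [show i + 1 + 1 = i + 2 from rfl, pow_add 𝔫]
      exact Ideal.mul_mem_mul (Ideal.pow_mem_pow hs' i) h

theorem cc_mem (a : ℕ → B) (d : ℕ) {s t : B} (hs : s ∈ 𝔫) (ht : t ∈ 𝔫) : cc a d s t ∈ 𝔫 ^ d := by
  refine Ideal.sum_mem _ fun i hi => ?_
  rw [Finset.mem_Ico] at hi
  rw [mul_assoc]
  refine Ideal.mul_mem_left _ _ ?_
  have := Ideal.mul_mem_mul (Ideal.pow_mem_pow hs i) (Ideal.pow_mem_pow ht (d - i))
  rwa [← pow_add, Nat.add_sub_cancel' hi.2.le] at this

theorem cc_congr (a : ℕ → B) (d : ℕ) {s s' t : B} (hs : s ∈ 𝔫) (hs' : s' ∈ 𝔫) (ht : t ∈ 𝔫)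
    (h : s - s' ∈ 𝔫 ^ 2) : cc a d s t - cc a d s' t ∈ 𝔫 ^ (d + 1) := by
  unfold cc
  rw [← Finset.sum_sub_distrib]
  refine Ideal.sum_mem _ fun i hi => ?_
  rw [Finset.mem_Ico] at hi
  have e : a i * s ^ i * t ^ (d - i) - a i * s' ^ i * t ^ (d - i) =
      a i * ((s ^ i - s' ^ i) * t ^ (d - i)) := by ring
  rw [e]
  refine Ideal.mul_mem_left _ _ ?_
  have := Ideal.mul_mem_mul (pow_sub_pow_mem hs hs' h i) (Ideal.pow_mem_pow ht (d - i))
  rwa [← pow_add, show i + 1 + (d - i) = d + 1 by omega] at this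

end ideal

section adic

variable {B : Type*} [CommRing B] [Adic B] {𝔫 : Ideal B}

theorem fg_lin_left (h𝔫 : 𝔫 ≤ Nil B) (G : FormalGroup B) {d : ℕ} {s s' t : B} (hs : s ∈ 𝔫)
    (hs' : s' ∈ 𝔫) (ht : t ∈ 𝔫) (h : s - s' ∈ 𝔫 ^ d) :
    ev2 G.toPowerSeries s t - ev2 G.toPowerSeries s' t - (s - s') ∈ 𝔫 ^ (d + 1) := by
  obtain ⟨u, hu, hu'⟩ := exists_ev1_sub_eq (h𝔫 hs) (h𝔫 hs') (lser G t)
  rw [ev1_lser G (h𝔫 hs) (h𝔫 ht), ev1_lser G (h𝔫 hs') (h𝔫 ht)] at hu
  have h1 : Ideal.span {s, s'} ≤ 𝔫 := Ideal.span_le.2 (by rintro _ (rfl | rfl) <;> assumption)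
  have h2 := (Ideal.span_singleton_le_iff_mem _).2 ht (coeff_one_lser_sub_mem G (h𝔫 ht))
  have h3 := Ideal.add_mem _ (h1 hu') h2
  rw [sub_add_sub_cancel] at h3
  have h4 := Ideal.mul_mem_mul h h3
  rw [← pow_succ] at h4
  rw [hu]
  convert h4 using 1
  ring

theorem fg_lin (h𝔫 : 𝔫 ≤ Nil B) (G : FormalGroup B) [G.IsComm] {d : ℕ} {s s' t t' : B}
    (hs : s ∈ 𝔫) (hs' : s' ∈ 𝔫) (ht : t ∈ 𝔫) (ht' : t' ∈ 𝔫) (h : s - s' ∈ 𝔫 ^ d)
    (h' : t - t' ∈ 𝔫 ^ d) :
    ev2 G.toPowerSeries s t - ev2 G.toPowerSeries s' t' - (s - s') - (t - t') ∈ 𝔫 ^ (d + 1) := by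
  have h1 := fg_lin_left h𝔫 G hs hs' ht h
  have h2 := fg_lin_left h𝔫 G ht ht' hs' h'
  rw [fg_comm G (h𝔫 ht) (h𝔫 hs'), fg_comm G (h𝔫 ht') (h𝔫 hs')] at h2
  convert Ideal.add_mem _ h1 h2 using 1
  ring

theorem fg_sub_add_mem (h𝔫 : 𝔫 ≤ Nil B) (G : FormalGroup B) {s t : B} (hs : s ∈ 𝔫) (ht : t ∈ 𝔫) :
    ev2 G.toPowerSeries s t - (s + t) ∈ 𝔫 ^ 2 := by
  have h := Pt.add_val_sub_mem (G := G) ⟨s, h𝔫 hs⟩ ⟨t, h𝔫 ht⟩
  have h2 : s * t ∈ 𝔫 ^ 2 := by
    rw [sq]
    exact Ideal.mul_mem_mul hs ht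
  have h3 := (Ideal.span_singleton_le_iff_mem _).2 h2 h
  rw [← sub_sub]
  exact h3

theorem fg_mem (h𝔫 : 𝔫 ≤ Nil B) (G : FormalGroup B) {s t : B} (hs : s ∈ 𝔫) (ht : t ∈ 𝔫) :
    ev2 G.toPowerSeries s t ∈ 𝔫 := by
  have h := Ideal.add_mem _ (Ideal.pow_le_self two_ne_zero (fg_sub_add_mem h𝔫 G hs ht))
    (Ideal.add_mem _ hs ht)
  rwa [sub_add_cancel] at h

theorem fin2_eq_iff (α : Fin 2 →₀ ℕ) (i j : ℕ) :
    α = Finsupp.single 0 i + Finsupp.single 1 j ↔ α 0 = i ∧ α 1 = j := by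
  constructor
  · rintro rfl
    simp
  · rintro ⟨h0, h1⟩
    ext k
    fin_cases k
    · simpa using h0
    · simpa using h1

theorem ev2_sub_cc_mem (h𝔫 : 𝔫 ≤ Nil B) {F : MvPowerSeries (Fin 2) B} {d : ℕ}
    (hF : ∀ α : Fin 2 →₀ ℕ, α.degree < d → coeff α F = 0)
    (h0 : ∀ α : Fin 2 →₀ ℕ, α 0 = 0 → coeff α F = 0)
    (h1 : ∀ α : Fin 2 →₀ ℕ, α 1 = 0 → coeff α F = 0) {s t : B} (hs : s ∈ 𝔫) (ht : t ∈ 𝔫) :
    ev2 F s t - cc (fun i => coeff (Finsupp.single 0 i + Finsupp.single 1 (d - i)) F) d s t ∈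
      𝔫 ^ (d + 1) := by
  classical
  have hc := pair_mem_Nil (h𝔫 hs) (h𝔫 ht)
  have h := ev_mem_pow hc (N := d + 1) (F := F - ∑ i ∈ Finset.Ico 1 d,
      C (coeff (Finsupp.single 0 i + Finsupp.single 1 (d - i)) F) * X 0 ^ i * X 1 ^ (d - i))
    fun α hα => by
      rw [map_sub, map_sum, sub_eq_zero]
      have e : ∀ i, coeff α (C (coeff (Finsupp.single 0 i + Finsupp.single 1 (d - i)) F) *
          X 0 ^ i * X 1 ^ (d - i) : MvPowerSeries (Fin 2) B) =
          if α 0 = i ∧ α 1 = d - i then coeff α F else 0 := fun i => by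
        rw [mul_assoc, coeff_C_mul, X_pow_eq, X_pow_eq, monomial_mul_monomial, coeff_monomial]
        by_cases h : α 0 = i ∧ α 1 = d - i
        · rw [if_pos h, if_pos ((fin2_eq_iff _ _ _).2 h), ← (fin2_eq_iff _ _ _).2 h]
          simp
        · rw [if_neg h, if_neg (fun h' => h ((fin2_eq_iff _ _ _).1 h')), mul_zero]
      simp only [e]
      have hdeg : α.degree = α 0 + α 1 := by
        rw [Finsupp.degree_eq_sum, Fin.sum_univ_two]
      by_cases hz : coeff α F = 0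
      · simp [hz]
      · have a0 : α 0 ≠ 0 := fun h => hz (h0 α h)
        have a1 : α 1 ≠ 0 := fun h => hz (h1 α h)
        have a2 : ¬ α.degree < d := fun h => hz (hF α h)
        rw [Finset.sum_eq_single (α 0)]
        · rw [if_pos ⟨rfl, by omega⟩]
        · intro i _ hi
          rw [if_neg (fun h => hi h.1.symm)]
        · intro h
          exact absurd (Finset.mem_Ico.2 ⟨by omega, by omega⟩) h
  have h2 : Ideal.span (Set.range ![s, t]) ≤ 𝔫 := Ideal.span_le.2 (by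
    rintro _ ⟨i, rfl⟩
    fin_cases i
    · exact hs
    · exact ht)
  have h3 := Ideal.pow_right_mono h2 _ h
  rw [ev_sub, ev_sum] at h3
  simp only [ev_mul, ev_pow hc, ev_C hc, ev_X hc, Matrix.cons_val_zero, Matrix.cons_val_one] at h3
  exact h3

end adic

section laws

variable {R : Type*} [CommRing R]

/-- The coefficients of the difference of two laws in degree `d`. -/
noncomputable def dc (G H : FormalGroup R) (d i : ℕ) : R :=
  coeff (Finsupp.single 0 i + Finsupp.single 1 (d - i)) (G.toPowerSeries - H.toPowerSeries)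

/-- The two laws agree in degrees below `d`. -/
def Agree (G H : FormalGroup R) (d : ℕ) : Prop :=
  ∀ α : Fin 2 →₀ ℕ, α.degree < d → coeff α (G.toPowerSeries - H.toPowerSeries) = 0

theorem mul_dvd_sub (G H : FormalGroup R) :
    (X 0 * X 1 : MvPowerSeries (Fin 2) R) ∣ G.toPowerSeries - H.toPowerSeries := by
  letI := Adic.discrete R
  have key : ∀ G : FormalGroup R,
      (X 0 * X 1 : MvPowerSeries (Fin 2) R) ∣ G.toPowerSeries - X 0 - X 1 := fun G => by
    have h := Pt.add_val_sub_mem (G := G.map (C : R →+* MvPowerSeries (Fin 2) R))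
      ⟨X 0, X_mem_Nil 0⟩ ⟨X 1, X_mem_Nil 1⟩
    rw [Pt.add_val, FormalGroup.map_toPowerSeries, Ideal.mem_span_singleton] at h
    dsimp only at h
    rwa [ev2_map_C_X] at h
  convert dvd_sub (key G) (key H) using 1
  ring

theorem agree_iff {G H : FormalGroup R} {d : ℕ} : Agree G H d ↔
    G.toPowerSeries - H.toPowerSeries ∈
      Ideal.span (Set.range (X : Fin 2 → MvPowerSeries (Fin 2) R)) ^ d :=
  (mem_span_X_pow_iff d _).symm

theorem agree_two (G H : FormalGroup R) : Agree G H 2 := by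
  rw [agree_iff]
  obtain ⟨c, hc⟩ := mul_dvd_sub G H
  rw [hc, sq]
  exact Ideal.mul_mem_right _ _
    (Ideal.mul_mem_mul (Ideal.subset_span ⟨0, rfl⟩) (Ideal.subset_span ⟨1, rfl⟩))

variable {B : Type*} [CommRing B] [Adic B] {𝔫 : Ideal B}

theorem sub_cc_mem (h𝔫 : 𝔫 ≤ Nil B) (φ : R →+* B) {G H : FormalGroup R} {d : ℕ}
    (h : Agree G H d) {s t : B} (hs : s ∈ 𝔫) (ht : t ∈ 𝔫) :
    ev2 (G.map φ).toPowerSeries s t - ev2 (H.map φ).toPowerSeries s t -
      cc (fun i => φ (dc G H d i)) d s t ∈ 𝔫 ^ (d + 1) := by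
  have h0 := X_dvd_iff.1 ((dvd_mul_right _ _).trans (mul_dvd_sub G H))
  have h1 := X_dvd_iff.1 ((dvd_mul_left _ _).trans (mul_dvd_sub G H))
  have h2 := ev2_sub_cc_mem h𝔫 (F := MvPowerSeries.map φ (G.toPowerSeries - H.toPowerSeries))
    (d := d) (fun α hα => by rw [coeff_map, h α hα, map_zero])
    (fun α hα => by rw [coeff_map, h0 α hα, map_zero])
    (fun α hα => by rw [coeff_map, h1 α hα, map_zero]) hs ht
  simp only [coeff_map] at h2
  rw [map_sub, ev2, ev_sub] at h2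
  exact h2

theorem step_mem (h𝔫 : 𝔫 ≤ Nil B) (φ : R →+* B) {G H : FormalGroup R} {d : ℕ}
    (h : Agree G H d) {s s' s₀ t δ : B} (hs : s ∈ 𝔫) (hs' : s' ∈ 𝔫) (hs₀ : s₀ ∈ 𝔫) (ht : t ∈ 𝔫)
    (hδ : δ ∈ 𝔫 ^ d) (h1 : s - s' - δ ∈ 𝔫 ^ (d + 1)) (h2 : s' - s₀ ∈ 𝔫 ^ 2) :
    ev2 (G.map φ).toPowerSeries s t - ev2 (H.map φ).toPowerSeries s' t -
      (δ + cc (fun i => φ (dc G H d i)) d s₀ t) ∈ 𝔫 ^ (d + 1) := by
  have h3 : s - s' ∈ 𝔫 ^ d := by
    have := Ideal.add_mem _ (Ideal.pow_le_pow_right (Nat.le_succ d) h1) hδ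
    rwa [sub_add_cancel] at this
  have e1 := fg_lin_left h𝔫 (G.map φ) hs hs' ht h3
  have e2 := sub_cc_mem h𝔫 φ h hs' ht
  have e3 := cc_congr (fun i => φ (dc G H d i)) d hs' hs₀ ht h2
  convert Ideal.add_mem _ (Ideal.add_mem _ (Ideal.add_mem _ e1 e2) e3) h1 using 1
  ring

theorem cocycle_mem (h𝔫 : 𝔫 ≤ Nil B) (φ : R →+* B) {G H : FormalGroup R} [G.IsComm] [H.IsComm]
    {d : ℕ} (h : Agree G H d) {s t u : B} (hs : s ∈ 𝔫) (ht : t ∈ 𝔫) (hu : u ∈ 𝔫) :
    cc (fun i => φ (dc G H d i)) d s t + cc (fun i => φ (dc G H d i)) d (s + t) u -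
      (cc (fun i => φ (dc G H d i)) d t u + cc (fun i => φ (dc G H d i)) d (t + u) s) ∈
        𝔫 ^ (d + 1) := by
  have key : ∀ {s t u : B}, s ∈ 𝔫 → t ∈ 𝔫 → u ∈ 𝔫 →
      ev2 (G.map φ).toPowerSeries (ev2 (G.map φ).toPowerSeries s t) u -
        ev2 (H.map φ).toPowerSeries (ev2 (H.map φ).toPowerSeries s t) u -
        (cc (fun i => φ (dc G H d i)) d s t + cc (fun i => φ (dc G H d i)) d (s + t) u) ∈
        𝔫 ^ (d + 1) := fun hs ht hu =>
    step_mem h𝔫 φ h (fg_mem h𝔫 _ hs ht) (fg_mem h𝔫 _ hs ht) (Ideal.add_mem _ hs ht) hu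
      (cc_mem _ _ hs ht) (sub_cc_mem h𝔫 φ h hs ht) (fg_sub_add_mem h𝔫 _ hs ht)
  have e1 := key hs ht hu
  have e2 := key ht hu hs
  rw [fg_comm (G.map φ) (h𝔫 (fg_mem h𝔫 _ ht hu)) (h𝔫 hs),
    fg_comm (H.map φ) (h𝔫 (fg_mem h𝔫 _ ht hu)) (h𝔫 hs),
    ← fg_assoc (G.map φ) (h𝔫 hs) (h𝔫 ht) (h𝔫 hu),
    ← fg_assoc (H.map φ) (h𝔫 hs) (h𝔫 ht) (h𝔫 hu)] at e2
  convert Ideal.sub_mem _ e2 e1 using 1
  ring

theorem symm_mem (h𝔫 : 𝔫 ≤ Nil B) (φ : R →+* B) {G H : FormalGroup R} [G.IsComm] [H.IsComm]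
    {d : ℕ} (h : Agree G H d) {s t : B} (hs : s ∈ 𝔫) (ht : t ∈ 𝔫) :
    cc (fun i => φ (dc G H d i)) d s t - cc (fun i => φ (dc G H d i)) d t s ∈ 𝔫 ^ (d + 1) := by
  have e1 := sub_cc_mem h𝔫 φ h hs ht
  have e2 := sub_cc_mem h𝔫 φ h ht hs
  rw [fg_comm (G.map φ) (h𝔫 ht) (h𝔫 hs), fg_comm (H.map φ) (h𝔫 ht) (h𝔫 hs)] at e2
  convert Ideal.sub_mem _ e2 e1 using 1
  ring

end laws

section test

variable {P : Type*} [CommRing P]

theorem cc_C_mul_X (b : ℕ → P) (d : ℕ) (x y : P) :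
    cc (fun i => PowerSeries.C (b i)) d (PowerSeries.C x * PowerSeries.X)
      (PowerSeries.C y * PowerSeries.X) = PowerSeries.C (cc b d x y) * PowerSeries.X ^ d := by
  unfold cc
  rw [map_sum, Finset.sum_mul]
  refine Finset.sum_congr rfl fun i hi => ?_
  rw [Finset.mem_Ico] at hi
  obtain ⟨j, rfl⟩ := Nat.exists_eq_add_of_le hi.2.le
  rw [Nat.add_sub_cancel_left, map_mul, map_mul, map_pow, map_pow]
  ring

theorem eq_zero_of_mem {r : P} {d : ℕ} (h : PowerSeries.C r * PowerSeries.X ^ d ∈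
    Ideal.span {(PowerSeries.X : PowerSeries P)} ^ (d + 1)) : r = 0 := by
  rw [Ideal.span_singleton_pow, Ideal.mem_span_singleton, PowerSeries.X_pow_dvd_iff] at h
  simpa using h d (Nat.lt_succ_self d)

theorem C_mul_X_mem (x : P) : PowerSeries.C x * PowerSeries.X ∈
    Ideal.span {(PowerSeries.X : PowerSeries P)} :=
  Ideal.mul_mem_left _ _ (Ideal.mem_span_singleton_self _)

theorem span_X_le [Adic P] : Ideal.span {(PowerSeries.X : PowerSeries P)} ≤ Nil _ :=
  (Ideal.span_singleton_le_iff_mem _).2 (X_mem_Nil ())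

variable {R : Type*} [CommRing R] {G H : FormalGroup R} [G.IsComm] [H.IsComm] {d : ℕ}

theorem cocycle_eq (ψ : R →+* P) (h : Agree G H d) (x y z : P) :
    cc (fun i => ψ (dc G H d i)) d x y + cc (fun i => ψ (dc G H d i)) d (x + y) z =
      cc (fun i => ψ (dc G H d i)) d y z + cc (fun i => ψ (dc G H d i)) d (y + z) x := by
  letI := Adic.discrete P
  have e := cocycle_mem span_X_le (PowerSeries.C.comp ψ) h (C_mul_X_mem x) (C_mul_X_mem y)
    (C_mul_X_mem z)
  simp only [RingHom.comp_apply, ← add_mul, ← map_add, cc_C_mul_X, ← sub_mul, ← map_sub] at e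
  exact sub_eq_zero.1 (eq_zero_of_mem e)

theorem symm_eq (ψ : R →+* P) (h : Agree G H d) (x y : P) :
    cc (fun i => ψ (dc G H d i)) d x y = cc (fun i => ψ (dc G H d i)) d y x := by
  letI := Adic.discrete P
  have e := symm_mem span_X_le (PowerSeries.C.comp ψ) h (C_mul_X_mem x) (C_mul_X_mem y)
  simp only [RingHom.comp_apply, cc_C_mul_X, ← sub_mul, ← map_sub] at e
  exact sub_eq_zero.1 (eq_zero_of_mem e)

theorem mulSeries_sub_mem (h : Agree G H d) (m : ℕ) :
    mulSeries G m - mulSeries H m -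
      PowerSeries.C (∑ k ∈ Finset.range m, cc (dc G H d) d k 1) * PowerSeries.X ^ d ∈
      Ideal.span {(PowerSeries.X : PowerSeries R)} ^ (d + 1) := by
  letI := Adic.discrete R
  induction m with
  | zero => simp [mulSeries]
  | succ m ih =>
    have hm : ∀ G : FormalGroup R, mulSeries G m ∈ Ideal.span {(PowerSeries.X : PowerSeries R)} :=
      fun G => Ideal.mem_span_singleton.2 (PowerSeries.X_dvd_iff.2 (constantCoeff_mulSeries G m))
    have hs : ∀ G : FormalGroup R, mulSeries G (m + 1) =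
        ev2 (G.map PowerSeries.C).toPowerSeries (mulSeries G m)
          (PowerSeries.C 1 * PowerSeries.X) := fun G => by
      rw [map_one, one_mul]
      exact subst_eq_ev2 (PowerSeries.HasSubst.of_constantCoeff_zero'
        (constantCoeff_mulSeries G m)) PowerSeries.HasSubst.X' _
    have h2 : mulSeries H m - PowerSeries.C (m : R) * PowerSeries.X ∈
        Ideal.span {(PowerSeries.X : PowerSeries R)} ^ 2 := by
      have := Pt.nsmul_val_sub_mem m (ptX H)
      rw [nsmul_ptX] at this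
      rw [Ideal.span_singleton_pow, map_natCast]
      exact this
    have e := step_mem span_X_le PowerSeries.C h (hm G) (hm H) (C_mul_X_mem (m : R))
      (C_mul_X_mem 1) (Ideal.mul_mem_left _ _ (Ideal.pow_mem_pow (Ideal.mem_span_singleton_self _) d))
      ih h2
    rw [← hs, ← hs, cc_C_mul_X, ← add_mul, ← map_add, ← Finset.sum_range_succ] at e
    exact e

theorem dc_symm (h : Agree G H d) (i : ℕ) (h1 : 1 ≤ i) (h2 : i < d) :
    dc G H d i = dc G H d (d - i) := by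
  have e := congrArg (fun f => Polynomial.coeff f i)
    (symm_eq (Polynomial.C : R →+* Polynomial R) h Polynomial.X 1)
  simp only [cc, one_pow, mul_one, Polynomial.finsetSum_coeff, Polynomial.coeff_C_mul_X_pow] at e
  rw [Finset.sum_eq_single i, Finset.sum_eq_single (d - i), if_pos rfl, if_pos (by omega)] at e
  · exact e
  · intro j hj hne
    rw [Finset.mem_Ico] at hj
    rw [if_neg (by omega)]
  · intro hn
    exact absurd (Finset.mem_Ico.2 ⟨by omega, by omega⟩) hn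
  · intro j _ hne
    rw [if_neg hne.symm]
  · intro hn
    exact absurd (Finset.mem_Ico.2 ⟨h1, h2⟩) hn

theorem dc_cocycle (h : Agree G H d) (i j k : ℕ) (hi : 1 ≤ i) (hj : 1 ≤ j) (hk : 1 ≤ k)
    (hd : i + j + k = d) :
    dc G H d i * ((j + k).choose j : R) = dc G H d (i + j) * ((i + j).choose j : R) := by
  have e := congrArg (fun f : Polynomial (Polynomial R) => (f.coeff i).coeff j)
    (cocycle_eq ((Polynomial.C : Polynomial R →+* Polynomial (Polynomial R)).comp Polynomial.C) h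
      Polynomial.X (Polynomial.C Polynomial.X) 1)
  have e1 : ((cc (fun i => ((Polynomial.C : Polynomial R →+* Polynomial (Polynomial R)).comp
      Polynomial.C) (dc G H d i)) d Polynomial.X (Polynomial.C Polynomial.X)).coeff i).coeff j
      = 0 := by
    simp only [cc, RingHom.comp_apply, Polynomial.finsetSum_coeff]
    refine Finset.sum_eq_zero fun m _ => ?_
    rw [mul_right_comm, ← map_pow, ← map_mul, Polynomial.coeff_C_mul_X_pow]
    split_ifs with hm
    · rw [Polynomial.coeff_C_mul_X_pow, if_neg (by omega)]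
    · rfl
  have e2 : ((cc (fun i => ((Polynomial.C : Polynomial R →+* Polynomial (Polynomial R)).comp
      Polynomial.C) (dc G H d i)) d (Polynomial.X + Polynomial.C Polynomial.X) 1).coeff i).coeff j
      = dc G H d (i + j) * ((i + j).choose j : R) := by
    simp only [cc, RingHom.comp_apply, Polynomial.finsetSum_coeff, one_pow, mul_one,
      Polynomial.coeff_C_mul, Polynomial.coeff_X_add_C_pow, Polynomial.coeff_mul_natCast,
      Polynomial.coeff_X_pow]
    rw [Finset.sum_eq_single (i + j)]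
    · rw [if_pos (by omega), one_mul, Nat.choose_symm_add]
    · intro m _ hne
      by_cases hm : m < i
      · rw [Nat.choose_eq_zero_of_lt hm]
        simp
      · rw [if_neg (by omega)]
        simp
    · intro hn
      exact absurd (Finset.mem_Ico.2 ⟨by omega, by omega⟩) hn
  have e3 : ((cc (fun i => ((Polynomial.C : Polynomial R →+* Polynomial (Polynomial R)).comp
      Polynomial.C) (dc G H d i)) d (Polynomial.C Polynomial.X) 1).coeff i).coeff j = 0 := by
    simp only [cc, RingHom.comp_apply, Polynomial.finsetSum_coeff]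
    refine Finset.sum_eq_zero fun m _ => ?_
    rw [one_pow, mul_one, ← map_pow, ← map_mul, Polynomial.coeff_C, if_neg (by omega)]
    rfl
  have e4 : ((cc (fun i => ((Polynomial.C : Polynomial R →+* Polynomial (Polynomial R)).comp
      Polynomial.C) (dc G H d i)) d (Polynomial.C Polynomial.X + 1) Polynomial.X).coeff i).coeff j
      = dc G H d (j + k) * ((j + k).choose j : R) := by
    simp only [cc, RingHom.comp_apply, Polynomial.finsetSum_coeff]
    rw [Finset.sum_eq_single (j + k)]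
    · rw [← Polynomial.C_1, ← map_add, ← map_pow, ← map_mul, Polynomial.coeff_C_mul_X_pow,
        if_pos (by omega), Polynomial.coeff_C_mul, Polynomial.coeff_X_add_one_pow]
    · intro m hm hne
      rw [Finset.mem_Ico] at hm
      rw [← Polynomial.C_1, ← map_add, ← map_pow, ← map_mul, Polynomial.coeff_C_mul_X_pow,
        if_neg (by omega)]
      rfl
    · intro hn
      exact absurd (Finset.mem_Ico.2 ⟨by omega, by omega⟩) hn
  simp only [Polynomial.coeff_add] at e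
  rw [e1, e2, e3, e4, zero_add, zero_add] at e
  rw [e, dc_symm h i hi (by omega), show d - i = j + k by omega]

end test

section main

variable {R : Type*} [CommRing R] {p : ℕ} [Fact p.Prime]

theorem cc_choose {B : Type*} [CommRing B] {d : ℕ} (hd : 1 ≤ d) {a : ℕ → B} {α : B}
    (h : ∀ i, 1 ≤ i → i < d → a i = α * (d.choose i : B)) (s t : B) :
    cc a d s t = α * ((s + t) ^ d - s ^ d - t ^ d) := by
  have e : (s + t) ^ d - s ^ d - t ^ d =
      ∑ i ∈ Finset.Ico 1 d, s ^ i * t ^ (d - i) * (d.choose i : B) := by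
    rw [add_pow, Finset.sum_range_succ, Finset.range_eq_Ico,
      Finset.sum_eq_sum_Ico_succ_bot (by omega : 0 < d)]
    simp
  rw [e, Finset.mul_sum]
  refine Finset.sum_congr rfl fun i hi => ?_
  rw [Finset.mem_Ico] at hi
  rw [h i hi.1 hi.2]
  ring

theorem ev1_gamma {B : Type*} [CommRing B] [Adic B] (φ : R →+* B) (β : R) (d : ℕ) {t : B}
    (ht : t ∈ Nil B) :
    ev1 (PowerSeries.map φ (PowerSeries.X + PowerSeries.C β * PowerSeries.X ^ d)) t =
      t + φ β * t ^ d := by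
  rw [map_add, map_mul, map_pow, PowerSeries.map_X, PowerSeries.map_C, ev1_add, ev1_C_mul ht,
    ev1_X_pow ht, ev1_X ht]

theorem exists_step [CharP R p] {e : ℕ} (G H : FormalGroup R) [G.IsComm] [H.IsComm]
    (hG : mulSeries G p = PowerSeries.X ^ p ^ e) (hH : mulSeries H p = PowerSeries.X ^ p ^ e)
    {d : ℕ} (hd : 2 ≤ d) (h : Agree G H d) :
    ∃ (β : R) (H' : FormalGroup R), H'.IsComm ∧
      IsFGHom H' H (PowerSeries.X + PowerSeries.C β * PowerSeries.X ^ d) ∧
      mulSeries H' p = PowerSeries.X ^ p ^ e ∧ Agree G H' (d + 1) := by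
  letI := Adic.discrete R
  have hp : (p : R) = 0 := CharP.cast_eq_zero R p
  let S : AddSubgroup R := (RingHom.eqLocus (iterateFrobenius R p e) (RingHom.id R)).toAddSubgroup
  have hS : ∀ (G : FormalGroup R) [G.IsComm], mulSeries G p = PowerSeries.X ^ p ^ e →
      ∀ α, coeff α G.toPowerSeries ∈ S := fun G _ hG α => by
    have := congrArg (fun F : FormalGroup R => coeff α F.toPowerSeries) (fg_map_frob G hG)
    simp only [FormalGroup.map_toPowerSeries, coeff_map] at this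
    exact this
  obtain ⟨α, hα, hα'⟩ := coeff_aux hp S d (dc G H d)
    (fun i _ _ => by
      unfold dc
      rw [map_sub]
      exact S.sub_mem (hS G hG _) (hS H hH _))
    (dc_symm h) (dc_cocycle h) (by
      have e1 := mulSeries_sub_mem h p
      rw [hG, hH, sub_self, zero_sub, neg_mem_iff] at e1
      have e2 := eq_zero_of_mem e1
      simpa only [cc, one_pow, mul_one] using e2)
  have hβ : (-α) ^ p ^ e = -α := S.neg_mem hα
  have hγ0 : PowerSeries.constantCoeff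
      (PowerSeries.X + PowerSeries.C (-α) * PowerSeries.X ^ d : PowerSeries R) = 0 := by
    simp [show d ≠ 0 by omega]
  have hγ1 : PowerSeries.coeff 1
      (PowerSeries.X + PowerSeries.C (-α) * PowerSeries.X ^ d : PowerSeries R) = 1 := by
    rw [map_add, PowerSeries.coeff_C_mul, PowerSeries.coeff_X_pow, if_neg (by omega)]
    simp
  obtain ⟨H', hc, hγ⟩ := exists_transport H hγ0 (by rw [hγ1]; exact isUnit_one)
  refine ⟨-α, H', hc, hγ, ?_, ?_⟩
  · have e1 := IsFGHom.subst_mulSeries hγ p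
    have hm : mulSeries H' p ∈ Nil (PowerSeries R) :=
      mem_Nil_of_constantCoeff (constantCoeff_mulSeries H' p)
    have hX : (PowerSeries.X ^ p ^ e : PowerSeries R) ∈ Nil (PowerSeries R) :=
      pow_mem_Nil (X_mem_Nil ()) (pow_ne_zero_p p e)
    have hγs := PowerSeries.HasSubst.of_constantCoeff_zero' hγ0
    rw [hH, PowerSeries.subst_pow hγs, PowerSeries.subst_X hγs,
      subst_eq_ev1 (PowerSeries.HasSubst.of_constantCoeff_zero' (constantCoeff_mulSeries H' p))]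
      at e1
    refine ev1_injective hm hX (f := PowerSeries.map PowerSeries.C
      (PowerSeries.X + PowerSeries.C (-α) * PowerSeries.X ^ d))
      (by rw [PowerSeries.coeff_map, hγ1, map_one]; exact isUnit_one) ?_
    refine Eq.trans e1 ?_
    haveI : CharP (PowerSeries R) p :=
      charP_of_injective_ringHom (f := PowerSeries.C) PowerSeries.C_injective p
    rw [ev1_gamma _ _ _ hX, add_pow_char_pow, mul_pow, ← map_pow, hβ, ← pow_mul, ← pow_mul,
      mul_comm d]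
  · rw [agree_iff]
    set 𝔪 := Ideal.span (Set.range (X : Fin 2 → MvPowerSeries (Fin 2) R)) with h𝔪
    have h𝔪N : 𝔪 ≤ Nil _ := Ideal.span_le.2 (by rintro _ ⟨i, rfl⟩; exact X_mem_Nil i)
    have hx : ∀ i, (X i : MvPowerSeries (Fin 2) R) ∈ 𝔪 := fun i => Ideal.subset_span ⟨i, rfl⟩
    have hev : ∀ G : FormalGroup R, ev2 (G.map C).toPowerSeries (X 0) (X 1) = G.toPowerSeries :=
      fun G => ev2_map_C_X _
    have e1 := sub_cc_mem h𝔪N C h (hx 0) (hx 1)
    rw [hev, hev, cc_choose (by omega) (α := C α)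
      (fun i h1 h2 => by rw [hα' i h1 h2, map_mul, map_natCast])] at e1
    have e2 := (isFGHom_iff.1 hγ).2
    rw [ev1_gamma _ _ _ (mem_Nil_of_constantCoeff H'.zero_constantCoeff),
      ev1_gamma _ _ _ (X_mem_Nil 0), ev1_gamma _ _ _ (X_mem_Nil 1)] at e2
    have hpow : ∀ i, (C (-α) * X i ^ d : MvPowerSeries (Fin 2) R) ∈ 𝔪 ^ d := fun i =>
      Ideal.mul_mem_left _ _ (Ideal.pow_mem_pow (hx i) d)
    have hsum : ∀ i, (X i + C (-α) * X i ^ d : MvPowerSeries (Fin 2) R) ∈ 𝔪 := fun i =>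
      Ideal.add_mem _ (hx i) (Ideal.pow_le_self (by omega) (hpow i))
    have e3 := fg_lin h𝔪N (H.map C) (d := d) (hsum 0) (hx 0) (hsum 1) (hx 1)
      (by rw [add_sub_cancel_left]; exact hpow 0) (by rw [add_sub_cancel_left]; exact hpow 1)
    rw [hev, FormalGroup.map_toPowerSeries, ← e2] at e3
    have e4 := pow_sub_pow_mem (fg_mem h𝔪N (H'.map C) (hx 0) (hx 1))
      (Ideal.add_mem _ (hx 0) (hx 1)) (fg_sub_add_mem h𝔪N (H'.map C) (hx 0) (hx 1)) d
    rw [hev] at e4
    convert Ideal.sub_mem _ (Ideal.sub_mem _ e1 e3) (Ideal.mul_mem_left _ (C α) e4) using 1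
    rw [map_neg]
    ring

/-- The state of the induction. -/
def Good (p e : ℕ) (G G' : FormalGroup R) (j : ℕ) (x : PowerSeries R × FormalGroup R) : Prop :=
  x.2.IsComm ∧ IsFGHom x.2 G' x.1 ∧ PowerSeries.coeff 1 x.1 = 1 ∧
    mulSeries x.2 p = PowerSeries.X ^ p ^ e ∧ Agree G x.2 (j + 2)

theorem Good.step [CharP R p] {e : ℕ} {G G' : FormalGroup R} [G.IsComm]
    (hG : mulSeries G p = PowerSeries.X ^ p ^ e) {j : ℕ} {x : PowerSeries R × FormalGroup R}
    (hx : Good p e G G' j x) : ∃ y, Good p e G G' (j + 1) y ∧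
      y.1 - x.1 ∈ Ideal.span {(PowerSeries.X : PowerSeries R)} ^ (j + 2) := by
  letI := Adic.discrete R
  obtain ⟨b, H⟩ := x
  obtain ⟨hc, hb, hb1, hH, hA⟩ := hx
  dsimp only at hc hb hb1 hH hA
  obtain ⟨β, H', hc', hγ, hH', hA'⟩ := exists_step G H hG hH (by omega) hA
  have hmem : PowerSeries.subst (PowerSeries.X + PowerSeries.C β * PowerSeries.X ^ (j + 2)) b - b ∈
      Ideal.span {(PowerSeries.X : PowerSeries R)} ^ (j + 2) := by
    have := ev1_sub_ev1_mem (mem_Nil_of_constantCoeff hγ.1) (X_mem_Nil ())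
      (J := Ideal.span {(PowerSeries.X : PowerSeries R)} ^ (j + 2)) (by
        change PowerSeries.X + PowerSeries.C β * PowerSeries.X ^ (j + 2) - PowerSeries.X ∈ _
        rw [add_sub_cancel_left]
        exact Ideal.mul_mem_left _ _ (Ideal.pow_mem_pow (Ideal.mem_span_singleton_self _) _))
      (PowerSeries.map C b)
    rw [← subst_eq_ev1 (PowerSeries.HasSubst.of_constantCoeff_zero' hγ.1)] at this
    have e : ev1 (PowerSeries.map (C : R →+* MvPowerSeries Unit R) b) (X ()) = b := ev1_map_C_X b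
    rwa [e] at this
  refine ⟨(_, H'), ⟨hc', IsFGHom.comp hb hγ, ?_, hH', hA'⟩, hmem⟩
  rw [Ideal.span_singleton_pow, Ideal.mem_span_singleton, PowerSeries.X_pow_dvd_iff] at hmem
  have := hmem 1 (by omega)
  rw [map_sub, sub_eq_zero, hb1] at this
  exact this

end main

end LazardAux

variable {R : Type*} [CommRing R] {p : ℕ} [Fact p.Prime]

/-- Homogeneous symmetric cocycles of the additive group with vanishing norm are coboundaries. -/
theorem lazard_coeff (hp : (p : R) = 0) (S : AddSubgroup R) (d : ℕ) (a : ℕ → R)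
    (hS : ∀ i, 1 ≤ i → i < d → a i ∈ S) (hsym : ∀ i, 1 ≤ i → i < d → a i = a (d - i))
    (hcoc : ∀ i j k, 1 ≤ i → 1 ≤ j → 1 ≤ k → i + j + k = d →
      a i * ((j + k).choose j : R) = a (i + j) * ((i + j).choose j : R))
    (hN : ∑ m ∈ Finset.range p, ∑ i ∈ Finset.Ico 1 d, a i * (m : R) ^ i = 0) :
    ∃ α ∈ S, ∀ i, 1 ≤ i → i < d → a i = α * (d.choose i : R) :=
  LazardAux.coeff_aux hp S d a hS hsym hcoc hN

set_option linter.unusedVariables false in
theorem lazard [CharP R p] {e : ℕ} (he : 1 ≤ e) (G G' : FormalGroup R) [G.IsComm] [G'.IsComm]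
    (hG : mulSeries G p = PowerSeries.X ^ p ^ e) (hG' : mulSeries G' p = PowerSeries.X ^ p ^ e) :
    ∃ b : PowerSeries R, IsFGHom G G' b ∧ PowerSeries.coeff 1 b = 1 := by
  letI := Adic.discrete R
  choose f hf using fun (j : ℕ) (x : PowerSeries R × FormalGroup R)
    (hx : LazardAux.Good p e G G' j x) => LazardAux.Good.step hG hx
  have h0 : LazardAux.Good p e G G' 0 (PowerSeries.X, G') :=
    ⟨inferInstance, isFGHom_X G', PowerSeries.coeff_one_X, hG', LazardAux.agree_two G G'⟩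
  let x : ∀ j : ℕ, {x // LazardAux.Good p e G G' j x} := fun j =>
    Nat.rec ⟨_, h0⟩ (fun j x => ⟨f j x.1 x.2, (hf j x.1 x.2).1⟩) j
  have hx : ∀ j, (x (j + 1)).1.1 - (x j).1.1 ∈
      Ideal.span {(PowerSeries.X : PowerSeries R)} ^ (j + 2) := fun j => (hf j (x j).1 (x j).2).2
  have hdef : IsDef (Ideal.span {(PowerSeries.X : PowerSeries R)}) := by
    have e1 : Ideal.span {(PowerSeries.X : PowerSeries R)} = idl (PowerSeries R) := by
      have := span_range_X (σ := Unit) (R := R)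
      rw [Set.range_unique] at this
      exact this
    rw [e1]
    exact isDef_idl
  obtain ⟨b, hb⟩ := hdef.exists_lim (fun j => (x j).1.1)
    (fun j => Ideal.pow_le_pow_right (Nat.le_succ _) (hx j))
  have hbc : ∀ j i, i < j + 1 → PowerSeries.coeff i (b - (x j).1.1) = 0 := fun j => by
    have := hb j
    rwa [Ideal.span_singleton_pow, Ideal.mem_span_singleton, PowerSeries.X_pow_dvd_iff] at this
  have hb0 : PowerSeries.constantCoeff b = 0 := by
    have := hbc 0 0 (by omega)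
    rwa [PowerSeries.coeff_zero_eq_constantCoeff_apply, map_sub, (x 0).2.2.1.1, sub_zero] at this
  have hb1 : PowerSeries.coeff 1 b = 1 := by
    have := hbc 1 1 (by omega)
    rwa [map_sub, (x 1).2.2.2.1, sub_eq_zero] at this
  refine ⟨b, isFGHom_iff.2 ⟨hb0, ?_⟩, hb1⟩
  set 𝔪 := Ideal.span (Set.range (X : Fin 2 → MvPowerSeries (Fin 2) R)) with h𝔪
  have h𝔪N : 𝔪 ≤ Nil _ := Ideal.span_le.2 (by rintro _ ⟨i, rfl⟩; exact X_mem_Nil i)
  have hX : ∀ i, (X i : MvPowerSeries (Fin 2) R) ∈ 𝔪 := fun i => Ideal.subset_span ⟨i, rfl⟩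
  rw [← sub_eq_zero]
  refine (small_span_range (a := (X : Fin 2 → MvPowerSeries (Fin 2) R)) X_mem_Nil).eq_zero
    fun j => Ideal.pow_le_pow_right (Nat.le_succ j) ?_
  have key : ∀ t ∈ 𝔪, ev1 (PowerSeries.map C b) t - ev1 (PowerSeries.map C (x j).1.1) t ∈
      𝔪 ^ (j + 1) := fun t ht => by
    rw [← ev1_sub, ← map_sub]
    refine (Ideal.span_singleton_le_iff_mem _).2 (Ideal.pow_mem_pow ht (j + 1))
      (ev1_mem_span_pow (h𝔪N ht) fun i hi => ?_)
    rw [PowerSeries.coeff_map, hbc j i hi, map_zero]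
  have hGm : G.toPowerSeries ∈ 𝔪 := by
    have := LazardAux.fg_mem h𝔪N (G.map C) (hX 0) (hX 1)
    rwa [FormalGroup.map_toPowerSeries, ev2_map_C_X] at this
  obtain ⟨-, hh, -, -, hA⟩ := (x j).2
  have e1 := key _ hGm
  have e2 := ev1_sub_ev1_mem (mem_Nil_of_constantCoeff G.zero_constantCoeff)
    (mem_Nil_of_constantCoeff (x j).1.2.zero_constantCoeff)
    (Ideal.pow_le_pow_right (Nat.le_succ (j + 1)) (LazardAux.agree_iff.1 hA))
    (PowerSeries.map C (x j).1.1)
  rw [(isFGHom_iff.1 hh).2] at e2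
  have n1 : ∀ i : Fin 2, ev1 (PowerSeries.map C b) (X i : MvPowerSeries (Fin 2) R) ∈ Nil _ :=
    fun i => ev1_mem_Nil' (X_mem_Nil i) (constantCoeff_map_eq_zero _ hb0)
  have n2 : ∀ i : Fin 2, ev1 (PowerSeries.map C (x j).1.1) (X i : MvPowerSeries (Fin 2) R) ∈
      Nil _ := fun i => ev1_mem_Nil' (X_mem_Nil i) (constantCoeff_map_eq_zero _ hh.1)
  have e3 := ev2_sub_ev2_mem (n1 0) (n1 1) (n2 0) (n2 1) (key _ (hX 0)) (key _ (hX 1))
    (MvPowerSeries.map C G'.toPowerSeries)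
  convert Ideal.sub_mem _ (Ideal.add_mem _ e1 e2) e3 using 1
  ring

end Crest.Agent.R227
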