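import Mathlib

/-! Row 227 (S0351), module `LinAlg`: a space of additive functions of dimension at most `n` with
an action of `ζ`, `Π` is the standard module. -/

set_option autoImplicit false
set_option linter.unusedSectionVars false
set_option linter.style.haveILetI false

namespace Crest.Agent.R227

/-- Precomposition as a linear map. -/
def linalgR (E : Type*) {M : Type*} [Field E] [AddCommGroup M] (e : AddMonoid.End M) :
    Module.End E (M →+ E) where
  toFun w := w.comp e
  map_add' _ _ := rfl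
  map_smul' _ _ := rfl

theorem linalgR_mul {E M : Type*} [Field E] [AddCommGroup M] (e e' : AddMonoid.End M) :
    linalgR E (e * e') = linalgR E e' * linalgR E e := rfl

theorem linalgR_one {E M : Type*} [Field E] [AddCommGroup M] :
    linalgR E (1 : AddMonoid.End M) = 1 := rfl

theorem linalgR_pow {E M : Type*} [Field E] [AddCommGroup M] (e : AddMonoid.End M) (k : ℕ) :
    linalgR E (e ^ k) = linalgR E e ^ k := by
  induction k with
  | zero => rw [pow_zero, pow_zero, linalgR_one]
  | succ k ih => rw [pow_succ, linalgR_mul, ih, pow_succ']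

theorem linalgR_natCast {E M : Type*} [Field E] [AddCommGroup M] (k : ℕ) (w : M →+ E) :
    linalgR E (k : AddMonoid.End M) w = (k : E) • w := by
  ext m
  change w (k • m) = (k : E) • w m
  rw [map_nsmul, Nat.cast_smul_eq_nsmul]

theorem linalg {E M ι : Type*} [Field E] [IsAlgClosed E] [CharZero E] [AddCommGroup M] [Fintype ι]
    {p n : ℕ} (hp : p ≠ 0) (hι : Fintype.card ι = n) (b : ι → (M →+ E))
    (D : Submonoid (AddMonoid.End M)) {Z P : AddMonoid.End M} (hZ : Z ∈ D) (hP : P ∈ D)
    (hPZ : P * Z = Z ^ p * P) (hPn : P ^ n = (p : AddMonoid.End M))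
    (hZs : ∀ d, 0 < d → d < n → Function.Surjective (Z ^ p ^ d - Z : AddMonoid.End M))
    {w₀ : M →+ E} (hw₀ : w₀ ≠ 0)
    (hD : ∀ e ∈ D, w₀.comp e ∈ Submodule.span E (Set.range b)) :
    LinearIndependent E b ∧
    Submodule.span E {w | ∃ e ∈ D, w = w₀.comp e} = Submodule.span E (Set.range b) ∧
    ∀ (κ : Type) [Fintype κ] (w : κ → (M →+ E)) (y : κ → M) (s : κ) (a : M →+ E),
      (∀ i, w i ∈ Submodule.span E (Set.range b)) → a ∈ Submodule.span E (Set.range b) →
      a (y s) = 1 → (∀ i, i ≠ s → a (y i) = 0) → (∀ e ∈ D, ∑ i, w i (e (y i)) = 0) →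
      w s = 0 := by
  classical
  set B := Submodule.span E (Set.range b) with hB
  set A₀ := Submodule.span E {w | ∃ e ∈ D, w = w₀.comp e} with hA₀
  have hAB : A₀ ≤ B := Submodule.span_le.2 (by rintro _ ⟨e, he, rfl⟩; exact hD e he)
  have : FiniteDimensional E B := FiniteDimensional.span_of_finite E (Set.finite_range b)
  have : FiniteDimensional E A₀ := Submodule.finiteDimensional_of_le hAB
  have hBn : Module.finrank E B ≤ n := hι ▸ finrank_range_le_card b
  have hstab : ∀ e ∈ D, ∀ w ∈ A₀, linalgR E e w ∈ A₀ := by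
    intro e he w hw
    have : A₀ ≤ A₀.comap (linalgR E e) := Submodule.span_le.2 (by
      rintro _ ⟨e', he', rfl⟩
      exact Submodule.subset_span ⟨e' * e, D.mul_mem he' he, rfl⟩)
    exact this hw
  have hw₀A : w₀ ∈ A₀ := Submodule.subset_span ⟨1, D.one_mem, rfl⟩
  have : Nontrivial A₀ := ⟨⟨⟨w₀, hw₀A⟩, 0, fun h => hw₀ (congrArg Subtype.val h)⟩⟩
  obtain ⟨μ, hμ⟩ := Module.End.exists_eigenvalue (K := E) (V := A₀)
    ((linalgR E Z).restrict (hstab Z hZ))
  obtain ⟨⟨v, hvA⟩, hv⟩ := hμ.exists_hasEigenvector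
  have hv0 : v ≠ 0 := fun h => hv.2 (Subtype.ext h)
  have hvZ : linalgR E Z v = μ • v := congrArg Subtype.val hv.apply_eq_smul
  have hpow : ∀ (u : M →+ E) (c : E), linalgR E Z u = c • u → ∀ k : ℕ,
      linalgR E (Z ^ k) u = c ^ k • u := by
    intro u c h k
    induction k with
    | zero => rw [pow_zero, pow_zero, linalgR_one, one_smul]; rfl
    | succ k ih =>
      rw [pow_succ, linalgR_mul, Module.End.mul_apply, ih, map_smul, h, smul_smul, pow_succ]
  have hsemi : ∀ i : ℕ, SemiconjBy (P ^ i) Z (Z ^ p ^ i) := by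
    intro i
    induction i with
    | zero => simp
    | succ i ih =>
      rw [pow_succ', pow_succ', pow_mul]
      exact SemiconjBy.mul_left (SemiconjBy.pow_right hPZ _) ih
  let u : ℕ → (M →+ E) := fun i => linalgR E (P ^ i) v
  have huZ : ∀ i, linalgR E Z (u i) = μ ^ p ^ i • u i := by
    intro i
    simp only [u]
    rw [← Module.End.mul_apply, ← linalgR_mul, hsemi i, linalgR_mul, Module.End.mul_apply,
      hpow v μ hvZ, map_smul]
  have huP : ∀ i j, i ≤ n → linalgR E (P ^ (n - i + j)) (u i) = (p : E) • u j := by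
    intro i j hi
    simp only [u]
    rw [← Module.End.mul_apply, ← linalgR_mul, ← pow_add, show i + (n - i + j) = n + j by omega,
      pow_add, linalgR_mul, Module.End.mul_apply, hPn, linalgR_natCast, map_smul]
  have hp' : (p : E) ≠ 0 := Nat.cast_ne_zero.2 hp
  have hu0 : ∀ i, i ≤ n → u i ≠ 0 := by
    intro i hi h
    have := huP i 0 hi
    rw [h, map_zero] at this
    simp only [u, pow_zero, linalgR_one, Module.End.one_apply] at this
    exact smul_ne_zero hp' hv0 this.symm
  have huA : ∀ i, u i ∈ A₀ := fun i => hstab _ (D.pow_mem hP i) v hvA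
  have hlt : ∀ i j, i < j → j < n → μ ^ p ^ i ≠ μ ^ p ^ j := by
    intro i j hij hj h
    refine hu0 i (by omega) ?_
    have h1 := hpow _ _ (huZ i) (p ^ (j - i))
    rw [← pow_mul, ← pow_add, show i + (j - i) = j by omega, ← h, ← huZ] at h1
    ext m
    obtain ⟨m', rfl⟩ := hZs (j - i) (by omega) (by omega) m
    have h2 : u i ((Z ^ p ^ (j - i)) m') = u i (Z m') := DFunLike.congr_fun h1 m'
    change u i ((Z ^ p ^ (j - i)) m' - Z m') = 0
    rw [map_sub, h2, sub_self]
  have hinj : Function.Injective fun i : Fin n => μ ^ p ^ (i : ℕ) := by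
    intro i j h
    rcases lt_trichotomy i j with hij | hij | hij
    · exact absurd h (hlt i j hij j.2)
    · exact hij
    · exact absurd h.symm (hlt j i hij i.2)
  have heig : ∀ i : Fin n, (linalgR E Z).HasEigenvector (μ ^ p ^ (i : ℕ)) (u i) := fun i =>
    ⟨Module.End.mem_eigenspace_iff.2 (huZ i), hu0 i i.2.le⟩
  have hli : LinearIndependent E fun i : Fin n => u i :=
    Module.End.eigenvectors_linearIndependent' _ _ hinj _ heig
  set U := Submodule.span E (Set.range fun i : Fin n => u i) with hU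
  have hUA : U ≤ A₀ := Submodule.span_le.2 (by rintro _ ⟨i, rfl⟩; exact huA i)
  have hUn : Module.finrank E U = n := by
    rw [hU, finrank_span_eq_card hli, Fintype.card_fin]
  have hUB : U = B := Submodule.eq_of_le_of_finrank_le (hUA.trans hAB) (by rw [hUn]; exact hBn)
  refine ⟨linearIndependent_iff_card_eq_finrank_span.2 ?_, le_antisymm hAB (hUB ▸ hUA), ?_⟩
  · change _ = Module.finrank E B
    rw [← hUB, hUn, hι]
  intro κ _ w y s a hw ha has hai hsum
  let S : Submonoid (Module.End E (M →+ E)) :=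
    { carrier := {T | ∃ e ∈ D, T = linalgR E e}
      mul_mem' := by
        rintro _ _ ⟨e, he, rfl⟩ ⟨e', he', rfl⟩
        exact ⟨e' * e, D.mul_mem he' he, rfl⟩
      one_mem' := ⟨1, D.one_mem, rfl⟩ }
  let 𝒜 := Algebra.adjoin E (S : Set (Module.End E (M →+ E)))
  have hR : ∀ e ∈ D, linalgR E e ∈ 𝒜 := fun e he => Algebra.subset_adjoin ⟨e, he, rfl⟩
  have hzero : ∀ T ∈ 𝒜, ∑ i, T (w i) (y i) = 0 := by
    intro T hT
    have hT' : T ∈ Subalgebra.toSubmodule 𝒜 := hT
    rw [Algebra.adjoin_eq_span, Submonoid.closure_eq] at hT'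
    induction hT' using Submodule.span_induction with
    | mem T h => obtain ⟨e, he, rfl⟩ := h; exact hsum e he
    | zero => simp
    | add T T' h h' ih ih' =>
      have e1 := ih (by
        have : T ∈ Subalgebra.toSubmodule 𝒜 := by
          rwa [Algebra.adjoin_eq_span, Submonoid.closure_eq]
        exact this)
      have e2 := ih' (by
        have : T' ∈ Subalgebra.toSubmodule 𝒜 := by
          rwa [Algebra.adjoin_eq_span, Submonoid.closure_eq]
        exact this)
      simp only [LinearMap.add_apply, AddMonoidHom.add_apply, Finset.sum_add_distrib, e1, e2,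
        add_zero]
    | smul c T h ih =>
      have e1 := ih (by
        have : T ∈ Subalgebra.toSubmodule 𝒜 := by
          rwa [Algebra.adjoin_eq_span, Submonoid.closure_eq]
        exact this)
      simp only [LinearMap.smul_apply, AddMonoidHom.smul_apply, ← Finset.smul_sum, e1, smul_zero]
  have hmove : ∀ k : Fin n, ∃ T ∈ 𝒜, T (u k) = a := by
    intro k
    rw [← hUB] at ha
    clear has hai
    induction ha using Submodule.span_induction with
    | mem a h =>
      obtain ⟨j, rfl⟩ := h
      refine ⟨(p : E)⁻¹ • linalgR E (P ^ (n - k + j)), 𝒜.smul_mem (hR _ (D.pow_mem hP _)) _, ?_⟩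
      rw [LinearMap.smul_apply, huP k j k.2.le, smul_smul, inv_mul_cancel₀ hp', one_smul]
    | zero => exact ⟨0, 𝒜.zero_mem, rfl⟩
    | add a a' _ _ ih ih' =>
      obtain ⟨T, hT, h⟩ := ih
      obtain ⟨T', hT', h'⟩ := ih'
      exact ⟨T + T', 𝒜.add_mem hT hT', by rw [LinearMap.add_apply, h, h']⟩
    | smul c a _ ih =>
      obtain ⟨T, hT, h⟩ := ih
      exact ⟨c • T, 𝒜.smul_mem hT c, by rw [LinearMap.smul_apply, h]⟩
  have hunit : ∀ k : Fin n, ∃ T ∈ 𝒜, ∀ l : Fin n, T (u l) = if k = l then a else 0 := by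
    intro k
    obtain ⟨T, hT, h⟩ := hmove k
    let q := Lagrange.basis Finset.univ (fun i : Fin n => μ ^ p ^ (i : ℕ)) k
    refine ⟨T * Polynomial.aeval (linalgR E Z) q, 𝒜.mul_mem hT ?_, fun l => ?_⟩
    · exact Algebra.adjoin_le (S := 𝒜) (Set.singleton_subset_iff.2 (hR Z hZ))
        (Polynomial.aeval_mem_adjoin_singleton E _)
    · rw [Module.End.mul_apply, Module.End.aeval_apply_of_hasEigenvector (heig l)]
      split_ifs with hkl
      · subst hkl
        rw [Lagrange.eval_basis_self hinj.injOn (Finset.mem_univ _), one_smul, h]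
      · rw [Lagrange.eval_basis_of_ne (v := fun i : Fin n => μ ^ p ^ (i : ℕ)) hkl
          (Finset.mem_univ _), zero_smul, map_zero]
  choose T hT hTu using hunit
  ext m
  let lam : (M →+ E) →ₗ[E] E :=
    { toFun := fun f => f m, map_add' := fun _ _ => rfl, map_smul' := fun _ _ => rfl }
  have h1 := hzero (∑ k : Fin n, u k m • T k) (𝒜.sum_mem fun k _ => 𝒜.smul_mem (hT k) _)
  have h2 : ∀ f ∈ B, (∑ k : Fin n, u k m • T k) f = f m • a := by
    intro f hf
    rw [← hUB] at hf
    refine LinearMap.eqOn_span' (f := ∑ k : Fin n, u k m • T k) (g := lam.smulRight a) ?_ hf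
    rintro _ ⟨l, rfl⟩
    simp [hTu, lam]
  rw [Finset.sum_eq_single s (fun i _ hi => by
    rw [h2 _ (hw i), AddMonoidHom.smul_apply, hai i hi, smul_zero]) (by simp),
    h2 _ (hw s), AddMonoidHom.smul_apply, has, smul_eq_mul, mul_one] at h1
  exact h1

end Crest.Agent.R227
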