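import Mathlib

/-! Row 227 (S0351), module `LinAux`: independent functions have an invertible evaluation matrix. -/

set_option autoImplicit false
set_option linter.unusedSectionVars false
set_option linter.style.haveILetI false

namespace Crest.Agent.R227

theorem exists_det_ne_zero {F σ X : Type*} [Field F] [Fintype σ] [DecidableEq σ] (D : X → σ → F)
    (h : ∀ v : σ → F, (∀ x, ∑ j, v j * D x j = 0) → v = 0) :
    ∃ y : σ → X, (Matrix.of fun i j => D (y i) j).det ≠ 0 := by
  have hspan : Submodule.span F (Set.range D) = ⊤ := by
    by_contra hne
    obtain ⟨f, hf0, hf⟩ := Submodule.exists_le_ker_of_lt_top _ (lt_top_iff_ne_top.2 hne)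
    apply hf0
    have hv := h (fun j => f (Pi.single j 1)) fun x => by
      have := hf (Submodule.subset_span ⟨x, rfl⟩)
      rw [LinearMap.mem_ker, LinearMap.pi_apply_eq_sum_univ] at this
      rw [← this]
      refine Finset.sum_congr rfl fun j _ => ?_
      rw [smul_eq_mul, mul_comm]
      congr 2
      funext i
      simp [Pi.single_apply, eq_comm]
    ext j
    simpa using congrFun hv j
  obtain ⟨s, hs, hsp, hli⟩ := exists_linearIndependent F (Set.range D)
  rw [hspan] at hsp
  let b : Module.Basis s F (σ → F) := Module.Basis.mk hli (by simp [hsp])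
  have : Finite s := Module.Finite.finite_basis b
  let : Fintype s := Fintype.ofFinite s
  have hc : Fintype.card σ = Fintype.card s := by
    rw [← Module.finrank_eq_card_basis b, Module.finrank_fintype_fun_eq_card]
  let e := Fintype.equivOfCardEq hc
  choose y hy using fun i : σ => hs (e i).2
  refine ⟨y, ?_⟩
  have hli' : LinearIndependent F (Matrix.of fun i j => D (y i) j).row := by
    have : (Matrix.of fun i j => D (y i) j).row = (fun x : s => (x : σ → F)) ∘ e := by
      funext i
      exact hy i
    rw [this]
    exact hli.comp e e.injective
  exact ((Matrix.isUnit_iff_isUnit_det _).1 (Matrix.linearIndependent_rows_iff_isUnit.1 hli')).ne_zero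

end Crest.Agent.R227
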