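import Crest.Agent.R227.Norm
import Crest.Agent.R227.Pt

/-! Row 227 (S0351), auxiliary estimates for the logarithm `lim [p^j] t / p^j`. -/

set_option autoImplicit false
set_option linter.unusedSectionVars false
set_option linter.style.haveILetI false

namespace Crest.Agent.R227.LogAux

open MvPowerSeries Filter Topology Crest.LubinTate

variable {E : Type*} [NontriviallyNormedField E] [VF E] [CharZero E] {p : ℕ} [Fact p.Prime]

theorem p_ne : (p : E) ≠ 0 := (Nat.cast_ne_zero (R := E)).2 (Fact.out : p.Prime).ne_zero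

theorem np_pos : 0 < ‖(p : E)‖ := norm_pos_iff.2 p_ne

theorem norm_sub_le_max' (x y : E) : ‖x - y‖ ≤ max ‖x‖ ‖y‖ := by
  have := IsUltrametricDist.norm_add_le_max x (-y)
  rwa [norm_neg, ← sub_eq_add_neg] at this

theorem norm_lim_sub_le {s : ℕ → E} {L : E} (hs : Tendsto s atTop (𝓝 L)) {c : ℝ} (hc : 0 ≤ c)
    (h : ∀ j, ‖s (j + 1) - s j‖ ≤ c) : ‖L - s 0‖ ≤ c := by
  have h1 : ∀ j, ‖s j - s 0‖ ≤ c := by
    intro j
    induction j with
    | zero => simpa using hc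
    | succ j ih =>
      have : s (j + 1) - s 0 = (s (j + 1) - s j) + (s j - s 0) := by ring
      rw [this]
      exact (IsUltrametricDist.norm_add_le_max _ _).trans (max_le (h j) ih)
  exact le_of_tendsto' ((hs.sub_const (s 0)).norm) h1

theorem tendsto_zero_of_le (hp : ‖(p : E)‖ < 1) {s : ℕ → E} (K : ℝ)
    (h : ∀ᶠ j in atTop, ‖s j‖ ≤ K * ‖(p : E)‖ ^ j) : Tendsto s atTop (𝓝 0) := by
  refine squeeze_zero_norm' h ?_
  simpa using (tendsto_pow_atTop_nhds_zero_of_lt_one (norm_nonneg _) hp).const_mul K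

theorem pow_le_div (hp : ‖(p : E)‖ < 1) {a b c : ℕ} (h : b ≤ a + c) :
    ‖(p : E)‖ ^ a ≤ ‖(p : E)‖ ^ b / ‖(p : E)‖ ^ c := by
  rw [le_div_iff₀ (pow_pos np_pos _), ← pow_add]
  exact pow_le_pow_of_le_one (norm_nonneg _) hp.le h

section general

variable {A : Type*} [CommRing A] [Adic A] {G : FormalGroup A} [G.IsComm]

theorem succ_sub_mem (T : Pt G) (j : ℕ) :
    (p ^ (j + 1) • T).1 - p * (p ^ j • T).1 ∈ Ideal.span {(p ^ j • T).1 ^ 2} := by
  rw [pow_succ' p, mul_nsmul']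
  exact Pt.nsmul_val_sub_mem p _

theorem map_p_mul (ℓ : A →+ E) (x : A) : ℓ (p * x) = p * ℓ x := by
  rw [← nsmul_eq_mul, map_nsmul, nsmul_eq_mul]

theorem incr_eq (ℓ : A →+ E) (T : Pt G) (j : ℕ) :
    ℓ (p ^ (j + 1) • T).1 / (p : E) ^ (j + 1) - ℓ (p ^ j • T).1 / (p : E) ^ j =
      ℓ ((p ^ (j + 1) • T).1 - p * (p ^ j • T).1) / (p : E) ^ (j + 1) := by
  have := p_ne (E := E) (p := p)
  rw [map_sub, map_p_mul]
  field_simp
  ring

theorem mem_pow_of {𝔟 : Ideal A} (hpb : (p : A) ∈ 𝔟) {T : Pt G} {j0 : ℕ}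
    (h : (p ^ j0 • T).1 ∈ 𝔟) (j : ℕ) : (p ^ j • T).1 ∈ 𝔟 ^ (j + 1 - j0) := by
  by_cases hj : j0 ≤ j
  · obtain ⟨i, rfl⟩ := Nat.exists_eq_add_of_le hj
    have := Pt.pow_nsmul_mem_pow (j := 0) hpb (t := p ^ j0 • T) (by simpa using h) i
    rw [← mul_nsmul', ← pow_add, add_comm i j0] at this
    have e : j0 + i + 1 - j0 = 0 + i + 1 := by omega
    rwa [e]
  · have : j + 1 - j0 = 0 := by omega
    rw [this, pow_zero, Ideal.one_eq_top]
    trivial

theorem exists_lim_hom (hp : ‖(p : E)‖ < 1) (ℓ : A →+ E) {𝔟 : Ideal A} (hpb : (p : A) ∈ 𝔟) (d : ℕ)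
    (hℓ : ∀ (N : ℕ) (x : A), x ∈ 𝔟 ^ N → ‖ℓ x‖ ≤ ‖(p : E)‖ ^ (N - d))
    (hsm : ∀ T : Pt G, ∃ j0 : ℕ, (p ^ j0 • T).1 ∈ 𝔟) :
    ∃ L : Pt G →+ E, ∀ T, Tendsto (fun j : ℕ => ℓ (p ^ j • T).1 / (p : E) ^ j) atTop
      (𝓝 (L T)) := by
  have hpos := np_pos (E := E) (p := p)
  have hconv : ∀ T : Pt G, ∃ L : E,
      Tendsto (fun j : ℕ => ℓ (p ^ j • T).1 / (p : E) ^ j) atTop (𝓝 L) := by
    intro T
    obtain ⟨j0, h0⟩ := hsm T
    refine cauchySeq_tendsto_of_complete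
      (cauchySeq_of_le_geometric ‖(p : E)‖ (1 / ‖(p : E)‖ ^ (2 * j0 + d)) hp fun j => ?_)
    rw [dist_comm, dist_eq_norm, incr_eq, norm_div, norm_pow]
    have h1 := mem_pow_of hpb h0 j
    have h2 : (p ^ j • T).1 ^ 2 ∈ 𝔟 ^ (2 * (j + 1 - j0)) := by
      rw [mul_comm, pow_mul]
      exact Ideal.pow_mem_pow h1 2
    have h3 := hℓ _ _ ((Ideal.span_singleton_le_iff_mem _).2 h2 (succ_sub_mem T j))
    have h4 := pow_le_div hp (a := 2 * (j + 1 - j0) - d) (b := j + (j + 1)) (c := 2 * j0 + d)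
      (by omega)
    rw [div_le_iff₀ (pow_pos hpos _)]
    refine h3.trans (h4.trans (le_of_eq ?_))
    rw [pow_add]; ring
  choose L hL using hconv
  refine ⟨AddMonoidHom.mk' L fun S T => ?_, hL⟩
  obtain ⟨j1, h1⟩ := hsm S
  obtain ⟨j2, h2⟩ := hsm T
  have key : Tendsto (fun j : ℕ => ℓ (p ^ j • (S + T)).1 / (p : E) ^ j -
      (ℓ (p ^ j • S).1 / (p : E) ^ j + ℓ (p ^ j • T).1 / (p : E) ^ j)) atTop (𝓝 0) := by
    refine tendsto_zero_of_le hp (1 / ‖(p : E)‖ ^ (j1 + j2 + d)) (Eventually.of_forall fun j => ?_)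
    have e : ℓ (p ^ j • (S + T)).1 / (p : E) ^ j -
        (ℓ (p ^ j • S).1 / (p : E) ^ j + ℓ (p ^ j • T).1 / (p : E) ^ j) =
        ℓ ((p ^ j • S + p ^ j • T).1 - (p ^ j • S).1 - (p ^ j • T).1) / (p : E) ^ j := by
      rw [nsmul_add, map_sub, map_sub]; ring
    rw [e, norm_div, norm_pow]
    have h3 : (p ^ j • S).1 * (p ^ j • T).1 ∈ 𝔟 ^ ((j + 1 - j1) + (j + 1 - j2)) := by
      rw [pow_add]
      exact Ideal.mul_mem_mul (mem_pow_of hpb h1 j) (mem_pow_of hpb h2 j)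
    have h4 := hℓ _ _ ((Ideal.span_singleton_le_iff_mem _).2 h3 (Pt.add_val_sub_mem _ _))
    have h5 := pow_le_div hp (a := (j + 1 - j1) + (j + 1 - j2) - d) (b := j + j)
      (c := j1 + j2 + d) (by omega)
    rw [div_le_iff₀ (pow_pos hpos _)]
    refine h4.trans (h5.trans (le_of_eq ?_))
    rw [pow_add]; ring
  have := tendsto_nhds_unique key ((hL (S + T)).sub ((hL S).add (hL T)))
  exact (sub_eq_zero.1 this.symm)

theorem mem_span_pow_mul {a : A} (ha : a ∈ Ideal.span {(p : A)}) {T : Pt G}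
    (hT : T.1 ∈ Ideal.span {a}) (j : ℕ) : (p ^ j • T).1 ∈ Ideal.span {(p : A) ^ j * a} := by
  induction j with
  | zero => simpa using hT
  | succ j ih =>
    obtain ⟨u, hu⟩ := Ideal.mem_span_singleton'.1 ih
    obtain ⟨a', ha'⟩ := Ideal.mem_span_singleton'.1 ha
    obtain ⟨v, hv⟩ := Ideal.mem_span_singleton'.1 (succ_sub_mem (p := p) T j)
    refine Ideal.mem_span_singleton'.2 ⟨u + v * u ^ 2 * (p : A) ^ j * a' , ?_⟩
    have e : (p ^ (j + 1) • T).1 = p * (p ^ j • T).1 + v * (p ^ j • T).1 ^ 2 := by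
      rw [hv]; ring
    rw [e, ← hu]
    have : (u * ((p : A) ^ j * a)) ^ 2 = u ^ 2 * (p : A) ^ j * (p : A) ^ j * a * (a' * p) := by
      rw [ha']; ring
    rw [this]; ring

theorem norm_lim_sub_le_sq (hp : ‖(p : E)‖ < 1) (ℓ : A →+ E) (φ : Ob E →+* A)
    (hℓ : ∀ (b : Ob E) (x : A), x ∈ Ideal.span {φ b} → ‖ℓ x‖ ≤ ‖(b : E)‖)
    {a : Ob E} (ha : ‖(a : E)‖ ≤ ‖(p : E)‖) {T : Pt G} (hT : T.1 ∈ Ideal.span {φ a}) {L : E}
    (hL : Tendsto (fun j : ℕ => ℓ (p ^ j • T).1 / (p : E) ^ j) atTop (𝓝 L)) :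
    ‖L - ℓ T.1‖ ≤ ‖(a : E)‖ ^ 2 / ‖(p : E)‖ := by
  have hpos := np_pos (E := E) (p := p)
  have ha1 : φ a ∈ Ideal.span {(p : A)} := by
    have h1 : a ∈ Ideal.span {(p : Ob E)} := mem_span_iff_norm.2 (by simpa using ha)
    obtain ⟨c, hc⟩ := Ideal.mem_span_singleton'.1 h1
    exact Ideal.mem_span_singleton'.2 ⟨φ c, by rw [← hc, map_mul, map_natCast]⟩
  have := norm_lim_sub_le hL (c := ‖(a : E)‖ ^ 2 / ‖(p : E)‖) (by positivity) fun j => ?_
  · simpa using this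
  · rw [incr_eq, norm_div, norm_pow]
    have h1 := mem_span_pow_mul ha1 hT j
    have h2 : (p ^ j • T).1 ^ 2 ∈ Ideal.span {φ (((p : Ob E) ^ j * a) ^ 2)} := by
      obtain ⟨u, hu⟩ := Ideal.mem_span_singleton'.1 h1
      refine Ideal.mem_span_singleton'.2 ⟨u ^ 2, ?_⟩
      rw [← hu, map_pow, map_mul, map_pow, map_natCast]; ring
    have h3 := hℓ _ _ ((Ideal.span_singleton_le_iff_mem _).2 h2 (succ_sub_mem T j))
    have h4 : ‖((((p : Ob E) ^ j * a) ^ 2 : Ob E) : E)‖ =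
        ‖(p : E)‖ ^ j * (‖(p : E)‖ ^ j * ‖(a : E)‖ ^ 2) := by
      simp only [SubmonoidClass.coe_pow, Subring.coe_mul, Subring.coe_natCast, norm_pow, norm_mul]
      ring
    rw [h4] at h3
    rw [div_le_div_iff₀ (pow_pos hpos _) hpos]
    have h5 : ‖(p : E)‖ ^ j ≤ 1 := pow_le_one₀ hpos.le hp.le
    have h6 : 0 ≤ ‖(p : E)‖ ^ j * ‖(a : E)‖ ^ 2 := by positivity
    have h7 := h3.trans (mul_le_of_le_one_left h6 h5)
    calc _ ≤ ‖(p : E)‖ ^ j * ‖(a : E)‖ ^ 2 * ‖(p : E)‖ := mul_le_mul_of_nonneg_right h7 hpos.le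
      _ = _ := by ring

end general

section ob

variable {G : FormalGroup (Ob E)} [G.IsComm]

/-- Uniform smallness of `p^k • t` on a ball. -/
theorem exists_pow_nsmul_lt (hp : ‖(p : E)‖ < 1) {ρ : ℝ} (hρ0 : 0 ≤ ρ) (hρ : ρ < 1) {ε : ℝ}
    (hε : 0 < ε) : ∃ k : ℕ, ∀ t : Pt G, ‖(t.1 : E)‖ ≤ ρ → ‖((p ^ k • t).1 : E)‖ < ε := by
  have hm : max ρ ‖(p : E)‖ < 1 := max_lt hρ hp
  have hm0 : 0 ≤ max ρ ‖(p : E)‖ := le_max_of_le_left hρ0
  obtain ⟨k, hk⟩ := exists_pow_lt_of_lt_one hε hm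
  refine ⟨k, fun t ht => ?_⟩
  have h1 : (p : Ob E) ∈ ball E (max ρ ‖(p : E)‖) := (mem_ball hm0).2 (by simp)
  have h2 : t.1 ∈ ball E (max ρ ‖(p : E)‖) ^ (0 + 1) := by
    rw [zero_add, pow_one]; exact (mem_ball hm0).2 (le_max_of_le_left ht)
  have h3 := norm_le_of_mem_pow hm0 (fun a ha => (mem_ball hm0).1 ha)
    (Pt.pow_nsmul_mem_pow h1 h2 k)
  exact (h3.trans (pow_le_pow_of_le_one hm0 hm.le (by omega))).trans_lt hk

theorem exists_mem_span_p (hp : ‖(p : E)‖ < 1) (t : Pt G) :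
    ∃ j0 : ℕ, (p ^ j0 • t).1 ∈ Ideal.span {(p : Ob E)} := by
  obtain ⟨k, hk⟩ := exists_pow_nsmul_lt (G := G) hp (norm_nonneg _) (mem_Nil_Ob.1 t.2)
    (np_pos (E := E) (p := p))
  exact ⟨k, mem_span_iff_norm.2 (by simpa using (hk t le_rfl).le)⟩

theorem exists_norm_le (hp : ‖(p : E)‖ < 1) (t : Pt G) :
    ∃ K : ℝ, ∀ j : ℕ, ‖((p ^ j • t).1 : E)‖ ≤ K * ‖(p : E)‖ ^ j := by
  obtain ⟨j0, h0⟩ := exists_mem_span_p hp t
  refine ⟨1 / ‖(p : E)‖ ^ j0, fun j => ?_⟩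
  have h1 := mem_span_pow_iff_norm.1 (mem_pow_of (Ideal.mem_span_singleton_self _) h0 j)
  have h2 := pow_le_div hp (a := j + 1 - j0) (b := j) (c := j0) (by omega)
  simp only [Subring.coe_natCast] at h1
  refine h1.trans (h2.trans (le_of_eq ?_))
  ring

theorem finite_ker {d : ℕ} (hd : IsUnit (PowerSeries.coeff d (mulSeries G p))) (k : ℕ) :
    {t : Pt G | p ^ k • t = 0}.Finite := by
  classical
  have h1 : {t : Pt G | p • t = 0}.Finite := by
    by_contra hinf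
    obtain ⟨s, hs, hcard⟩ := Set.Infinite.exists_subset_card_eq hinf (d + 1)
    have h2 := card_zeros_le (mulSeries G p) hd (s.image fun t => t.1) (by
      intro x hx
      obtain ⟨t, ht, rfl⟩ := Finset.mem_image.1 hx
      refine ⟨t.2, ?_⟩
      have : p • t = 0 := hs ht
      rw [← Pt.nsmul_val, this, Pt.zero_val])
    rw [Finset.card_image_of_injective _ (fun s t h => Pt.ext h), hcard] at h2
    omega
  induction k with
  | zero =>
    refine (Set.finite_singleton (0 : Pt G)).subset fun t ht => ?_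
    simpa using ht
  | succ k ih =>
    have h2 : ((fun t : Pt G => p • t) ⁻¹' {t : Pt G | p ^ k • t = 0}).Finite := by
      refine Set.Finite.preimage' ih fun u _ => ?_
      by_cases hu : ∃ t0 : Pt G, p • t0 = u
      · obtain ⟨t0, ht0⟩ := hu
        refine (h1.image (fun t => t + t0)).subset fun t ht => ⟨t - t0, ?_, sub_add_cancel _ _⟩
        have : p • t = u := ht
        change p • (t - t0) = 0
        rw [nsmul_sub, this, ht0, sub_self]
      · refine Set.finite_empty.subset fun t ht => hu ⟨t, ht⟩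
    refine h2.subset fun t ht => ?_
    change p ^ k • p • t = 0
    rw [← mul_nsmul', ← pow_succ]
    exact ht

end ob

section mv

variable {σ : Type*} [Finite σ]

/-- The coefficient functional. -/
noncomputable def cf (α : σ →₀ ℕ) : MvPowerSeries σ (Ob E) →+ E :=
  (Ob E).subtype.toAddMonoidHom.comp (coeff α : MvPowerSeries σ (Ob E) →ₗ[Ob E] Ob E).toAddMonoidHom

theorem cf_apply (α : σ →₀ ℕ) (f : MvPowerSeries σ (Ob E)) :
    cf α f = ((coeff α f : Ob E) : E) := rfl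

theorem norm_cf_le (α : σ →₀ ℕ) (b : Ob E) (x : MvPowerSeries σ (Ob E))
    (hx : x ∈ Ideal.span {(C b : MvPowerSeries σ (Ob E))}) : ‖cf α x‖ ≤ ‖(b : E)‖ := by
  obtain ⟨u, rfl⟩ := Ideal.mem_span_singleton'.1 hx
  rw [cf_apply, mul_comm, coeff_C_mul]
  exact mem_span_iff_norm.1 (Ideal.mul_mem_right _ _ (Ideal.mem_span_singleton_self _))

theorem mem_span_C {a : Ob E} {f : MvPowerSeries σ (Ob E)}
    (h : ∀ β, coeff β f ∈ Ideal.span {a}) : f ∈ Ideal.span {(C a : MvPowerSeries σ (Ob E))} := by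
  obtain ⟨g, rfl⟩ := exists_eq_C_mul h
  exact Ideal.mul_mem_right _ _ (Ideal.mem_span_singleton_self _)

theorem p_mem_comap : (p : MvPowerSeries σ (Ob E)) ∈
    (Ideal.span {(p : Ob E)}).comap (constantCoeff : MvPowerSeries σ (Ob E) →+* Ob E) := by
  rw [Ideal.mem_comap, map_natCast]
  exact Ideal.mem_span_singleton_self _

theorem norm_coeff_le (α : σ →₀ ℕ) (N : ℕ) (x : MvPowerSeries σ (Ob E))
    (hx : x ∈ ((Ideal.span {(p : Ob E)}).comap
      (constantCoeff : MvPowerSeries σ (Ob E) →+* Ob E)) ^ N) :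
    ‖((coeff α x : Ob E) : E)‖ ≤ ‖(p : E)‖ ^ (N - α.degree) := by
  have := mem_span_pow_iff_norm.1 ((mem_comap_pow_iff _ N x).1 hx α)
  simpa using this

theorem exists_mem_comap (hp : ‖(p : E)‖ < 1) {𝒢 : FormalGroup (MvPowerSeries σ (Ob E))}
    [𝒢.IsComm] (T : Pt 𝒢) : ∃ j0 : ℕ, (p ^ j0 • T).1 ∈
      (Ideal.span {(p : Ob E)}).comap (constantCoeff : MvPowerSeries σ (Ob E) →+* Ob E) := by
  obtain ⟨j0, h⟩ := exists_mem_span_p hp
    (Pt.map (G' := 𝒢.map constantCoeff) constantCoeff mapsNil_constantCoeff rfl T)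
  refine ⟨j0, ?_⟩
  rw [← map_nsmul, Pt.map_val] at h
  exact h

theorem coeff_sub_linear [Fintype σ] {R : Type*} [CommRing R] (F : MvPowerSeries σ R)
    (α : σ →₀ ℕ) :
    coeff α (F - (C (constantCoeff F) + ∑ i, C (coeff (Finsupp.single i 1) F) * X i)) =
      if α.degree < 2 then 0 else coeff α F := by
  classical
  rw [map_sub, map_add, map_sum, coeff_C]
  simp only [coeff_C_mul, coeff_X]
  by_cases h0 : α = 0
  · subst h0
    simp [eq_comm (a := (0 : σ →₀ ℕ))]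
  · rw [if_neg h0, zero_add]
    split_ifs with hα
    · have h1 : α.degree = 1 := by
        have : α.degree ≠ 0 := by rwa [Ne, Finsupp.degree_eq_zero_iff]
        omega
      obtain ⟨i, rfl⟩ : ∃ i, α = Finsupp.single i 1 := (Finsupp.sum_eq_one_iff α).1 h1
      rw [Finset.sum_eq_single i]
      · simp
      · intro j _ hj
        rw [if_neg, mul_zero]
        rw [Finsupp.single_left_inj one_ne_zero]
        exact Ne.symm hj
      · simp
    · rw [Finset.sum_eq_zero, sub_zero]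
      intro i _
      rw [if_neg, mul_zero]
      rintro rfl
      simp at hα

theorem norm_ev_sub_linear_le [Fintype σ] (hp : ‖(p : E)‖ < 1) {N : ℕ}
    {F : MvPowerSeries σ (Ob E)}
    (hF : F ∈ ((Ideal.span {(p : Ob E)}).comap
      (constantCoeff : MvPowerSeries σ (Ob E) →+* Ob E)) ^ N)
    {z : σ → Ob E} (hz : ∀ i, z i ∈ Nil (Ob E)) {r : ℝ} (hr0 : 0 ≤ r) (hr : r ≤ ‖(p : E)‖)
    (hzr : ∀ i, ‖(z i : E)‖ ≤ r) :
    ‖((ev F z : Ob E) : E) - ((coeff 0 F : Ob E) : E) -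
      ∑ i, ((coeff (Finsupp.single i 1) F : Ob E) : E) * z i‖ ≤ ‖(p : E)‖ ^ (N - 2) * r ^ 2 := by
  have h := norm_ev_le (r := ‖(p : E)‖ ^ (N - 2) * r ^ 2) hr0 (hr.trans_lt hp) (by positivity) hzr
    (F := F - (C (constantCoeff F) + ∑ i, C (coeff (Finsupp.single i 1) F) * X i)) fun α => by
    rw [coeff_sub_linear]
    split_ifs with hα
    · simp only [ZeroMemClass.coe_zero, norm_zero, zero_mul]; positivity
    · obtain ⟨k, hk⟩ : ∃ k, α.degree = k + 2 := ⟨α.degree - 2, by omega⟩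
      have h1 := norm_coeff_le α N F hF
      have h2 : r ^ k ≤ ‖(p : E)‖ ^ k := pow_le_pow_left₀ hr0 hr k
      rw [hk] at h1 ⊢
      have h3 : ‖(p : E)‖ ^ (N - (k + 2)) * ‖(p : E)‖ ^ k ≤ ‖(p : E)‖ ^ (N - 2) := by
        rw [← pow_add]
        exact pow_le_pow_of_le_one (norm_nonneg _) hp.le (by omega)
      calc _ = ‖((coeff α F : Ob E) : E)‖ * r ^ k * r ^ 2 := by ring
        _ ≤ ‖(p : E)‖ ^ (N - (k + 2)) * ‖(p : E)‖ ^ k * r ^ 2 := by gcongr
        _ ≤ _ := by gcongr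
  rw [ev_sub, ev_add, ev_C hz, ev_sum] at h
  simp only [ev_C_mul hz, ev_X hz] at h
  convert h using 2
  simp only [AddSubgroupClass.coe_sub, Subring.coe_add, AddSubmonoidClass.coe_finsetSum,
    Subring.coe_mul, coeff_zero_eq_constantCoeff_apply]
  ring

end mv

end Crest.Agent.R227.LogAux
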