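import Crest.Agent.R227.Norm
import Crest.Agent.R227.Pt
import Crest.Agent.R227.LogAux

/-! Row 227 (S0351), module `Log`: the logarithm `lim [p^j] t / p^j`, also in families. -/

set_option autoImplicit false
set_option linter.unusedSectionVars false
set_option linter.style.haveILetI false

namespace Crest.Agent.R227

open MvPowerSeries Filter Topology Crest.LubinTate

variable {E : Type*} [NontriviallyNormedField E] [VF E] [CharZero E] {p : ℕ} [Fact p.Prime]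
  {σ : Type*} [Finite σ]

theorem p_mem_Nil (hp : ‖(p : E)‖ < 1) : (p : Ob E) ∈ Nil (Ob E) := mem_Nil_Ob.2 (by simpa using hp)

theorem p_ne_zero_Ob : (p : Ob E) ≠ 0 := fun h =>
  (Nat.cast_ne_zero (R := E)).2 (Fact.out : p.Prime).ne_zero (by simpa using congrArg Subtype.val h)

theorem exists_lg (hp : ‖(p : E)‖ < 1) (G : FormalGroup (Ob E)) [G.IsComm] :
    ∃ L : Pt G →+ E, ∀ t, Tendsto (fun j : ℕ => ((p ^ j • t).1 : E) / (p : E) ^ j) atTop
      (𝓝 (L t)) :=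
  LogAux.exists_lim_hom hp (Ob E).subtype.toAddMonoidHom (𝔟 := Ideal.span {(p : Ob E)})
    (Ideal.mem_span_singleton_self _) 0
    (fun N x hx => by simpa using mem_span_pow_iff_norm.1 hx) (LogAux.exists_mem_span_p hp)

theorem exists_lgc (hp : ‖(p : E)‖ < 1) (𝒢 : FormalGroup (MvPowerSeries σ (Ob E))) [𝒢.IsComm]
    (α : σ →₀ ℕ) : ∃ L : Pt 𝒢 →+ E, ∀ T, Tendsto
      (fun j : ℕ => ((coeff α (p ^ j • T).1 : Ob E) : E) / (p : E) ^ j) atTop (𝓝 (L T)) :=
  LogAux.exists_lim_hom hp (LogAux.cf α) LogAux.p_mem_comap α.degree (LogAux.norm_coeff_le α)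
    (LogAux.exists_mem_comap hp)

/-- The logarithm. -/
noncomputable def lg (hp : ‖(p : E)‖ < 1) (G : FormalGroup (Ob E)) [G.IsComm] : Pt G →+ E :=
  (exists_lg hp G).choose

/-- The Taylor coefficients of the logarithm of a point of a family. -/
noncomputable def lgc (hp : ‖(p : E)‖ < 1) (𝒢 : FormalGroup (MvPowerSeries σ (Ob E))) [𝒢.IsComm]
    (α : σ →₀ ℕ) : Pt 𝒢 →+ E :=
  (exists_lgc hp 𝒢 α).choose

variable (hp : ‖(p : E)‖ < 1) {G G' : FormalGroup (Ob E)} [G.IsComm] [G'.IsComm]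
  {𝒢 : FormalGroup (MvPowerSeries σ (Ob E))} [𝒢.IsComm]

theorem lg_tendsto (t : Pt G) :
    Tendsto (fun j : ℕ => ((p ^ j • t).1 : E) / (p : E) ^ j) atTop (𝓝 (lg hp G t)) :=
  (exists_lg hp G).choose_spec t

theorem lgc_tendsto (α : σ →₀ ℕ) (T : Pt 𝒢) : Tendsto
    (fun j : ℕ => ((coeff α (p ^ j • T).1 : Ob E) : E) / (p : E) ^ j) atTop (𝓝 (lgc hp 𝒢 α T)) :=
  (exists_lgc hp 𝒢 α).choose_spec T

theorem lgc_zero (hG : 𝒢.map constantCoeff = G) (T : Pt 𝒢) :
    lgc hp 𝒢 0 T = lg hp G (Pt.map constantCoeff mapsNil_constantCoeff hG T) := by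
  refine tendsto_nhds_unique (lgc_tendsto hp 0 T) ?_
  refine (lg_tendsto hp (Pt.map constantCoeff mapsNil_constantCoeff hG T)).congr fun j => ?_
  rw [← map_nsmul, Pt.map_val, coeff_zero_eq_constantCoeff_apply]

theorem norm_lg_sub_le (t : Pt G) (ht : ‖(t.1 : E)‖ ≤ ‖(p : E)‖) :
    ‖lg hp G t - t.1‖ ≤ ‖(t.1 : E)‖ ^ 2 / ‖(p : E)‖ :=
  LogAux.norm_lim_sub_le_sq hp (Ob E).subtype.toAddMonoidHom (RingHom.id _)
    (fun _ _ hx => mem_span_iff_norm.1 hx) ht (Ideal.mem_span_singleton_self _) (lg_tendsto hp t)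

theorem norm_lgc_sub_le {a : Ob E} (ha : ‖(a : E)‖ ≤ ‖(p : E)‖) (T : Pt 𝒢)
    (hT : ∀ β, coeff β T.1 ∈ Ideal.span {a}) (α : σ →₀ ℕ) :
    ‖lgc hp 𝒢 α T - (coeff α T.1 : Ob E)‖ ≤ ‖(a : E)‖ ^ 2 / ‖(p : E)‖ :=
  LogAux.norm_lim_sub_le_sq hp (LogAux.cf α) C (LogAux.norm_cf_le α) ha (LogAux.mem_span_C hT)
    (lgc_tendsto hp α T)

theorem norm_lg_le (t : Pt G) (ht : t.1 ∈ Ideal.span {(p : Ob E)}) : ‖lg hp G t‖ ≤ ‖(p : E)‖ := by
  have hpos := LogAux.np_pos (E := E) (p := p)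
  have h1 : ‖(t.1 : E)‖ ≤ ‖(p : E)‖ := by simpa using mem_span_iff_norm.1 ht
  have h2 := norm_lg_sub_le hp t h1
  have h3 : ‖(t.1 : E)‖ ^ 2 / ‖(p : E)‖ ≤ ‖(p : E)‖ := by
    rw [div_le_iff₀ hpos, ← sq]
    exact pow_le_pow_left₀ (norm_nonneg _) h1 2
  have e : lg hp G t = (lg hp G t - t.1) + t.1 := by ring
  rw [e]
  exact (IsUltrametricDist.norm_add_le_max _ _).trans (max_le (h2.trans h3) h1)

theorem lgc_single (T : Pt 𝒢) (hT : constantCoeff T.1 = 0) (i : σ) :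
    lgc hp 𝒢 (Finsupp.single i 1) T = (coeff (Finsupp.single i 1) T.1 : Ob E) := by
  have hT1 : T.1 ∈ Ideal.span (Set.range (X : σ → MvPowerSeries σ (Ob E))) := by
    rw [span_range_X, Ideal.mem_comap, hT]
    exact Ideal.zero_mem _
  have h := LogAux.norm_lim_sub_le (lgc_tendsto hp (Finsupp.single i 1) T) le_rfl fun j => by
    have h1 : (p ^ j • T).1 ∈ Ideal.span (Set.range (X : σ → MvPowerSeries σ (Ob E))) :=
      Pt.mem_fil.1 ((Pt.fil 𝒢 _).nsmul_mem (Pt.mem_fil.2 hT1) _)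
    have h2 := (Ideal.span_singleton_le_iff_mem _).2 (Ideal.pow_mem_pow h1 2)
      (LogAux.succ_sub_mem (p := p) T j)
    have h3 := (mem_span_X_pow_iff 2 _).1 h2 (Finsupp.single i 1) (by simp)
    have h4 := LogAux.incr_eq (p := p) (LogAux.cf (Finsupp.single i 1)) T j
    simp only [LogAux.cf_apply] at h4
    rw [h4, h3]
    simp
  simpa [sub_eq_zero] using h

theorem norm_lgc_single_sub_le (T : Pt 𝒢) (hT : constantCoeff T.1 ∈ Ideal.span {(p : Ob E)})
    (i : σ) : ‖lgc hp 𝒢 (Finsupp.single i 1) T - (coeff (Finsupp.single i 1) T.1 : Ob E)‖ ≤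
      ‖(p : E)‖ := by
  have hpos := LogAux.np_pos (E := E) (p := p)
  let c : Pt 𝒢 := ⟨C (constantCoeff T.1), mapsNil_C _ (mapsNil_constantCoeff _ T.2)⟩
  have hc : c.1 ∈ Ideal.span {(C (p : Ob E) : MvPowerSeries σ (Ob E))} := by
    obtain ⟨u, hu⟩ := Ideal.mem_span_singleton'.1 hT
    exact Ideal.mem_span_singleton'.2 ⟨C u, by rw [← map_mul, hu]⟩
  have hc' : ∀ β, coeff β c.1 ∈ Ideal.span {(p : Ob E)} := fun β =>
    mem_span_iff_norm.2 (LogAux.norm_cf_le β _ _ hc)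
  have hT' : constantCoeff (T - c).1 = 0 := by
    have : (T - c).1 ∈ (⊥ : Ideal (Ob E)).comap (constantCoeff : MvPowerSeries σ (Ob E) →+* _) := by
      rw [Pt.sub_val_mem_iff, Ideal.mem_comap, map_sub]
      simp [c]
    exact this
  have h1 := norm_lgc_sub_le hp (a := (p : Ob E)) (by simp) c hc' (Finsupp.single i 1)
  have h2 := lgc_single hp (T - c) hT' i
  have h3 := Pt.add_val_sub_mem c (T - c)
  rw [add_sub_cancel] at h3
  have h4 := LogAux.norm_cf_le (Finsupp.single i 1) _ _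
    ((Ideal.span_singleton_le_iff_mem _).2 (Ideal.mul_mem_right _ _ hc) h3)
  rw [map_sub, map_sub, LogAux.cf_apply, LogAux.cf_apply, LogAux.cf_apply] at h4
  rw [map_sub] at h2
  simp only [Subring.coe_natCast] at h1 h4
  rw [sq, mul_div_assoc, div_self hpos.ne', mul_one] at h1
  refine le_trans (le_of_eq ?_) ((LogAux.norm_sub_le_max' _ _).trans (max_le h1 h4))
  rw [← h2]
  congr 1
  ring

theorem lg_hom {θ : PowerSeries (Ob E)} (h : IsFGHom G G' θ) (t : Pt G) :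
    lg hp G' (Pt.hom h t) = (PowerSeries.coeff 1 θ : Ob E) * lg hp G t := by
  obtain ⟨K, hK⟩ := LogAux.exists_norm_le hp t
  have hpos := LogAux.np_pos (E := E) (p := p)
  have key : Tendsto (fun j : ℕ => ((p ^ j • Pt.hom h t).1 : E) / (p : E) ^ j -
      (PowerSeries.coeff 1 θ : Ob E) * (((p ^ j • t).1 : E) / (p : E) ^ j)) atTop (𝓝 0) := by
    refine LogAux.tendsto_zero_of_le hp (K ^ 2) (Eventually.of_forall fun j => ?_)
    obtain ⟨c, hc⟩ := exists_ev1_eq (p ^ j • t).2 θ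
    rw [← map_nsmul, Pt.hom_val, hc, h.1, zero_add, ← mul_div_assoc, ← sub_div, norm_div, norm_pow,
      div_le_iff₀ (pow_pos hpos _)]
    simp only [Subring.coe_add, Subring.coe_mul, SubmonoidClass.coe_pow, add_sub_cancel_left,
      norm_mul, norm_pow]
    calc _ ≤ ‖((p ^ j • t).1 : E)‖ ^ 2 * 1 := by gcongr; exact norm_Ob_le c
      _ ≤ (K * ‖(p : E)‖ ^ j) ^ 2 * 1 := by gcongr; exact hK j
      _ = _ := by ring
  have := tendsto_nhds_unique key
    ((lg_tendsto hp (Pt.hom h t)).sub ((lg_tendsto hp t).const_mul _))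
  exact sub_eq_zero.1 this.symm

/-- Taylor expansion to first order. -/
theorem lg_taylor [Fintype σ] (T : Pt 𝒢) : ∃ K : ℝ, ∀ (z : σ → Ob E) (hz : ∀ i, z i ∈ Nil (Ob E))
    (G₁ : FormalGroup (Ob E)) [G₁.IsComm] (hG₁ : 𝒢.map (evHom z hz) = G₁) (r : ℝ), 0 ≤ r →
    r ≤ ‖(p : E)‖ → (∀ i, ‖(z i : E)‖ ≤ r) →
    ‖lg hp G₁ (Pt.map (evHom z hz) (mapsNil_evHom hz) hG₁ T) - lgc hp 𝒢 0 T -
      ∑ i, lgc hp 𝒢 (Finsupp.single i 1) T * z i‖ ≤ K * r ^ 2 := by
  obtain ⟨j0, h0⟩ := LogAux.exists_mem_comap hp T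
  have hpos := LogAux.np_pos (E := E) (p := p)
  refine ⟨1 / ‖(p : E)‖ ^ (j0 + 1), fun z hz G₁ _ hG₁ r hr0 hr hzr => ?_⟩
  have hlim := ((lg_tendsto hp (Pt.map (evHom z hz) (mapsNil_evHom hz) hG₁ T)).sub
    (lgc_tendsto hp 0 T)).sub
    (tendsto_finsetSum Finset.univ fun i _ =>
      (lgc_tendsto hp (Finsupp.single i 1) T).mul_const (z i : E))
  refine le_of_tendsto' hlim.norm fun j => ?_
  have h1 := LogAux.norm_ev_sub_linear_le hp (LogAux.mem_pow_of LogAux.p_mem_comap h0 j) hz hr0 hr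
    hzr
  have h2 := LogAux.pow_le_div hp (a := j + 1 - j0 - 2) (b := j) (c := j0 + 1) (by omega)
  rw [← map_nsmul, Pt.map_val, evHom_apply]
  simp only [div_mul_eq_mul_div]
  rw [← Finset.sum_div, ← sub_div, ← sub_div, norm_div, norm_pow, div_le_iff₀ (pow_pos hpos _)]
  refine h1.trans ((mul_le_mul_of_nonneg_right h2 (sq_nonneg r)).trans (le_of_eq ?_))
  ring

/-- The logarithm of a family of points divisible by `p` is `p` times an integral series. -/
theorem exists_lg_series (T : Pt 𝒢) (hT : ∀ β, coeff β T.1 ∈ Ideal.span {(p : Ob E)}) :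
    ∃ c : MvPowerSeries σ (Ob E), (∀ α, lgc hp 𝒢 α T = (p : E) * (coeff α c : Ob E)) ∧
      ∀ (z : σ → Ob E) (hz : ∀ i, z i ∈ Nil (Ob E)) (G₁ : FormalGroup (Ob E)) [G₁.IsComm]
        (hG₁ : 𝒢.map (evHom z hz) = G₁),
        lg hp G₁ (Pt.map (evHom z hz) (mapsNil_evHom hz) hG₁ T) = (p : E) * (ev c z : Ob E) := by
  have hpos := LogAux.np_pos (E := E) (p := p)
  have hp0 := LogAux.p_ne (E := E) (p := p)
  have hb : ∀ α, ‖lgc hp 𝒢 α T / (p : E)‖ ≤ 1 := fun α => by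
    have h1 := norm_lgc_sub_le hp (a := (p : Ob E)) (by simp) T hT α
    have h2 := mem_span_iff_norm.1 (hT α)
    simp only [Subring.coe_natCast] at h1 h2
    rw [sq, mul_div_assoc, div_self hpos.ne', mul_one] at h1
    rw [norm_div, div_le_one hpos]
    have e : lgc hp 𝒢 α T = (lgc hp 𝒢 α T - (coeff α T.1 : Ob E)) + (coeff α T.1 : Ob E) := by ring
    rw [e]
    exact (IsUltrametricDist.norm_add_le_max _ _).trans (max_le h1 h2)
  let c : MvPowerSeries σ (Ob E) := fun α => ⟨lgc hp 𝒢 α T / (p : E), hb α⟩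
  have hc : ∀ α, lgc hp 𝒢 α T = (p : E) * (coeff α c : Ob E) := fun α => by
    change _ = (p : E) * (lgc hp 𝒢 α T / (p : E))
    field_simp
  refine ⟨c, hc, fun z hz G₁ _ hG₁ => ?_⟩
  have key : Tendsto (fun j : ℕ => (p : E) * (ev c z : Ob E) -
      ((p ^ j • Pt.map (evHom z hz) (mapsNil_evHom hz) hG₁ T).1 : E) / (p : E) ^ j)
      atTop (𝓝 0) := by
    refine LogAux.tendsto_zero_of_le hp ‖(p : E)‖ (Eventually.of_forall fun j => ?_)
    have h1 := LogAux.mem_span_pow_mul (p := p) (a := C (p : Ob E))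
      (by rw [map_natCast]; exact Ideal.mem_span_singleton_self _) (LogAux.mem_span_C hT) j
    have e1 : (p : MvPowerSeries σ (Ob E)) ^ j * C (p : Ob E) = C ((p : Ob E) ^ (j + 1)) := by
      rw [map_pow, map_natCast, pow_succ]
    rw [e1] at h1
    have hn : ‖(((p : Ob E) ^ (j + 1) : Ob E) : E)‖ = ‖(p : E)‖ ^ (j + 1) := by simp
    have h2 : ∀ α, coeff α (C ((p : Ob E) ^ (j + 1)) * c - (p ^ j • T).1) ∈
        Ideal.span {(p : Ob E) ^ (2 * j + 1)} := fun α => by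
      have h3 := norm_lgc_sub_le hp (a := (p : Ob E) ^ (j + 1))
        (by rw [hn]; exact pow_le_of_le_one hpos.le hp.le (by omega)) (p ^ j • T)
        (fun β => mem_span_iff_norm.2 (LogAux.norm_cf_le β _ _ h1)) α
      rw [hn, map_nsmul, hc, nsmul_eq_mul] at h3
      rw [mem_span_iff_norm, map_sub, coeff_C_mul]
      simp only [AddSubgroupClass.coe_sub, Subring.coe_mul, SubmonoidClass.coe_pow,
        Subring.coe_natCast, norm_pow]
      refine le_trans (le_of_eq ?_) (h3.trans (le_of_eq ?_))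
      · congr 1; push_cast; ring
      · field_simp
        ring
    have h4 := mem_span_iff_norm.1 (ev_mem_of_coeff_mem (closed_span_Ob _) h2 z)
    rw [ev_sub, ev_C_mul hz] at h4
    simp only [AddSubgroupClass.coe_sub, Subring.coe_mul, SubmonoidClass.coe_pow,
      Subring.coe_natCast, norm_pow] at h4
    rw [← map_nsmul, Pt.map_val, evHom_apply]
    have e2 : (p : E) * (ev c z : Ob E) - ((ev (p ^ j • T).1 z : Ob E) : E) / (p : E) ^ j =
        ((p : E) ^ (j + 1) * (ev c z : Ob E) - ((ev (p ^ j • T).1 z : Ob E) : E)) / (p : E) ^ j := by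
      field_simp
      ring
    rw [e2, norm_div, norm_pow, div_le_iff₀ (pow_pos hpos _)]
    refine h4.trans (le_of_eq ?_)
    ring
  have := tendsto_nhds_unique key (tendsto_const_nhds.sub (lg_tendsto hp _))
  exact (sub_eq_zero.1 this.symm).symm

/-- An additive function that is differentiable at `0` is a multiple of the logarithm. -/
theorem eq_mul_lg (A : Pt G →+ E) (a : E) (K ε : ℝ) (hε : 0 < ε)
    (h : ∀ t : Pt G, ‖(t.1 : E)‖ ≤ ε → ‖A t - a * t.1‖ ≤ K * ‖(t.1 : E)‖ ^ 2) (t : Pt G) :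
    A t = a * lg hp G t := by
  obtain ⟨K', hK'⟩ := LogAux.exists_norm_le hp t
  have hpos := LogAux.np_pos (E := E) (p := p)
  have hp0 := LogAux.p_ne (E := E) (p := p)
  have h0 : Tendsto (fun j : ℕ => ((p ^ j • t).1 : E)) atTop (𝓝 0) :=
    LogAux.tendsto_zero_of_le hp K' (Eventually.of_forall hK')
  have hev : ∀ᶠ j : ℕ in atTop, ‖((p ^ j • t).1 : E)‖ ≤ ε := by
    have := h0.norm
    rw [norm_zero] at this
    exact this.eventually (eventually_le_nhds hε)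
  have key : Tendsto (fun j : ℕ => A t - a * (((p ^ j • t).1 : E) / (p : E) ^ j)) atTop (𝓝 0) := by
    refine LogAux.tendsto_zero_of_le hp (|K| * K' ^ 2) (hev.mono fun j hj => ?_)
    have h1 := h _ hj
    have e : A t - a * (((p ^ j • t).1 : E) / (p : E) ^ j) =
        (A (p ^ j • t) - a * ((p ^ j • t).1 : E)) / (p : E) ^ j := by
      rw [map_nsmul, nsmul_eq_mul]
      push_cast
      field_simp
    rw [e, norm_div, norm_pow, div_le_iff₀ (pow_pos hpos _)]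
    calc _ ≤ K * ‖((p ^ j • t).1 : E)‖ ^ 2 := h1
      _ ≤ |K| * (K' * ‖(p : E)‖ ^ j) ^ 2 := by
        gcongr
        · exact le_abs_self K
        · exact hK' j
      _ = _ := by ring
  have := tendsto_nhds_unique key (tendsto_const_nhds.sub ((lg_tendsto hp t).const_mul a))
  exact sub_eq_zero.1 this.symm

theorem exists_lg_ne_zero {d : ℕ} (hd : IsUnit (PowerSeries.coeff d (mulSeries G p))) {π : Ob E}
    (hπ : π ∈ Nil (Ob E)) (S : Set (Pt G))
    (hS : ∀ a ∈ Nil (Ob E), ∃ t ∈ S, t.1 - a ∈ Ideal.span {π}) : ∃ t ∈ S, lg hp G t ≠ 0 := by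
  by_contra hcon
  push Not at hcon
  have hpos := LogAux.np_pos (E := E) (p := p)
  obtain ⟨b, hb0, hb1, hb2⟩ : ∃ b : Ob E, 0 < ‖(b : E)‖ ∧ ‖(b : E)‖ < 1 ∧ ‖(π : E)‖ ≤ ‖(b : E)‖ := by
    by_cases h : ‖(π : E)‖ ≤ ‖(unif E : E)‖
    · exact ⟨unif E, norm_unif_pos, norm_unif_lt, h⟩
    · exact ⟨π, norm_unif_pos.trans (not_le.1 h), mem_Nil_Ob.1 hπ, le_rfl⟩
  obtain ⟨a0, ha0⟩ := exists_pow_eq_Ob b (m := 2) two_ne_zero
  have hsq : ‖(a0 : E)‖ ^ 2 = ‖(b : E)‖ := by rw [← ha0]; simp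
  have ha1 : ‖(a0 : E)‖ < 1 := by
    by_contra hx
    have := one_le_pow₀ (n := 2) (not_lt.1 hx)
    linarith
  have ha2 : ‖(π : E)‖ < ‖(a0 : E)‖ := by
    have : 0 < ‖(a0 : E)‖ := by
      rcases (norm_nonneg (a0 : E)).lt_or_eq with h | h
      · exact h
      · rw [← h] at hsq; simp at hsq; linarith
    nlinarith
  obtain ⟨c, hc⟩ := exists_infinite_units (K := E)
  have hN : ∀ i, a0 * c i ∈ Nil (Ob E) := fun i => Ideal.mul_mem_right _ _ (mem_Nil_Ob.2 ha1)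
  choose t htS ht using fun i => hS _ (hN i)
  have hinj : Function.Injective t := by
    intro i j hij
    by_contra hne
    have h1 := Ideal.sub_mem _ (ht j) (ht i)
    have e : (t j).1 - a0 * c j - ((t i).1 - a0 * c i) = a0 * (c i - c j) := by rw [hij]; ring
    rw [e, mem_span_iff_norm, Subring.coe_mul, norm_mul, isUnit_Ob.1 (hc i j hne), mul_one] at h1
    linarith
  obtain ⟨k, hk⟩ := LogAux.exists_pow_nsmul_lt (G := G) hp (norm_nonneg (a0 : E)) ha1 hpos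
  refine (Set.infinite_range_of_injective hinj) ((LogAux.finite_ker hd k).subset ?_)
  rintro _ ⟨i, rfl⟩
  have h1 : (t i).1 ∈ Ideal.span {a0} := by
    have h2 : (t i).1 - a0 * c i ∈ Ideal.span {a0} :=
      mem_span_iff_norm.2 ((mem_span_iff_norm.1 (ht i)).trans ha2.le)
    have := Ideal.add_mem _ h2 (Ideal.mul_mem_right (c i) _ (Ideal.mem_span_singleton_self a0))
    rwa [sub_add_cancel] at this
  have h3 := hk (t i) (mem_span_iff_norm.1 h1)
  have h4 := norm_lg_sub_le hp (p ^ k • t i) h3.le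
  rw [map_nsmul, hcon _ (htS i), nsmul_zero, zero_sub, norm_neg, le_div_iff₀ hpos] at h4
  have h5 : ‖((p ^ k • t i).1 : E)‖ = 0 := by
    have := norm_nonneg ((p ^ k • t i).1 : E)
    nlinarith
  exact Pt.ext (Subtype.ext (norm_eq_zero.1 h5))

include hp in
theorem eq_zero_of_bounded {M : Type*} [AddCommGroup M] (hdiv : ∀ y : M, ∃ y', p • y' = y)
    (A : M →+ E) (K : ℝ) (h : ∀ y, ‖A y‖ ≤ K) : A = 0 := by
  have hdiv' : ∀ (j : ℕ) (y : M), ∃ y', p ^ j • y' = y := by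
    intro j
    induction j with
    | zero => exact fun y => ⟨y, by simp⟩
    | succ j ih =>
      intro y
      obtain ⟨y1, rfl⟩ := ih y
      obtain ⟨y2, rfl⟩ := hdiv y1
      exact ⟨y2, by rw [pow_succ, mul_nsmul']⟩
  ext y
  have key : Tendsto (fun _ : ℕ => A y) atTop (𝓝 0) := by
    refine LogAux.tendsto_zero_of_le hp K (Eventually.of_forall fun j => ?_)
    obtain ⟨y', rfl⟩ := hdiv' j y
    rw [map_nsmul, nsmul_eq_mul, norm_mul, Nat.cast_pow, norm_pow, mul_comm]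
    exact mul_le_mul_of_nonneg_right (h y') (by positivity)
  exact tendsto_nhds_unique tendsto_const_nhds key

end Crest.Agent.R227
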