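import Mathlib

/-! Row 227 (S0351), module `PointsAlg`: commutative algebra used to construct points. -/

set_option autoImplicit false
set_option linter.style.haveILetI false

namespace Crest.Agent.R227.PointsAlg

/-- A prime that is maximal among those containing `J` and missing `v`. -/
theorem exists_prime_max {E : Type*} [CommRing E] [IsNoetherianRing E] {J : Ideal E} {v : E}
    (h : ∀ k : ℕ, v ^ k ∉ J) :
    ∃ Q : Ideal E, Q.IsPrime ∧ J ≤ Q ∧ v ∉ Q ∧ ∀ P : Ideal E, P.IsPrime → Q < P → v ∈ P := by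
  obtain ⟨P, hP, hJP, hd⟩ := J.exists_le_prime_disjoint (Submonoid.powers v)
    (Set.disjoint_right.2 (by rintro _ ⟨k, rfl⟩; exact h k))
  obtain ⟨Q, ⟨h1, h2, h3⟩, hQ⟩ := set_has_maximal_iff_noetherian.2 (inferInstance : IsNoetherian E E)
    {Q : Ideal E | Q.IsPrime ∧ J ≤ Q ∧ v ∉ Q}
    ⟨P, hP, hJP, Set.disjoint_right.1 hd (Submonoid.mem_powers v)⟩
  refine ⟨Q, h1, h2, h3, fun P' hP' hlt => ?_⟩
  by_contra hv
  exact hQ P' ⟨hP', h2.trans hlt.le, hv⟩ hlt

/-- If all nonzero primes of a Noetherian local domain contain `v ≠ 0`, the maximal ideal is the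
radical of `v`. -/
theorem maximalIdeal_le_radical {R : Type*} [CommRing R] [IsNoetherianRing R] [IsDomain R]
    [IsLocalRing R] {v : R} (h0 : v ≠ 0) (hv : v ∈ IsLocalRing.maximalIdeal R)
    (h : ∀ P : Ideal R, P.IsPrime → P ≠ ⊥ → v ∈ P) :
    IsLocalRing.maximalIdeal R ≤ (Ideal.span {v}).radical := by
  have hfin := Ideal.finite_minimalPrimes_of_isNoetherianRing R (Ideal.span {v})
  have hsub : ((IsLocalRing.maximalIdeal R : Ideal R) : Set R) ⊆
      ⋃ P ∈ (Ideal.span {v}).minimalPrimes, (id P : Ideal R) := by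
    intro a ha
    obtain ⟨P, hP, -⟩ := Ideal.exists_minimalPrimes_le
      ((Ideal.span_singleton_le_iff_mem _).2 (show a ∈ IsLocalRing.maximalIdeal R from ha))
    have := hP.isPrime
    by_cases hP0 : P = ⊥
    · obtain ⟨P', hP', -⟩ := Ideal.exists_minimalPrimes_le ((Ideal.span_singleton_le_iff_mem _).2 hv)
      have ha0 : a = 0 := by
        have := hP.le (Ideal.mem_span_singleton_self a)
        rwa [hP0] at this
      exact Set.mem_biUnion hP' (by simp [ha0])
    · have h1 := Ideal.height_le_one_of_isPrincipal_of_mem_minimalPrimes _ P hP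
      have h2 := Ideal.one_le_height_span_singleton_of_mem_nonZeroDivisors
        (mem_nonZeroDivisors_of_ne_zero h0)
      exact Set.mem_biUnion (Ideal.mem_minimalPrimes_of_height_le
        ((Ideal.span_singleton_le_iff_mem _).2 (h P this hP0)) (h1.trans h2))
        (hP.le (Ideal.mem_span_singleton_self a))
  obtain ⟨P, hP, hle⟩ := (Ideal.subset_union_prime_finite hfin ⊥ ⊥
    fun P hP _ _ => hP.isPrime).1 hsub
  rw [← Ideal.sInf_minimalPrimes]
  refine le_sInf fun P' hP' => hle.trans ?_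
  exact hP.2 hP'.1 ((IsLocalRing.le_maximalIdeal hP'.isPrime.ne_top).trans hle)

theorem exists_prime_radical {E : Type*} [CommRing E] [IsNoetherianRing E] [IsLocalRing E]
    {J : Ideal E} {v : E} (hv : v ∈ IsLocalRing.maximalIdeal E) (h : ∀ k : ℕ, v ^ k ∉ J) :
    ∃ Q : Ideal E, Q.IsPrime ∧ J ≤ Q ∧ v ∉ Q ∧
      IsLocalRing.maximalIdeal E ≤ (Q ⊔ Ideal.span {v}).radical := by
  obtain ⟨Q, h1, h2, h3, h4⟩ := exists_prime_max h
  refine ⟨Q, h1, h2, h3, fun f hf => ?_⟩
  haveI : IsLocalRing (E ⧸ Q) := IsLocalRing.of_surjective' _ Ideal.Quotient.mk_surjective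
  have hm := IsLocalRing.map_maximalIdeal_of_surjective (Ideal.Quotient.mk Q)
    Ideal.Quotient.mk_surjective
  have := maximalIdeal_le_radical (v := Ideal.Quotient.mk Q v)
    (by rwa [Ne, Ideal.Quotient.eq_zero_iff_mem]) (hm ▸ Ideal.mem_map_of_mem _ hv)
    (fun P hP hP0 => h4 (P.comap (Ideal.Quotient.mk Q)) inferInstance (by
      refine lt_of_le_of_ne (Ideal.mk_ker.symm.trans_le (Ideal.ker_le_comap _)) fun e => hP0 ?_
      rw [← Ideal.map_comap_of_surjective _ Ideal.Quotient.mk_surjective P, ← e,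
        Ideal.map_quotient_self])) (hm ▸ Ideal.mem_map_of_mem _ hf)
  obtain ⟨k, hk⟩ := this
  refine ⟨k, ?_⟩
  rw [← map_pow, ← Set.image_singleton, ← Ideal.map_span, ← Ideal.mem_comap,
    Ideal.comap_map_of_surjective _ Ideal.Quotient.mk_surjective, ← RingHom.ker_eq_comap_bot,
    Ideal.mk_ker, sup_comm] at hk
  exact hk

theorem mem_smul_top_pi {A ι : Type*} [CommRing A] [Finite ι] (I : Ideal A) (x : ι → A) :
    x ∈ (I • ⊤ : Submodule A (ι → A)) ↔ ∀ i, x i ∈ I := by
  classical
  cases nonempty_fintype ι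
  constructor
  · intro hx i
    refine Submodule.smul_induction_on hx (fun r hr y _ => I.mul_mem_right _ hr)
      fun y z hy hz => I.add_mem hy hz
  · intro hx
    rw [pi_eq_sum_univ x]
    exact Submodule.sum_mem _ fun i _ => Submodule.smul_mem_smul (hx i) trivial

theorem isPrecomplete_pi {A ι : Type*} [CommRing A] [Finite ι] (I : Ideal A) [IsPrecomplete I A] :
    IsPrecomplete I (ι → A) where
  prec' f hf := by
    have : ∀ i, ∃ L : A, ∀ n, f n i ≡ L [SMOD (I ^ n • ⊤ : Submodule A A)] := fun i =>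
      IsPrecomplete.prec' (I := I) _ fun {m n} h => by
        have := hf h
        rw [SModEq.sub_mem, mem_smul_top_pi] at this
        rw [SModEq.sub_mem, smul_eq_mul, Ideal.mul_top]
        exact this i
    choose L hL using this
    refine ⟨L, fun n => ?_⟩
    rw [SModEq.sub_mem, mem_smul_top_pi]
    intro i
    have := hL i n
    rwa [SModEq.sub_mem, smul_eq_mul, Ideal.mul_top] at this

/-- Quasi-finite over a complete ring implies finite. -/
theorem finite_of_complete {A R : Type*} [CommRing A] [CommRing R] [Algebra A R]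
    [IsNoetherianRing R] [IsDomain R] (I : Ideal A) [IsPrecomplete I A] (𝔪 : Ideal R) (h𝔪 : 𝔪 ≠ ⊤)
    (hI : I.map (algebraMap A R) ≤ 𝔪) (hrad : 𝔪 ≤ (I.map (algebraMap A R)).radical)
    (hsurj : ∀ r, ∃ a, r - algebraMap A R a ∈ 𝔪) : Module.Finite A R := by
  have key : ∀ N : ℕ, ∃ M : Submodule A R, M.FG ∧ ∀ r, ∃ m ∈ M, r - m ∈ 𝔪 ^ N := by
    intro N
    induction N with
    | zero => exact ⟨⊥, Submodule.fg_bot, fun r => ⟨0, by simp, by simp⟩⟩
    | succ N ih =>
      obtain ⟨M, hM, ih⟩ := ih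
      obtain ⟨T, hT⟩ := (IsNoetherian.noetherian (𝔪 ^ N) : (𝔪 ^ N).FG)
      have h1 : ∀ x ∈ Submodule.span R (T : Set R), ∃ m ∈ Submodule.span A (T : Set R),
          x - m ∈ 𝔪 ^ (N + 1) := by
        intro x hx
        induction hx using Submodule.span_induction with
        | mem x hx => exact ⟨x, Submodule.subset_span hx, by simp⟩
        | zero => exact ⟨0, by simp, by simp⟩
        | add x y _ _ hx hy =>
          obtain ⟨m, hm, hx⟩ := hx
          obtain ⟨m', hm', hy⟩ := hy
          exact ⟨m + m', add_mem hm hm', by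
            rw [add_sub_add_comm]; exact add_mem hx hy⟩
        | smul r x hx' hx =>
          obtain ⟨m, hm, hx⟩ := hx
          obtain ⟨a, ha⟩ := hsurj r
          refine ⟨a • m, Submodule.smul_mem _ a hm, ?_⟩
          have : r • x - a • m = (r - algebraMap A R a) * x + algebraMap A R a * (x - m) := by
            rw [Algebra.smul_def a, smul_eq_mul]; ring
          rw [this]
          refine add_mem ?_ (Ideal.mul_mem_left _ _ hx)
          rw [pow_succ']
          exact Ideal.mul_mem_mul ha (hT ▸ hx')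
      refine ⟨M ⊔ Submodule.span A (T : Set R), hM.sup (Submodule.fg_span T.finite_toSet),
        fun r => ?_⟩
      obtain ⟨m, hm, hr⟩ := ih r
      obtain ⟨m', hm', hr'⟩ := h1 _ (hT ▸ hr)
      exact ⟨m + m', Submodule.add_mem_sup hm hm', by rwa [← sub_sub]⟩
  obtain ⟨N, hN⟩ := Ideal.exists_pow_le_of_le_radical_of_fg hrad (IsNoetherian.noetherian 𝔪)
  obtain ⟨M, hM, hM'⟩ := key N
  obtain ⟨n, g, hg⟩ := Submodule.fg_iff_exists_fin_generating_family.1 hM
  haveI := isPrecomplete_pi (ι := Fin n) I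
  haveI : IsHausdorff 𝔪 R := IsHausdorff.of_isDomain 𝔪 h𝔪
  haveI : IsHausdorff I R := IsHausdorff.of_map hI
  refine Module.Finite.of_surjective (Fintype.linearCombination A g)
    (surjective_of_mkQ_comp_surjective (I := I) fun y => ?_)
  obtain ⟨r, rfl⟩ := Submodule.mkQ_surjective _ y
  obtain ⟨m, hm, hr⟩ := hM' r
  rw [← hg, ← Fintype.range_linearCombination] at hm
  obtain ⟨c, rfl⟩ := hm
  refine ⟨c, ?_⟩
  rw [LinearMap.comp_apply, Submodule.mkQ_apply, Submodule.mkQ_apply, eq_comm,
    Submodule.Quotient.eq, Ideal.smul_top_eq_map]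
  exact hN hr

/-- Extension of homomorphisms into an algebraically closed field along an integral map. -/
theorem exists_extension {A R K : Type*} [CommRing A] [CommRing R] [Algebra A R]
    [Algebra.IsIntegral A R] [Field K] [IsAlgClosed K] (χ : A →+* K)
    (h : RingHom.ker (algebraMap A R) ≤ RingHom.ker χ) :
    ∃ ψ : R →+* K, ∀ a, ψ (algebraMap A R a) = χ a := by
  haveI := RingHom.ker_isPrime χ
  obtain ⟨Q, -, hQ, e⟩ := Ideal.exists_ideal_over_prime_of_isIntegral (RingHom.ker χ)
    (⊥ : Ideal R) h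
  letI : Algebra (A ⧸ Q.comap (algebraMap A R)) K :=
    (Ideal.Quotient.lift _ χ fun a ha => by rwa [e] at ha).toAlgebra
  haveI : FaithfulSMul (A ⧸ Q.comap (algebraMap A R)) K := by
    rw [faithfulSMul_iff_algebraMap_injective, injective_iff_map_eq_zero]
    intro a ha
    obtain ⟨a, rfl⟩ := Ideal.Quotient.mk_surjective a
    rw [Ideal.Quotient.eq_zero_iff_mem, e]
    exact ha
  haveI : FaithfulSMul (A ⧸ Q.comap (algebraMap A R)) (R ⧸ Q) :=
    (faithfulSMul_iff_algebraMap_injective _ _).2 Ideal.algebraMap_quotient_injective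
  let φ : (R ⧸ Q) →ₐ[A ⧸ Q.comap (algebraMap A R)] K := IsAlgClosed.lift
  exact ⟨φ.toRingHom.comp (Ideal.Quotient.mk Q), fun a =>
    φ.commutes (Ideal.Quotient.mk _ a)⟩

end Crest.Agent.R227.PointsAlg
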