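import Crest.Agent.R227.Norm
import Crest.Agent.R227.PointsAlg
import Crest.Prelude.Def_LubinTate

/-! Row 227 (S0351), module `Points`: points of the Lubin-Tate ring with values in a unit ball. -/

set_option autoImplicit false
set_option linter.unusedSectionVars false
set_option linter.style.haveILetI false

namespace Crest.Agent.R227

open Crest.LubinTate

theorem exists_iota (p : ℕ) [Fact p.Prime] (n : ℕ) (K : Type*) [NontriviallyNormedField K] [VF K]
    [CharP K p] : Nonempty (GaloisField p n →+* Ob K) := by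
  letI : Algebra (ZMod p) K := ZMod.algebra K p
  let φ : GaloisField p n →ₐ[ZMod p] K := IsAlgClosed.lift
  refine ⟨φ.toRingHom.codRestrict (Ob K) fun x => ?_⟩
  rw [mem_Ob]
  by_cases hx : x = 0
  · simp [hx]
  · obtain ⟨k, hk, h⟩ := isOfFinOrder_iff_pow_eq_one.1 (isOfFinOrder_of_finite (Units.mk0 x hx))
    have h1 : x ^ k = 1 := by simpa using congrArg Units.val h
    rw [← pow_le_one_iff_of_nonneg (norm_nonneg _) hk.ne', ← norm_pow, ← map_pow, h1, map_one,
      norm_one]

theorem point_core {E A K : Type*} [CommRing E] [IsNoetherianRing E] [CommRing A]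
    [NontriviallyNormedField K] [VF K] {𝔪 Q : Ideal E} [Q.IsPrime] (α : A →+* E) (I : Ideal A)
    [IsPrecomplete I A] (hQ : Q ≤ 𝔪) (h𝔪 : 𝔪 ≠ ⊤) (hI : I.map α ≤ 𝔪)
    (hrad : 𝔪 ≤ (Q ⊔ I.map α).radical) (hsurj : ∀ r, ∃ a, r - α a ∈ 𝔪) (χ : A →+* Ob K)
    (hker : ∀ a, α a ∈ Q → χ a = 0) (hNil : ∀ a ∈ I, χ a ∈ Nil (Ob K)) :
    ∃ x : E →+* Ob K, (∀ a, x (α a) = χ a) ∧ (∀ f ∈ Q, x f = 0) ∧ ∀ f ∈ 𝔪, x f ∈ Nil (Ob K) := by
  letI : Algebra A (E ⧸ Q) := ((Ideal.Quotient.mk Q).comp α).toAlgebra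
  have e : algebraMap A (E ⧸ Q) = (Ideal.Quotient.mk Q).comp α := rfl
  haveI : Module.Finite A (E ⧸ Q) := by
    refine PointsAlg.finite_of_complete I (𝔪.map (Ideal.Quotient.mk Q)) (fun h => h𝔪 ?_) ?_ ?_ ?_
    · have := congrArg (Ideal.comap (Ideal.Quotient.mk Q)) h
      rwa [Ideal.comap_map_of_surjective _ Ideal.Quotient.mk_surjective,
        ← RingHom.ker_eq_comap_bot, Ideal.mk_ker, sup_eq_left.2 hQ, Ideal.comap_top] at this
    · rw [e, ← Ideal.map_map]
      exact Ideal.map_mono hI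
    · refine (Ideal.map_mono hrad).trans ((Ideal.map_radical_le _).trans ?_)
      rw [Ideal.map_sup, Ideal.map_quotient_self, bot_sup_eq, Ideal.map_map, e]
    · intro r
      obtain ⟨r, rfl⟩ := Ideal.Quotient.mk_surjective r
      obtain ⟨a, ha⟩ := hsurj r
      exact ⟨a, by rw [e, RingHom.comp_apply, ← map_sub]; exact Ideal.mem_map_of_mem _ ha⟩
  obtain ⟨ψ, hψ⟩ := PointsAlg.exists_extension (R := E ⧸ Q) ((Ob K).subtype.comp χ) fun a ha => by
    rw [RingHom.mem_ker, RingHom.comp_apply, hker a (Ideal.Quotient.eq_zero_iff_mem.1 ha), map_zero]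
  have hψ' : ψ.comp (algebraMap A (E ⧸ Q)) = (algebraMap (Ob K) K).comp χ := RingHom.ext hψ
  have hint : ∀ r, ψ r ∈ Ob K := fun r => by
    obtain ⟨P, hP, h⟩ := Algebra.IsIntegral.isIntegral (R := A) r
    refine norm_le_one_of_isIntegral ⟨P.map χ, hP.map χ, ?_⟩
    rw [Polynomial.eval₂_map, ← hψ', ← Polynomial.hom_eval₂, h, map_zero]
  let x : E →+* Ob K := (ψ.codRestrict (Ob K) hint).comp (Ideal.Quotient.mk Q)
  have h1 : ∀ a, x (α a) = χ a := fun a => Subtype.ext (hψ a)
  have h2 : ∀ f ∈ Q, x f = 0 := fun f hf => by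
    simp only [x, RingHom.comp_apply, Ideal.Quotient.eq_zero_iff_mem.2 hf, map_zero]
  refine ⟨x, h1, h2, fun f hf => ?_⟩
  obtain ⟨k, hk⟩ := hrad hf
  have h3 : Q ⊔ I.map α ≤ (Nil (Ob K)).comap x :=
    sup_le (fun f hf => by rw [Ideal.mem_comap, h2 f hf]; exact Ideal.zero_mem _)
      (Ideal.map_le_iff_le_comap.2 fun a ha => by
        rw [Ideal.mem_comap, Ideal.mem_comap, h1]; exact hNil a ha)
  exact mem_Nil_of_pow (k := k) (by rw [← map_pow]; exact h3 hk)

/-- A series over the Witt vectors is divisible by `p`, or a power of `X` times a unit mod `p`. -/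
theorem witt_series_cases {p : ℕ} [Fact p.Prime] {k : Type*} [Field k] [CharP k p]
    [PerfectRing k p] (f : PowerSeries (WittVector p k)) :
    (∃ g, f = (p : PowerSeries (WittVector p k)) * g) ∨
      ∃ (d : ℕ) (u g : PowerSeries (WittVector p k)), IsUnit u ∧
        f = PowerSeries.X ^ d * u + (p : PowerSeries (WittVector p k)) * g := by
  have key : ∀ F : PowerSeries (WittVector p k),
      PowerSeries.map WittVector.constantCoeff F = 0 →
        ∃ g, F = (p : PowerSeries (WittVector p k)) * g := fun F hF => by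
    obtain ⟨g, hg⟩ := exists_eq_C_mul (c := (p : WittVector p k)) (F := F) fun α => by
      rw [← WittVector.ker_constantCoeff, RingHom.mem_ker, ← MvPowerSeries.coeff_map]
      exact congrArg (MvPowerSeries.coeff α) hF
    exact ⟨g, by rwa [map_natCast] at hg⟩
  by_cases h : PowerSeries.map WittVector.constantCoeff f = 0
  · exact Or.inl (key f h)
  · obtain ⟨u, hu⟩ := PowerSeries.map_surjective _ (WittVector.constantCoeff_surjective p (R := k))
      (PowerSeries.divXPowOrder (PowerSeries.map WittVector.constantCoeff f))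
    obtain ⟨g, hg⟩ := key (f - PowerSeries.X ^
      (PowerSeries.map WittVector.constantCoeff f).order.toNat * u) (by
        rw [map_sub, map_mul, map_pow, PowerSeries.map_X, hu,
          PowerSeries.X_pow_order_mul_divXPowOrder, sub_self])
    refine Or.inr ⟨_, u, g, ?_, by rw [← hg, add_sub_cancel]⟩
    rw [PowerSeries.isUnit_iff_constantCoeff]
    refine WittVector.isUnit_of_coeff_zero_ne_zero _ fun h0 => h ?_
    rw [← PowerSeries.constantCoeff_divXPowOrder_eq_zero_iff, ← hu,
      ← PowerSeries.coeff_zero_eq_constantCoeff_apply, PowerSeries.coeff_map]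
    simpa using h0

theorem exists_point {p : ℕ} [Fact p.Prime] {n : ℕ} {K : Type*} [NontriviallyNormedField K] [VF K]
    (s : WittVector p (GaloisField p n) →+* Ob K) (hs : (p : Ob K) ∈ Nil (Ob K))
    {J : Ideal (LTRing p n)} (hJ : J.IsRadical) {v : LTRing p n}
    (hv : LTRing.residue p n v = 0) (hvJ : v ∉ J)
    (hcase : (v = p ∧ (p : Ob K) ≠ 0) ∨ ((p : LTRing p n) ∈ J ∧ (p : Ob K) = 0)) :
    ∃ x : LTRing p n →+* Ob K, (∀ w, x (MvPowerSeries.C w) = s w) ∧ (∀ f ∈ J, x f = 0) ∧
      x v ≠ 0 ∧ ∀ f, LTRing.residue p n f = 0 → x f ∈ Nil (Ob K) := by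
  letI : Adic (WittVector p (GaloisField p n)) := ⟨Ideal.span {(p : WittVector p _)}, inferInstance⟩
  have hidl : idl (LTRing p n) = RingHom.ker (LTRing.residue p n) := by
    rw [LTRing.residue, ← RingHom.comap_ker, WittVector.ker_constantCoeff]; rfl
  have hmax : RingHom.ker (LTRing.residue p n) = IsLocalRing.maximalIdeal (LTRing p n) :=
    IsLocalRing.eq_maximalIdeal (RingHom.ker_isMaximal_of_surjective _ fun a => by
      obtain ⟨w, rfl⟩ := WittVector.constantCoeff_surjective p a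
      exact ⟨MvPowerSeries.C w, by simp [LTRing.residue]⟩)
  have hNil : Nil (LTRing p n) = RingHom.ker (LTRing.residue p n) := by
    rw [Nil, hidl, (RingHom.ker_isPrime _).radical]
  obtain ⟨Q, hQ, hJQ, hvQ, hrad⟩ := PointsAlg.exists_prime_radical (J := J) (v := v)
    (hmax ▸ hv) fun k hk => hvJ (hJ ⟨k, hk⟩)
  have hQm : Q ≤ RingHom.ker (LTRing.residue p n) := hmax ▸ IsLocalRing.le_maximalIdeal hQ.ne_top
  rw [← hmax] at hrad
  have hs' : MapsNil s := mapsNil_of_idl fun a ha => by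
    obtain ⟨c, rfl⟩ := Ideal.mem_span_singleton'.1 ha
    rw [map_mul, map_natCast]
    exact Ideal.mul_mem_left _ _ hs
  have hC : ∀ r : LTRing p n, r - MvPowerSeries.C (MvPowerSeries.constantCoeff r) ∈
      RingHom.ker (LTRing.residue p n) := fun r => by simp [LTRing.residue]
  rcases hcase with ⟨rfl, hp⟩ | ⟨hpJ, hp⟩
  · obtain ⟨x, h1, h2, h3⟩ := point_core (Q := Q) MvPowerSeries.C (idl _) hQm
      (RingHom.ker_ne_top _)
      (Ideal.map_le_iff_le_comap.2 fun a ha => hNil ▸ mapsNil_C a (idl_le_Nil ha))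
      (hrad.trans (Ideal.radical_mono (sup_le_sup_left ((Ideal.span_singleton_le_iff_mem _).2
        (map_natCast (MvPowerSeries.C (σ := Fin (n - 1)) (R := WittVector p (GaloisField p n))) p ▸
          Ideal.mem_map_of_mem _ (Ideal.mem_span_singleton_self _))) _)))
      (fun r => ⟨_, hC r⟩) s (fun a ha => by
        by_contra h0
        obtain ⟨m, b, rfl⟩ := WittVector.exists_eq_pow_p_mul' a (by rintro rfl; simp at h0)
        rw [map_mul, map_pow, map_natCast, Ideal.mul_unit_mem_iff_mem _ (b.isUnit.map _)] at ha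
        exact hvQ (hQ.mem_of_pow_mem _ ha)) fun a ha => hs' a (idl_le_Nil ha)
    exact ⟨x, h1, fun f hf => h2 f (hJQ hf), by rwa [map_natCast], h3⟩
  · have hv' : ∀ _ : Unit, v ∈ Nil (LTRing p n) := fun _ => hNil ▸ hv
    have hu : ∀ _ : Unit, unif K ∈ Nil (Ob K) := fun _ => mem_Nil_Ob.2 norm_unif_lt
    let α : PowerSeries (WittVector p (GaloisField p n)) →+* LTRing p n :=
      (evHom _ hv').comp (MvPowerSeries.map MvPowerSeries.C)
    let χ : PowerSeries (WittVector p (GaloisField p n)) →+* Ob K :=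
      (evHom _ hu).comp (MvPowerSeries.map s)
    have hαC : ∀ w, α (MvPowerSeries.C w) = MvPowerSeries.C w := fun w => by simp [α]
    have hχC : ∀ w, χ (MvPowerSeries.C w) = s w := fun w => by simp [χ]
    have hαX : α (MvPowerSeries.X ()) = v := by simp [α]
    have hχX : χ (MvPowerSeries.X ()) = unif K := by simp [χ]
    obtain ⟨x, h1, h2, h3⟩ := point_core (Q := Q) α (idl _) hQm (RingHom.ker_ne_top _)
      (Ideal.map_le_iff_le_comap.2 fun a ha =>
        hNil ▸ (mapsNil_evHom hv').comp mapsNil_C.map a (idl_le_Nil ha))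
      (hrad.trans (Ideal.radical_mono (sup_le_sup_left ((Ideal.span_singleton_le_iff_mem _).2
        (hαX ▸ Ideal.mem_map_of_mem _ (by simp [idl_mv]))) _)))
      (fun r => ⟨MvPowerSeries.C (MvPowerSeries.constantCoeff r), by rw [hαC]; exact hC r⟩) χ
      (fun a ha => by
        rcases witt_series_cases a with ⟨g, rfl⟩ | ⟨d, u, g, hu, rfl⟩
        · rw [map_mul, map_natCast, hp, zero_mul]
        · rw [map_add, map_mul, map_mul, map_natCast, map_pow,
            Ideal.add_mem_iff_left _ (Ideal.mul_mem_right _ _ (hJQ hpJ)),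
            Ideal.mul_unit_mem_iff_mem _ (hu.map _)] at ha
          exact absurd (hαX ▸ hQ.mem_of_pow_mem _ ha) hvQ)
      fun a ha => (mapsNil_evHom hu).comp hs'.map a (idl_le_Nil ha)
    refine ⟨x, fun w => by rw [← hαC, h1, hχC], fun f hf => h2 f (hJQ hf), ?_, h3⟩
    rw [← hαX, h1, hχX]
    exact fun h => norm_unif_pos.ne' (by rw [h]; simp)

end Crest.Agent.R227
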