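import Crest.Agent.R227.QLog
import Crest.Agent.R227.Cover
import Crest.Agent.R227.EndM
import Crest.Agent.R227.LinAlg

/-! Row 227 (S0351), module `ThmQ`: the space of quasi-logarithms on the universal cover. -/

set_option autoImplicit false
set_option linter.unusedSectionVars false
set_option linter.style.haveILetI false

namespace Crest.Agent.R227

open MvPowerSeries Filter Topology Crest.LubinTate

variable {E : Type*} [NontriviallyNormedField E] [VF E] [CharZero E] {p : ℕ} [Fact p.Prime]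

/-- The logarithm and its partial derivatives, on the universal cover. -/
noncomputable def bfun (hp : ‖(p : E)‖ < 1) {σ : Type*} [Finite σ]
    (𝒢 : FormalGroup (MvPowerSeries σ (Ob E))) [𝒢.IsComm] {M : Type*} [AddCommGroup M]
    (cov : M →+ Pt 𝒢) : Option σ → (M →+ E)
  | none => (lgc hp 𝒢 0).comp cov
  | some i => (lgc hp 𝒢 (Finsupp.single i 1)).comp cov

variable {K : Type*} [NontriviallyNormedField K] [VF K] [CharP K p] {n : ℕ}

/-- A versal family in characteristic zero together with its universal cover. -/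
structure QData (Γ : FormalGroup (GaloisField p n)) [Γ.IsComm] (ι : GaloisField p n →+* Ob K)
    (𝒢 : FormalGroup (MvPowerSeries (Fin (n - 1)) (Ob E))) [𝒢.IsComm] (π : Ob E)
    (ρ : Ob K →+* Ob E ⧸ Ideal.span {π}) (cov : Pt (Γ.map ι) →+ Pt 𝒢) : Prop where
  hn : 1 ≤ n
  hΓ : mulSeries Γ p = PowerSeries.X ^ p ^ n
  nil : π ∈ Nil (Ob E)
  pmem : (p : Ob E) ∈ Ideal.span {π}
  surj : Function.Surjective ρ
  red : (Γ.map ι).map ρ = (𝒢.map constantCoeff).map (Ideal.Quotient.mk (Ideal.span {π}))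
  jac : ∀ i j : Fin (n - 1), coeff (Finsupp.single j 1)
    (PowerSeries.coeff (p ^ ((i : ℕ) + 1)) (mulSeries 𝒢 p)) = if i = j then 1 else 0
  cov : ∀ y, Ideal.Quotient.mk (Ideal.span {π}) (constantCoeff (cov y).1) = ρ y.1

variable (hp : ‖(p : E)‖ < 1) {Γ : FormalGroup (GaloisField p n)} [Γ.IsComm]
  {ι : GaloisField p n →+* Ob K} {𝒢 : FormalGroup (MvPowerSeries (Fin (n - 1)) (Ob E))} [𝒢.IsComm]
  {π : Ob E} {ρ : Ob K →+* Ob E ⧸ Ideal.span {π}} {cov : Pt (Γ.map ι) →+ Pt 𝒢}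

theorem QData.hred (D : QData Γ ι 𝒢 π ρ cov) :
    mulSeries ((𝒢.map constantCoeff).map (Ideal.Quotient.mk (Ideal.span {π}))) p =
      PowerSeries.X ^ p ^ n := by
  rw [← D.red, mulSeries_map, mulSeries_map, D.hΓ, map_pow, map_pow, PowerSeries.map_X,
    PowerSeries.map_X]

theorem QData.div (D : QData Γ ι 𝒢 π ρ cov) (y : Pt (Γ.map ι)) : ∃ y', p • y' = y :=
  (nsmul_bijective (Γ := Γ.map ι) (n := n) (by
    rw [mulSeries_map, D.hΓ, map_pow, PowerSeries.map_X])).2 y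

theorem QData.ne_zero (D : QData Γ ι 𝒢 π ρ cov) : π ≠ 0 := by
  rintro rfl
  exact p_ne_zero_Ob (E := E) (p := p) (by simpa using D.pmem)

theorem exists_norm_lg_le (𝓗 : FormalGroup (Ob E)) [𝓗.IsComm] {π' : Ob E}
    (hπ' : π' ∈ Nil (Ob E)) (hpπ' : (p : Ob E) ∈ Ideal.span {π'}) :
    ∃ K : ℝ, ∀ v : Pt 𝓗, v.1 ∈ Ideal.span {π'} → ‖lg hp 𝓗 v‖ ≤ K := by
  obtain ⟨k, hk⟩ := exists_pow_mem_span hπ' (p_ne_zero_Ob (E := E) (p := p))
  have hp0 : 0 < ‖(p : E)‖ := norm_pos_iff.2 (Nat.cast_ne_zero.2 (Fact.out : p.Prime).ne_zero)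
  refine ⟨‖(p : E)‖ / ‖(p : E)‖ ^ k, fun v hv => ?_⟩
  have h1 := Pt.pow_nsmul_mem_pow (j := 0) hpπ' (t := v) (by rwa [zero_add, pow_one]) k
  rw [Ideal.span_singleton_pow, zero_add, pow_succ] at h1
  have h2 := norm_lg_le hp (p ^ k • v) ((Ideal.span_singleton_le_iff_mem _).2
    (Ideal.mul_mem_right _ _ hk) h1)
  rw [map_nsmul, nsmul_eq_mul, norm_mul, Nat.cast_pow, norm_pow] at h2
  rw [le_div_iff₀ (pow_pos hp0 k), mul_comm]
  exact h2

theorem QData.lg_mem_span (D : QData Γ ι 𝒢 π ρ cov) (𝓗 : FormalGroup (Ob E)) [𝓗.IsComm]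
    {π' : Ob E} (hπ' : π' ∈ Nil (Ob E)) (hpπ' : (p : Ob E) ∈ Ideal.span {π'})
    {Q : PowerSeries (Ob E)} (hQ0 : PowerSeries.constantCoeff Q = 0)
    (hQ : IsFGHom ((𝒢.map constantCoeff).map (Ideal.Quotient.mk (Ideal.span {π'})))
      (𝓗.map (Ideal.Quotient.mk (Ideal.span {π'})))
      (PowerSeries.map (Ideal.Quotient.mk (Ideal.span {π'})) Q))
    (u : Pt (Γ.map ι) →+ Pt 𝓗)
    (hu : ∀ y, (u y).1 - ev1 Q (constantCoeff (cov y).1) ∈ Ideal.span {π'}) :
    (lg hp 𝓗).comp u ∈ Submodule.span E (Set.range (bfun hp 𝒢 cov)) := by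
  obtain ⟨a₀, a, K₁, hK₁⟩ := quasilog' hp 𝒢 rfl D.nil D.pmem D.hred D.jac 𝓗 hπ' hpπ' hQ0 hQ
  obtain ⟨K₂, hK₂⟩ := exists_norm_lg_le hp 𝓗 hπ' hpπ'
  have key := eq_zero_of_bounded hp D.div
    ((lg hp 𝓗).comp u - (a₀ • bfun hp 𝒢 cov none + ∑ i, a i • bfun hp 𝒢 cov (some i)))
    (K₂ + K₁ + ∑ i, ‖a i‖) fun y => by
      set t := Pt.map constantCoeff mapsNil_constantCoeff rfl (cov y) with ht
      have e1 := hK₂ (u y - Pt.app 𝓗 Q hQ0 t) ((Pt.sub_val_mem_iff _ _).2 (hu y))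
      have e2 := hK₁ t
      have e3 : ∀ i, ‖a i * (lgc hp 𝒢 (Finsupp.single i 1) (cov y) -
          lgc hp 𝒢 (Finsupp.single i 1) (Pt.cst 𝒢 t))‖ ≤ ‖a i‖ := fun i => by
        have h0 : Pt.map constantCoeff mapsNil_constantCoeff rfl (cov y - Pt.cst 𝒢 t) = 0 := by
          rw [map_sub, const_cst, ht, sub_self]
        rw [← map_sub, lgc_single hp _ (congrArg Pt.val h0), norm_mul]
        exact mul_le_of_le_one_right (norm_nonneg _) (norm_Ob_le _)
      have e4 : ((lg hp 𝓗).comp u -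
          (a₀ • bfun hp 𝒢 cov none + ∑ i, a i • bfun hp 𝒢 cov (some i))) y =
          lg hp 𝓗 (u y - Pt.app 𝓗 Q hQ0 t) + (lg hp 𝓗 (Pt.app 𝓗 Q hQ0 t) - a₀ * lg hp _ t -
            ∑ i, a i * lgc hp 𝒢 (Finsupp.single i 1) (Pt.cst 𝒢 t)) -
          ∑ i, a i * (lgc hp 𝒢 (Finsupp.single i 1) (cov y) -
            lgc hp 𝒢 (Finsupp.single i 1) (Pt.cst 𝒢 t)) := by
        simp only [AddMonoidHom.sub_apply, AddMonoidHom.add_apply, AddMonoidHom.finsetSum_apply,
          AddMonoidHom.smul_apply, AddMonoidHom.comp_apply, bfun, smul_eq_mul, map_sub, mul_sub,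
          Finset.sum_sub_distrib, lgc_zero hp rfl, ← ht]
        ring
      rw [e4]
      exact (norm_sub_le _ _).trans (add_le_add ((norm_add_le _ _).trans (add_le_add e1 e2))
        (norm_sum_le_of_le _ fun i _ => e3 i))
  rw [sub_eq_zero.1 key]
  exact Submodule.add_mem _ (Submodule.smul_mem _ _ (Submodule.subset_span ⟨_, rfl⟩))
    (Submodule.sum_mem _ fun i _ => Submodule.smul_mem _ _ (Submodule.subset_span ⟨_, rfl⟩))

theorem QData.bfun_none_ne_zero (D : QData Γ ι 𝒢 π ρ cov) : bfun hp 𝒢 cov none ≠ 0 := by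
  have hle : Ideal.span {π} ≤ Nil (Ob E) := (Ideal.span_singleton_le_iff_mem _).2 D.nil
  have hd : IsUnit (PowerSeries.coeff (p ^ n) (mulSeries (𝒢.map constantCoeff) p)) := by
    refine isUnit_of_sub_mem_Nil isUnit_one (hle ?_)
    rw [← Ideal.Quotient.eq_zero_iff_mem, map_sub, ← PowerSeries.coeff_map, ← mulSeries_map,
      D.hred, PowerSeries.coeff_X_pow_self, map_one, sub_self]
  obtain ⟨_, ⟨y, rfl⟩, hy⟩ := exists_lg_ne_zero hp hd D.nil
    (Set.range fun y => Pt.map constantCoeff mapsNil_constantCoeff rfl (cov y)) fun a ha => by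
      obtain ⟨y, hy⟩ := D.surj (Ideal.Quotient.mk _ a)
      have hy' : y ∈ Nil (Ob K) := by
        refine (isUnit_or_mem_Nil y).resolve_left fun hu => ?_
        obtain ⟨b, hb⟩ := (hu.map ρ).exists_right_inv
        obtain ⟨b, rfl⟩ := Ideal.Quotient.mk_surjective b
        rw [hy, ← map_mul, ← map_one (Ideal.Quotient.mk _), Ideal.Quotient.eq] at hb
        have := Ideal.sub_mem _ (Ideal.mul_mem_right b _ ha) (hle hb)
        rw [sub_sub_cancel] at this
        exact not_mem_Nil_of_isUnit isUnit_one this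
      refine ⟨_, ⟨⟨y, hy'⟩, rfl⟩, ?_⟩
      rw [← Ideal.Quotient.eq, ← hy]
      exact D.cov ⟨y, hy'⟩
  intro h
  apply hy
  rw [← lgc_zero hp rfl]
  exact DFunLike.congr_fun h y

theorem QData.comp_mem_span (D : QData Γ ι 𝒢 π ρ cov) {e : AddMonoid.End (Pt (Γ.map ι))}
    (he : e ∈ EndS Γ ι) :
    (bfun hp 𝒢 cov none).comp e ∈ Submodule.span E (Set.range (bfun hp 𝒢 cov)) := by
  obtain ⟨δ, hδ, he⟩ := he
  obtain ⟨δ', hδ'⟩ := PowerSeries.X_dvd_iff.2 hδ.1
  obtain ⟨Q', hQ'⟩ := PowerSeries.map_surjective (Ideal.Quotient.mk (Ideal.span {π}))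
    Ideal.Quotient.mk_surjective (PowerSeries.map ρ (PowerSeries.map ι δ'))
  have hQ : PowerSeries.map (Ideal.Quotient.mk (Ideal.span {π})) (PowerSeries.X * Q') =
      PowerSeries.map ρ (PowerSeries.map ι δ) := by
    rw [hδ', map_mul, map_mul, map_mul, PowerSeries.map_X, PowerSeries.map_X, PowerSeries.map_X,
      hQ']
  have h := D.lg_mem_span hp (𝒢.map constantCoeff) D.nil D.pmem (Q := PowerSeries.X * Q')
    (by simp) (by
      rw [hQ, ← D.red]
      exact IsFGHom.map (IsFGHom.map hδ ι) ρ)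
    ((Pt.map constantCoeff mapsNil_constantCoeff rfl).comp (cov.comp e)) fun y => by
      letI := Adic.discrete (Ob E ⧸ Ideal.span {π})
      have h1 : constantCoeff (cov y).1 ∈ Nil (Ob E) := mem_Nil_mv.1 (cov y).2
      have h2 : Ideal.Quotient.mk (Ideal.span {π}) (constantCoeff (cov y).1) ∈
          Nil (Ob E ⧸ Ideal.span {π}) := by
        obtain ⟨k, hk⟩ := exists_pow_mem_span h1 D.ne_zero
        exact mem_Nil_of_isNilpotent ⟨k, by
          rw [← map_pow, Ideal.Quotient.eq_zero_iff_mem]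
          exact hk⟩
      rw [← Ideal.Quotient.eq, map_ev1 _ h1 h2, hQ, D.cov y,
        ← map_ev1 ρ y.2 (D.cov y ▸ h2), ← he y]
      exact D.cov (e y)
  convert h using 1
  ext y
  exact lgc_zero hp rfl _

theorem QData.thmQ (D : QData Γ ι 𝒢 π ρ cov) :
    LinearIndependent E (bfun hp 𝒢 cov) ∧
    Submodule.span E {w | ∃ e ∈ EndS Γ ι, w = (bfun hp 𝒢 cov none).comp e} =
      Submodule.span E (Set.range (bfun hp 𝒢 cov)) ∧
    ∀ (κ : Type) [Fintype κ] (w : κ → (Pt (Γ.map ι) →+ E)) (y : κ → Pt (Γ.map ι)) (s : κ)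
      (a : Pt (Γ.map ι) →+ E),
      (∀ i, w i ∈ Submodule.span E (Set.range (bfun hp 𝒢 cov))) →
      a ∈ Submodule.span E (Set.range (bfun hp 𝒢 cov)) →
      a (y s) = 1 → (∀ i, i ≠ s → a (y i) = 0) → (∀ e ∈ EndS Γ ι, ∑ i, w i (e (y i)) = 0) →
      w s = 0 := by
  obtain ⟨Z, hZ, P, hP, h1, h2, h3⟩ := exists_ZP D.hn Γ D.hΓ ι
  have hn := D.hn
  exact linalg (Fact.out : p.Prime).ne_zero (by simp; omega) _ _ hZ hP h1 h2 h3
    (D.bfun_none_ne_zero hp) fun e he => D.comp_mem_span hp he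

end Crest.Agent.R227
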