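import Mathlib

/-! Row 227 (S0351), auxiliary facts for `Tilt`: the fraction field of a complete valuation ring. -/

set_option autoImplicit false
set_option linter.style.haveILetI false

namespace Crest.Agent.R227.TiltAux

open Polynomial Filter Topology NNReal

/-- in a complete ultrametric field approximate roots give a root -/
theorem exists_root_of_approx {K : Type*} [NontriviallyNormedField K] [IsUltrametricDist K]
    [CompleteSpace K] (P : K[X]) (hP : P.Monic)
    (h : ∀ ε : ℝ, 0 < ε → ∃ a, ‖P.eval a‖ < ε) : ∃ a, P.eval a = 0 := by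
  let L := AlgebraicClosure K
  letI : NormedField L := spectralNorm.normedField K L
  letI : NormedAlgebra K L := spectralNorm.normedAlgebra K L
  have hcl : IsClosed (Set.range (algebraMap K L)) :=
    (algebraMap_isometry K L).isClosedEmbedding.isClosed_range
  by_contra hne
  push Not at hne
  set Q := P.map (algebraMap K L) with hQ
  have hQm : Q.Monic := hP.map _
  have hroot : ∀ r ∈ Q.roots, ∃ δ : ℝ, 0 < δ ∧ ∀ a : K, δ ≤ ‖algebraMap K L a - r‖ := by
    intro r hr
    have hr' : r ∉ Set.range (algebraMap K L) := by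
      rintro ⟨a, rfl⟩
      have := (mem_roots hQm.ne_zero).1 hr
      rw [IsRoot, hQ, eval_map_algebraMap, aeval_algebraMap_apply, coe_aeval_eq_eval,
        map_eq_zero] at this
      exact hne a this
    obtain ⟨δ, hδ, hb⟩ := Metric.isOpen_iff.1 hcl.isOpen_compl r hr'
    refine ⟨δ, hδ, fun a => ?_⟩
    by_contra hlt
    exact hb (show algebraMap K L a ∈ Metric.ball r δ by
      rw [mem_ball_iff_norm]; exact not_le.1 hlt) ⟨a, rfl⟩
  have key : ∀ s : Multiset L, (∀ r ∈ s, ∃ δ : ℝ, 0 < δ ∧ ∀ a : K, δ ≤ ‖algebraMap K L a - r‖) →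
      ∃ δ : ℝ, 0 < δ ∧ ∀ a : K, δ ≤ ‖(s.map fun r => algebraMap K L a - r).prod‖ := by
    intro s
    induction s using Multiset.induction_on with
    | empty => exact fun _ => ⟨1, one_pos, fun a => by simp⟩
    | cons r s ih =>
      intro hs
      obtain ⟨δ, hδ, h1⟩ := hs r (Multiset.mem_cons_self _ _)
      obtain ⟨δ', hδ', h2⟩ := ih fun r' hr' => hs r' (Multiset.mem_cons_of_mem hr')
      refine ⟨δ * δ', mul_pos hδ hδ', fun a => ?_⟩
      rw [Multiset.map_cons, Multiset.prod_cons, norm_mul]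
      exact mul_le_mul (h1 a) (h2 a) hδ'.le (norm_nonneg _)
  obtain ⟨δ, hδ, h1⟩ := key Q.roots hroot
  obtain ⟨a, ha⟩ := h δ hδ
  have h2 : Q.eval (algebraMap K L a) = (Q.roots.map fun r => algebraMap K L a - r).prod := by
    conv_lhs => rw [(IsAlgClosed.splits Q).eq_prod_roots_of_monic hQm]
    rw [eval_multiset_prod, Multiset.map_map]
    simp
  have h3 := h1 a
  rw [← h2, hQ, eval_map_algebraMap, aeval_algebraMap_apply, coe_aeval_eq_eval,
    norm_algebraMap'] at h3
  linarith

/-- the data from which the tilt is built -/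
structure Data (F : Type) [CommRing F] (v : Valuation F ℝ≥0) : Prop where
  eq_zero : ∀ f, v f = 0 → f = 0
  le_one : ∀ f, v f ≤ 1
  dvd : ∀ f g, v f ≤ v g → g ∣ f
  nontriv : ∃ t, t ≠ 0 ∧ v t < 1
  complete : ∀ u : ℕ → F, (∀ ε : ℝ, 0 < ε → ∃ N, ∀ m ≥ N, ∀ n ≥ N, (v (u m - u n) : ℝ) < ε) →
    ∃ a, ∀ ε : ℝ, 0 < ε → ∃ N, ∀ n ≥ N, (v (u n - a) : ℝ) < ε
  approx : ∀ P : F[X], P.Monic → P.natDegree ≠ 0 → ∀ ε : ℝ, 0 < ε → ∃ a, (v (P.eval a) : ℝ) < ε

theorem exists_field {F : Type} [CommRing F] [IsDomain F] {v : Valuation F ℝ≥0} (h : Data F v) :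
    ∃ (K : Type) (_ : NontriviallyNormedField K) (_ : IsUltrametricDist K) (_ : CompleteSpace K)
      (_ : IsAlgClosed K) (i : F →+* K), Function.Injective i ∧ (∀ f, ‖i f‖ = v f) ∧
      ∀ x : K, ‖x‖ ≤ 1 → ∃ f, i f = x := by
  let K := FractionRing F
  have hS : nonZeroDivisors F ≤ v.supp.primeCompl := fun f hf hf' =>
    nonZeroDivisors.ne_zero hf (h.eq_zero f hf')
  let w : Valuation K ℝ≥0 := v.extendToLocalization hS K
  have hw : ∀ f, w (algebraMap F K f) = v f := fun f =>
    v.extendToLocalization_apply_map_apply hS K f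
  let a : AbsoluteValue K ℝ :=
    { toFun := fun x => w x
      map_mul' := fun x y => by simp
      nonneg' := fun x => (w x).2
      eq_zero' := fun x => by simp
      add_le' := fun x y => by
        have h1 : w (x + y) ≤ w x + w y :=
          (w.map_add x y).trans (max_le le_self_add le_add_self)
        exact_mod_cast h1 }
  letI nf : NormedField K := a.toNormedField
  have hn : ∀ x : K, ‖x‖ = w x := fun x => rfl
  have hi : ∀ f, ‖algebraMap F K f‖ = v f := fun f => by rw [hn, hw]
  have hinj : Function.Injective (algebraMap F K) := IsFractionRing.injective F K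
  letI nt : NontriviallyNormedField K := NontriviallyNormedField.ofNormNeOne (by
    obtain ⟨t, ht, ht1⟩ := h.nontriv
    refine ⟨algebraMap F K t, (map_ne_zero_iff _ hinj).2 ht, ?_⟩
    rw [hi]; exact_mod_cast ht1.ne)
  haveI : IsUltrametricDist K := IsUltrametricDist.isUltrametricDist_of_isNonarchimedean_norm
    fun x y => by
      have h1 := w.map_add x y
      simp only [hn]
      exact_mod_cast h1
  have hball : ∀ x : K, ‖x‖ ≤ 1 → ∃ f, algebraMap F K f = x := by
    intro x hx
    obtain ⟨f, g, hg, rfl⟩ := IsFractionRing.div_surjective (A := F) x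
    have hg0 : algebraMap F K g ≠ 0 := (map_ne_zero_iff _ hinj).2 (nonZeroDivisors.ne_zero hg)
    rw [norm_div, div_le_one (norm_pos_iff.2 hg0), hi, hi] at hx
    obtain ⟨c, rfl⟩ := h.dvd f g (by exact_mod_cast hx)
    exact ⟨c, by rw [map_mul]; field_simp⟩
  haveI : CompleteSpace K := by
    rw [NormedField.completeSpace_iff_isComplete_closedBall, ← completeSpace_coe_iff_isComplete]
    refine Metric.complete_of_cauchySeq_tendsto fun u hu => ?_
    choose f hf using fun n => hball (u n) (mem_closedBall_zero_iff.1 (u n).2)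
    obtain ⟨b, hb⟩ := h.complete f fun ε hε => by
      obtain ⟨N, hN⟩ := Metric.cauchySeq_iff.1 hu ε hε
      refine ⟨N, fun m hm n hn' => ?_⟩
      rw [← hi, map_sub, hf, hf, ← dist_eq_norm]
      exact hN m hm n hn'
    refine ⟨⟨algebraMap F K b, mem_closedBall_zero_iff.2 ?_⟩, Metric.tendsto_atTop.2 fun ε hε => ?_⟩
    · rw [hi]; exact_mod_cast h.le_one b
    · obtain ⟨N, hN⟩ := hb ε hε
      refine ⟨N, fun n hn' => ?_⟩
      have := hN n hn'
      rwa [← hi, map_sub, hf, ← dist_eq_norm] at this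
  haveI : IsAlgClosed K := by
    refine IsAlgClosed.of_exists_root K fun P hP hirr => ?_
    obtain ⟨s, hs0, hs⟩ := NormedField.exists_norm_lt K
      (show (0 : ℝ) < (1 + ∑ i ∈ P.support, ‖P.coeff i‖)⁻¹ by positivity)
    have hsum : 0 ≤ ∑ i ∈ P.support, ‖P.coeff i‖ := by positivity
    rw [inv_eq_one_div, lt_div_iff₀ (by positivity)] at hs
    have hs1 : ‖s‖ ≤ 1 := by nlinarith
    have hQm : (P.scaleRoots s).Monic := (monic_scaleRoots_iff s).2 hP
    have hlift : P.scaleRoots s ∈ lifts (algebraMap F K) := by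
      rw [lifts_iff_coeff_lifts]
      intro i
      refine hball _ ?_
      rw [coeff_scaleRoots, norm_mul, norm_pow]
      rcases Nat.lt_or_ge i P.natDegree with hi' | hi'
      · have h1 : ‖P.coeff i‖ ≤ ∑ i ∈ P.support, ‖P.coeff i‖ := by
          by_cases h0 : P.coeff i = 0
          · rwa [h0, norm_zero]
          · exact Finset.single_le_sum (f := fun i => ‖P.coeff i‖) (fun _ _ => norm_nonneg _)
              (mem_support_iff.2 h0)
        have h2 : ‖s‖ ^ (P.natDegree - i) ≤ ‖s‖ := pow_le_of_le_one hs0.le hs1 (by omega)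
        calc _ ≤ (∑ i ∈ P.support, ‖P.coeff i‖) * ‖s‖ := by gcongr
          _ ≤ 1 := by nlinarith
      · rw [Nat.sub_eq_zero_of_le hi', pow_zero, mul_one]
        rcases hi'.eq_or_lt with h1 | h1
        · rw [← h1, hP.coeff_natDegree, norm_one]
        · rw [coeff_eq_zero_of_natDegree_lt h1, norm_zero]; exact zero_le_one
    obtain ⟨Q, hQ, hQd, hQm'⟩ := lifts_and_natDegree_eq_and_monic hlift hQm
    obtain ⟨b, hb⟩ := exists_root_of_approx _ hQm fun ε hε => by
      obtain ⟨c, hc⟩ := h.approx Q hQm' (by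
        rw [hQd, natDegree_scaleRoots]; exact hirr.natDegree_pos.ne') ε hε
      refine ⟨algebraMap F K c, ?_⟩
      rwa [← hQ, eval_map_algebraMap, aeval_algebraMap_apply, coe_aeval_eq_eval, hi]
    have hs' : s ≠ 0 := norm_pos_iff.1 hs0
    refine ⟨s⁻¹ * b, ?_⟩
    have := scaleRoots_eval_mul P (s⁻¹ * b) s
    rw [mul_inv_cancel_left₀ hs', hb] at this
    exact (mul_eq_zero.1 this.symm).resolve_left (pow_ne_zero _ hs')
  exact ⟨K, nt, inferInstance, inferInstance, inferInstance, algebraMap F K, hinj, hi, hball⟩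

end Crest.Agent.R227.TiltAux
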