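import Crest.Agent.R227.Norm
import Crest.Agent.R227.TiltAux

/-! Row 227 (S0351), module `Tilt`: the field `ℂ_[p]` and its tilt. -/

set_option autoImplicit false
set_option linter.unusedSectionVars false
set_option linter.style.haveILetI false

namespace Crest.Agent.R227

/-- A complete algebraically closed field of characteristic zero and residue characteristic `p`
(take `ℂ_[p]`). -/
theorem exists_E (p : ℕ) [Fact p.Prime] :
    ∃ (E : Type) (_ : NontriviallyNormedField E) (_ : VF E) (_ : CharZero E),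
      ‖(p : E)‖ < 1 ∧ Nonempty (ℤ_[p] →+* Ob E) := by
  letI : VF ℂ_[p] := {}
  have h : ∀ x : ℚ_[p], ‖algebraMap ℚ_[p] ℂ_[p] x‖ = ‖x‖ := fun x => PadicComplex.norm_extends' p x
  refine ⟨ℂ_[p], inferInstance, inferInstance, inferInstance, ?_,
    ⟨((algebraMap ℚ_[p] ℂ_[p]).comp PadicInt.Coe.ringHom).codRestrict (Ob ℂ_[p]) fun x => ?_⟩⟩
  · rw [← map_natCast (algebraMap ℚ_[p] ℂ_[p]), h]
    exact Padic.norm_p_lt_one
  · rw [mem_Ob, RingHom.comp_apply, h]
    exact x.2

namespace TiltAux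

open Polynomial NNReal PreTilt

variable (p : ℕ) [Fact p.Prime] (E : Type) [NontriviallyNormedField E] [VF E]

theorem integers : (NormedField.valuation (K := E)).Integers (Ob E) where
  hom_inj := Subtype.val_injective
  map_le_one x := x.2
  exists_of_le_one r hr := ⟨⟨r, hr⟩, rfl⟩

variable {p E}

theorem mk_eq_zero {x : Ob E} :
    Ideal.Quotient.mk (Ideal.span {(p : Ob E)}) x = 0 ↔ ‖(x : E)‖ ≤ ‖(p : E)‖ := by
  rw [Ideal.Quotient.eq_zero_iff_mem, mem_span_iff_norm]; simp

theorem frob_surj [Fact ¬ IsUnit (p : Ob E)] :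
    Function.Surjective (frobenius (ModP (Ob E) p) p) := by
  intro x
  obtain ⟨x, rfl⟩ := Ideal.Quotient.mk_surjective x
  obtain ⟨y, rfl⟩ := exists_pow_eq_Ob x (Fact.out : p.Prime).ne_zero
  exact ⟨Ideal.Quotient.mk _ y, by rw [frobenius_def, map_pow]⟩

variable [Fact ¬ IsUnit (p : Ob E)]

variable (p E) in
/-- the valuation of the tilt -/
noncomputable def vv : Valuation (PreTilt (Ob E) p) ℝ≥0 :=
  PreTilt.val E NormedField.valuation (Ob E) (integers E) p

theorem vv_eq {f : PreTilt (Ob E) p} {n : ℕ} {x : Ob E}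
    (hx : Ideal.Quotient.mk _ x = coeff n f) (h : coeff n f ≠ 0) :
    (vv p E f : ℝ) = ‖(x : E)‖ ^ p ^ n := by
  have h1 := valAux_eq (integers E) h
  rw [← hx, ModP.preVal_mk (integers E) (hx ▸ h)] at h1
  change ((valAux E NormedField.valuation (Ob E) p f : ℝ≥0) : ℝ) = _
  rw [h1]; simp; rfl

theorem exists_coeff_ne {f : PreTilt (Ob E) p} (hf : f ≠ 0) (j : ℕ) :
    ∃ k, coeff (j + k) f ≠ 0 := by
  obtain ⟨n, hn⟩ : ∃ n, coeff n f ≠ 0 := not_forall.1 fun h => hf <| Perfection.ext h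
  exact ⟨n, by rw [add_comm]; exact Perfection.coeff_add_ne_zero hn j⟩

theorem coeff_pow_pow (f : PreTilt (Ob E) p) (j k : ℕ) : coeff (j + k) f ^ p ^ k = coeff j f := by
  induction k with
  | zero => simp
  | succ k ih => rw [pow_succ', pow_mul, ← add_assoc, coeff_pow_p, ih]

theorem coeff_eq_zero_iff {f : PreTilt (Ob E) p} {j : ℕ} :
    coeff j f = 0 ↔ (vv p E f : ℝ) ≤ ‖(p : E)‖ ^ p ^ j := by
  have hp0 : p ^ j ≠ 0 := pow_ne_zero _ (Fact.out : p.Prime).ne_zero
  rcases eq_or_ne f 0 with rfl | hf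
  · simp
  obtain ⟨k, hk⟩ := exists_coeff_ne hf j
  obtain ⟨x, hx⟩ := Ideal.Quotient.mk_surjective (coeff (j + k) f)
  rw [vv_eq hx hk, ← coeff_pow_pow f j k, ← hx, ← map_pow, mk_eq_zero, add_comm, pow_add, pow_mul,
    pow_le_pow_iff_left₀ (by positivity) (norm_nonneg _) hp0]
  simp

variable [IsAdicComplete (Ideal.span {(p : Ob E)}) (Ob E)]

/-- the compatible roots of the untilt -/
noncomputable def root (f : PreTilt (Ob E) p) (n : ℕ) : Ob E :=
  untilt (((frobeniusEquiv (PreTilt (Ob E) p) p).symm^[n]) f)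

theorem mk_root (f : PreTilt (Ob E) p) (n : ℕ) : Ideal.Quotient.mk _ (root f n) = coeff n f := by
  rw [root, mk_untilt_eq_coeff_zero, coeff_iterate_frobeniusEquiv_symm, zero_add]

theorem root_succ (f : PreTilt (Ob E) p) (n : ℕ) : root f (n + 1) ^ p = root f n := by
  rw [root, root, ← map_pow, Function.iterate_succ_apply', frobeniusEquiv_symm_pow_p]

theorem norm_root (f : PreTilt (Ob E) p) (n : ℕ) : ‖(root f n : E)‖ ^ p ^ n = vv p E f := by
  have h1 : ∀ k, root f (n + k) ^ p ^ k = root f n := by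
    intro k
    induction k with
    | zero => simp
    | succ k ih => rw [pow_succ', pow_mul, ← add_assoc, root_succ, ih]
  rcases eq_or_ne f 0 with rfl | hf
  · have h2 : root (0 : PreTilt (Ob E) p) n = 0 := by
      have h3 : root (0 : PreTilt (Ob E) p) n =
          root (0 : PreTilt (Ob E) p) n * root (0 : PreTilt (Ob E) p) n := by
        simp only [root, Function.iterate_fixed (map_zero _), ← map_mul, mul_zero]
      have h4 := mk_root (0 : PreTilt (Ob E) p) n
      rw [map_zero] at h4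
      by_contra h5
      have h6 : root (0 : PreTilt (Ob E) p) n = 1 := by
        nth_rewrite 1 [← mul_one (root (0 : PreTilt (Ob E) p) n)] at h3
        exact (mul_left_cancel₀ h5 h3).symm
      rw [h6, map_one] at h4
      exact one_ne_zero h4
    simp [h2, (Fact.out : p.Prime).ne_zero]
  obtain ⟨k, hk⟩ := exists_coeff_ne hf n
  rw [vv_eq (mk_root f _) hk, ← h1 k, add_comm n k, pow_add, pow_mul]
  simp

theorem data [CharZero E] (hp : ‖(p : E)‖ < 1) : Data (PreTilt (Ob E) p) (vv p E) := by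
  have hpp : p.Prime := Fact.out
  have hp0 : 0 < ‖(p : E)‖ := norm_pos_iff.2 (Nat.cast_ne_zero.2 hpp.ne_zero)
  have hsmall : ∀ ε : ℝ, 0 < ε → ∃ j, ‖(p : E)‖ ^ p ^ j < ε := fun ε hε => by
    obtain ⟨j, hj⟩ := exists_pow_lt_of_lt_one hε hp
    exact ⟨j, (pow_le_pow_of_le_one hp0.le hp.le (Nat.lt_pow_self hpp.one_lt).le).trans_lt hj⟩
  refine ⟨fun f hf => (PreTilt.map_eq_zero (integers E)).1 hf, fun f => ?_, fun f g h => ?_, ?_,
    fun u hu => ?_, fun P hP hd ε hε => ?_⟩
  · have := norm_root f 0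
    rw [pow_zero, pow_one] at this
    exact_mod_cast this ▸ norm_Ob_le (root f 0)
  · rcases eq_or_ne g 0 with rfl | hg
    · rw [map_zero, nonpos_iff_eq_zero] at h
      rw [(PreTilt.map_eq_zero (integers E)).1 h]
    have hg' : (vv p E g : ℝ) ≠ 0 := by
      exact_mod_cast fun h' => hg ((PreTilt.map_eq_zero (integers E)).1 h')
    have hb : ∀ n, (root g n : E) ≠ 0 := fun n h' => hg' (by
      rw [← norm_root g n, h', norm_zero, zero_pow (pow_ne_zero _ hpp.ne_zero)])
    have hc : ∀ n, (root f n : E) / root g n ∈ Ob E := fun n => by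
      rw [mem_Ob, norm_div, div_le_one (norm_pos_iff.2 (hb n)),
        ← pow_le_pow_iff_left₀ (norm_nonneg _) (norm_nonneg _) (pow_ne_zero n hpp.ne_zero),
        norm_root, norm_root]
      exact_mod_cast h
    let c : ℕ → Ob E := fun n => ⟨_, hc n⟩
    have hc1 : ∀ n, c (n + 1) ^ p = c n := fun n => Subtype.ext (by
      simp only [c, SubmonoidClass.coe_pow, div_pow]
      rw [← SubmonoidClass.coe_pow, ← SubmonoidClass.coe_pow, root_succ, root_succ])
    have hc2 : ∀ n, root f n = root g n * c n := fun n => Subtype.ext (by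
      have := hb n
      simp only [c, MulMemClass.coe_mul]
      field_simp)
    refine ⟨⟨fun n => Ideal.Quotient.mk _ (c n), fun n => by rw [← map_pow, hc1]⟩,
      Perfection.ext fun n => ?_⟩
    change coeff n f = coeff n (g * _)
    rw [map_mul, ← mk_root, ← mk_root, hc2, map_mul]
    rfl
  · obtain ⟨π, hπ⟩ := exists_pow_eq_Ob (p : Ob E) hpp.ne_zero
    obtain ⟨t, ht⟩ := Perfection.coeff_surjective (frob_surj (p := p) (E := E)) 1
      (Ideal.Quotient.mk _ π)
    change coeff 1 t = _ at ht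
    have h0 : coeff 0 t = 0 := by
      rw [← coeff_pow_p, zero_add, ht, ← map_pow, hπ, mk_eq_zero]; simp
    refine ⟨t, ?_, ?_⟩
    · rintro rfl
      rw [map_zero, eq_comm, mk_eq_zero] at ht
      have h1 : ‖(π : E)‖ ^ p = ‖(p : E)‖ := by
        rw [← norm_pow, ← SubmonoidClass.coe_pow, hπ]; simp
      have h2 : ‖(π : E)‖ ^ p ≤ ‖(p : E)‖ ^ p := pow_le_pow_left₀ (norm_nonneg _) ht p
      have h3 : ‖(p : E)‖ ^ p < ‖(p : E)‖ := pow_lt_self_of_lt_one₀ hp0 hp hpp.one_lt
      linarith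
    · have h1 := coeff_eq_zero_iff.1 h0
      rw [pow_zero, pow_one] at h1
      exact_mod_cast h1.trans_lt hp
  · choose N hN using fun j => hu (‖(p : E)‖ ^ p ^ j) (by positivity)
    have h1 : ∀ j m n, N j ≤ m → N j ≤ n → coeff j (u m) = coeff j (u n) := fun j m n hm hn => by
      rw [← sub_eq_zero, ← map_sub, coeff_eq_zero_iff]
      exact (hN j m hm n hn).le
    refine ⟨⟨fun j => coeff j (u (N j)), fun j => ?_⟩, fun ε hε => ?_⟩
    · beta_reduce
      rw [h1 (j + 1) _ (max (N j) (N (j + 1))) le_rfl (le_max_right _ _), coeff_pow_p]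
      exact h1 j _ _ (le_max_left _ _) le_rfl
    · obtain ⟨j, hj⟩ := hsmall ε hε
      refine ⟨N j, fun n hn => lt_of_le_of_lt (coeff_eq_zero_iff.1 ?_) hj⟩
      rw [map_sub, sub_eq_zero]
      exact h1 j _ _ hn le_rfl
  · obtain ⟨j, hj⟩ := hsmall ε hε
    obtain ⟨Q, hQ, hQd, hQm⟩ := lifts_and_natDegree_eq_and_monic
      (f := Ideal.Quotient.mk (Ideal.span {(p : Ob E)}))
      (map_surjective _ Ideal.Quotient.mk_surjective (P.map (coeff j))) (hP.map _)
    rw [hP.natDegree_map] at hQd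
    obtain ⟨r, hr⟩ := IsAlgClosed.exists_aeval_eq_zero E Q (by
      rw [degree_eq_natDegree hQm.ne_zero, hQd]; exact_mod_cast hd)
    have hr1 : r ∈ Ob E := norm_le_one_of_isIntegral ⟨Q, hQm, hr⟩
    have hr2 : Q.eval ⟨r, hr1⟩ = 0 := by
      have : aeval (algebraMap (Ob E) E ⟨r, hr1⟩) Q = 0 := hr
      rw [aeval_algebraMap_apply, coe_aeval_eq_eval] at this
      exact Subtype.val_injective this
    obtain ⟨a, ha⟩ := Perfection.coeff_surjective (frob_surj (p := p) (E := E)) j
      (Ideal.Quotient.mk _ ⟨r, hr1⟩)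
    change coeff j a = _ at ha
    refine ⟨a, lt_of_le_of_lt (coeff_eq_zero_iff.1 ?_) hj⟩
    rw [← eval_map_apply, ← hQ, ha, eval_map_apply, hr2, map_zero]

end TiltAux

/-- `ρ` relates the unit ball of `K` (characteristic `p`) to the unit ball of `E` modulo `p`. -/
structure TiltPair (p : ℕ) [Fact p.Prime] {E K : Type} [NontriviallyNormedField E] [VF E]
    [NontriviallyNormedField K] [VF K] (ρ : Ob K →+* Ob E ⧸ Ideal.span {(p : Ob E)}) : Prop where
  surj : Function.Surjective ρ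
  nil : ∀ y ∈ Nil (Ob K), IsNilpotent (ρ y)
  witt : ∀ (k : Type) [Field k] [CharP k p] [PerfectRing k p] (ι : k →+* Ob K),
    ∃ s : WittVector p k →+* Ob E, ∀ w,
      Ideal.Quotient.mk (Ideal.span {(p : Ob E)}) (s w) = ρ (ι (WittVector.constantCoeff w))

theorem exists_tilt (p : ℕ) [Fact p.Prime] (E : Type) [NontriviallyNormedField E] [VF E]
    [CharZero E] (hp : ‖(p : E)‖ < 1) :
    ∃ (K : Type) (_ : NontriviallyNormedField K) (_ : VF K) (_ : CharP K p),
      ∀ d : Ob K, d ≠ 0 → ∃ ρ : Ob K →+* Ob E ⧸ Ideal.span {(p : Ob E)},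
        TiltPair p ρ ∧ ρ d ≠ 0 := by
  have hpp : p.Prime := Fact.out
  have hp0 : (p : E) ≠ 0 := Nat.cast_ne_zero.2 hpp.ne_zero
  haveI : Fact ¬ IsUnit (p : Ob E) := ⟨fun h => by
    rw [isUnit_Ob] at h
    simp only [SubringClass.coe_natCast] at h
    exact hp.ne h⟩
  haveI : IsAdicComplete (Ideal.span {(p : Ob E)}) (Ob E) :=
    (isDef_span_Ob (fun h => hp0 (by simpa using congrArg Subtype.val h))
      (mem_Nil_Ob.2 (by simpa using hp))).isAdicComplete
  haveI : IsDomain (PreTilt (Ob E) p) := PreTilt.isDomain E _ (Ob E) (TiltAux.integers E) p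
  have hD := TiltAux.data hp
  obtain ⟨K, _, _, _, _, i, hinj, hi, hball⟩ := TiltAux.exists_field hD
  letI : VF K := {}
  haveI : CharP K p := charP_of_injective_ringHom hinj p
  let i' : PreTilt (Ob E) p →+* Ob K := i.codRestrict (Ob K) fun f => by
    rw [mem_Ob, hi]; exact_mod_cast hD.le_one f
  let e : PreTilt (Ob E) p ≃+* Ob K := RingEquiv.ofBijective i'
    ⟨fun f g h => hinj (congrArg Subtype.val h), fun x => by
      obtain ⟨f, hf⟩ := hball x x.2
      exact ⟨f, Subtype.ext hf⟩⟩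
  have he : ∀ f, ‖(e f : K)‖ = TiltAux.vv p E f := hi
  refine ⟨K, inferInstance, inferInstance, inferInstance, fun d hd => ?_⟩
  obtain ⟨j, hj⟩ := TiltAux.exists_coeff_ne (f := e.symm d) (by simpa using hd) 0
  rw [zero_add] at hj
  refine ⟨(PreTilt.coeff j).comp e.symm.toRingHom, ⟨?_, fun y hy => ?_, fun k _ _ _ ι => ?_⟩, hj⟩
  · exact (Perfection.coeff_surjective TiltAux.frob_surj j).comp e.symm.surjective
  · obtain ⟨f, rfl⟩ := e.surjective y
    rw [mem_Nil_Ob, he] at hy
    obtain ⟨m, hm⟩ := exists_pow_lt_of_lt_one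
      (pow_pos (norm_pos_iff.2 hp0) (p ^ j)) hy
    refine ⟨m, ?_⟩
    rw [← map_pow, ← map_pow]
    change PreTilt.coeff j (e.symm (e (f ^ m))) = 0
    rw [e.symm_apply_apply, TiltAux.coeff_eq_zero_iff, map_pow]
    exact_mod_cast hm.le
  · let φ : PreTilt (Ob E) p →+* PreTilt (Ob E) p :=
      ((frobeniusEquiv (PreTilt (Ob E) p) p).symm : PreTilt (Ob E) p →+* PreTilt (Ob E) p) ^ j
    refine ⟨(WittVector.fontaineTheta (Ob E) p).comp
      (WittVector.map (φ.comp (e.symm.toRingHom.comp ι))), fun w => ?_⟩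
    rw [RingHom.comp_apply, WittVector.mk_fontaineTheta, WittVector.map_coeff]
    simp only [φ, RingHom.comp_apply, RingHom.coe_pow, RingHom.coe_coe,
      PreTilt.coeff_iterate_frobeniusEquiv_symm, zero_add]
    rfl

end Crest.Agent.R227
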