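import Crest.Agent.R227.Orbit
import Crest.Agent.R227.ThmQ
import Crest.Agent.R227.Tilt
import Crest.Agent.R227.Points
import Crest.Agent.R227.LinAux

/-! Row 227 (S0351), module `Main0`: a stable radical ideal that does not contain `p` is zero. -/

set_option autoImplicit false
set_option linter.unusedSectionVars false
set_option linter.style.haveILetI false

namespace Crest.Agent.R227

open MvPowerSeries Crest.LubinTate Filter Topology

variable {p : ℕ} [Fact p.Prime] {n : ℕ} {Γ : FormalGroup (GaloisField p n)}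
  {H : FormalGroup (LTRing p n)} [Γ.IsComm] [H.IsComm]

theorem exists_pi {L : Type*} [NontriviallyNormedField L] [VF L] {κ : Type*} [Finite κ]
    (a : κ → Ob L) (ha : ∀ i, a i ∈ Nil (Ob L)) :
    ∃ π : Ob L, π ≠ 0 ∧ π ∈ Nil (Ob L) ∧ ∀ i, a i ∈ Ideal.span {π} := by
  obtain ⟨π, h0, h1, h2⟩ := exists_le_span_of_fg (𝔞 := Ideal.span (Set.range a))
    (Submodule.fg_span (Set.finite_range a)) (Ideal.span_le.2 (by rintro _ ⟨i, rfl⟩; exact ha i))
  exact ⟨π, h0, h1, fun i => h2 (Ideal.subset_span ⟨i, rfl⟩)⟩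

theorem comb_apply {E M ι : Type*} [Field E] [AddCommGroup M] [Fintype ι] (c : ι → E)
    (b : ι → (M →+ E)) (y : M) : (∑ i, c i • b i) y = ∑ i, c i * b i y := by
  simp [AddMonoidHom.finsetSum_apply]

theorem div_M {K : Type*} [NontriviallyNormedField K] [VF K] [CharP K p]
    (hΓ : mulSeries Γ p = PowerSeries.X ^ p ^ n) (ι : GaloisField p n →+* Ob K) :
    Function.Bijective fun y : Pt (Γ.map ι) => p • y :=
  nsmul_bijective (n := n) (by rw [mulSeries_map, hΓ, map_pow, PowerSeries.map_X])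

/-- The family through a point, with coordinates `v_j - x v_j`. -/
theorem LTS.exists_family (S : LTS Γ H) {A : Type*} [CommRing A] [Adic A] {σ : Type*} [Finite σ]
    (s : WittVector p (GaloisField p n) →+* A) (hp : (p : A) ∈ Nil A) (c : Fin (n - 1) → A)
    (hc : ∀ j, c j ∈ Nil A) (u : Fin (n - 1) → MvPowerSeries σ A)
    (hu : ∀ j, constantCoeff (u j) = 0) :
    ∃ xz : LTRing p n →+* MvPowerSeries σ A, (∀ w, xz (C w) = C (s w)) ∧
      (∀ j : Fin (n - 1), xz (vv p H (j + 1)) = C (c j) + u j) ∧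
      ∀ f, LTRing.residue p n f = 0 → xz f ∈ Nil (MvPowerSeries σ A) := by
  have hp' : (p : MvPowerSeries σ A) ∈ Nil (MvPowerSeries σ A) := mem_Nil_mv.2 (by simpa using hp)
  have ha : ∀ j, C (c j) + u j ∈ Nil (MvPowerSeries σ A) := fun j =>
    mem_Nil_mv.2 (by simpa [hu] using hc j)
  obtain ⟨xz, h1, h2⟩ := S.exists_hom ((C : A →+* MvPowerSeries σ A).comp s) hp' _ ha
  exact ⟨xz, h1, h2, fun f hf => S.map_mem hp' (fun j => by rw [h2]; exact ha j) hf⟩

/-- A versal family through a point of characteristic zero. -/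
theorem LTS.exists_qdata (S : LTS Γ H) {E K : Type} [NontriviallyNormedField E] [VF E] [CharZero E]
    [NontriviallyNormedField K] [VF K] [CharP K p]
    {ρ₀ : Ob K →+* Ob E ⧸ Ideal.span {(p : Ob E)}} (hT : TiltPair p ρ₀)
    {ι : GaloisField p n →+* Ob K} {s : WittVector p (GaloisField p n) →+* Ob E}
    (hs : ∀ w, Ideal.Quotient.mk (Ideal.span {(p : Ob E)}) (s w) =
      ρ₀ (ι (WittVector.constantCoeff w)))
    {π : Ob E} (hπ : π ∈ Nil (Ob E)) (hpπ : (p : Ob E) ∈ Ideal.span {π})
    (c : Fin (n - 1) → Ob E) (hc : ∀ j, c j ∈ Ideal.span {π}) :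
    ∃ (xz : LTRing p n →+* MvPowerSeries (Fin (n - 1)) (Ob E))
      (cov : Pt (Γ.map ι) →+ Pt (H.map xz)), (∀ w, xz (C w) = C (s w)) ∧
      (∀ j : Fin (n - 1), xz (vv p H (j + 1)) = C (c j) + X j) ∧
      (∀ f, LTRing.residue p n f = 0 → constantCoeff (xz f) ∈ Ideal.span {π}) ∧
      (Ideal.Quotient.mk (Ideal.span {π})).comp (constantCoeff.comp xz) =
        (((Ideal.Quotient.factor ((Ideal.span_singleton_le_iff_mem _).2 hpπ)).comp ρ₀).comp ι).comp
          (LTRing.residue p n) ∧
      QData Γ ι (H.map xz) π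
        ((Ideal.Quotient.factor ((Ideal.span_singleton_le_iff_mem _).2 hpπ)).comp ρ₀) cov := by
  have hle : Ideal.span {π} ≤ Nil (Ob E) := (Ideal.span_singleton_le_iff_mem _).2 hπ
  have hπ0 : π ≠ 0 := by
    rintro rfl
    exact p_ne_zero_Ob (p := p) (E := E) (by simpa using hpπ)
  obtain ⟨xz, h1, h2, -⟩ := S.exists_family s (hle hpπ) c (fun j => hle (hc j)) X
    (fun j => constantCoeff_X j)
  set ρ := (Ideal.Quotient.factor ((Ideal.span_singleton_le_iff_mem _).2 hpπ)).comp ρ₀ with hρ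
  have hm : ∀ f, LTRing.residue p n f = 0 → constantCoeff (xz f) ∈ Ideal.span {π} := fun f hf =>
    S.map_mem (x := constantCoeff.comp xz) hpπ (fun j => by simpa [h2] using hc j) hf
  have hred : (Ideal.Quotient.mk (Ideal.span {π})).comp (constantCoeff.comp xz) =
      (ρ.comp ι).comp (LTRing.residue p n) :=
    mk_comp_eq _ (fun f hf => Ideal.Quotient.eq_zero_iff_mem.2 (hm f hf)) fun w => by
      simp only [RingHom.comp_apply, h1, constantCoeff_C, hρ, ← hs, Ideal.Quotient.factor_mk]
  have hG : (Γ.map ι).map ρ = ((H.map xz).map constantCoeff).map (Ideal.Quotient.mk _) := by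
    rw [fg_map_map, fg_map_map H, fg_map_map H, hred, ← fg_map_map H, S.hH.1]
  obtain ⟨cov, hcov⟩ := exists_cov (isDef_span_Ob hπ0 hπ) hpπ (Γ.map ι) (div_M S.hΓ ι) ρ
    (fun y hy => (hT.nil y hy).map
      (Ideal.Quotient.factor ((Ideal.span_singleton_le_iff_mem _).2 hpπ))) (H.map xz) hG
  refine ⟨xz, cov, h1, h2, hm, hred, S.hn, S.hΓ, hπ, hpπ,
    (Ideal.Quotient.factor_surjective ((Ideal.span_singleton_le_iff_mem _).2 hpπ)).comp hT.surj, hG, fun i j => ?_, hcov⟩
  change coeff _ (vv p (H.map xz) (i + 1)) = _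
  rw [vv_map, h2, map_add, coeff_C, if_neg (by simp), zero_add, coeff_X]
  simp [Finsupp.single_left_inj, eq_comm]

theorem witt_injective {O : Type*} [CommRing O] [IsDomain O]
    (s : WittVector p (GaloisField p n) →+* O) (hp : (p : O) ≠ 0) : Function.Injective s := by
  rw [injective_iff_map_eq_zero]
  intro w hw
  by_contra h0
  obtain ⟨m, b, rfl⟩ := WittVector.exists_eq_pow_p_mul' w h0
  rw [map_mul, map_pow, map_natCast] at hw
  exact mul_ne_zero (pow_ne_zero _ hp) (b.isUnit.map s).ne_zero hw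

theorem main0 (S : LTS Γ H) {M : ℕ} {J : Ideal (LTRing p n)} (hJ : J.IsRadical)
    (hst : IsStableIdeal p n Γ H M J) (hpJ : (p : LTRing p n) ∉ J) : J = ⊥ := by
  obtain ⟨E, _, _, _, hp, -⟩ := exists_E p
  obtain ⟨K, _, _, _, hK⟩ := exists_tilt p E hp
  obtain ⟨ρ₀, hT, -⟩ := hK 1 one_ne_zero
  obtain ⟨ι⟩ := exists_iota p n K
  obtain ⟨s, hs⟩ := hT.witt _ ι
  obtain ⟨x, hxC, hxJ, -, hxN⟩ := exists_point s (p_mem_Nil hp) hJ (v := p) (by simp) hpJ
    (Or.inl ⟨rfl, p_ne_zero_Ob⟩)
  obtain ⟨π, hπ0, hπ, hπm⟩ := exists_pi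
    (fun o : Option (Fin (n - 1)) => o.elim (p : Ob E) fun j => x (vv p H (j + 1)))
    (by
      rintro (_ | j)
      · exact p_mem_Nil hp
      · exact hxN _ (S.residue_vv (by omega)))
  have hpπ : (p : Ob E) ∈ Ideal.span {π} := hπm none
  have hle : Ideal.span {π} ≤ Nil (Ob E) := (Ideal.span_singleton_le_iff_mem _).2 hπ
  obtain ⟨xz, cov, h1, h2, hm, hred, D⟩ := S.exists_qdata hT hs hπ hpπ
    (fun j => x (vv p H (j + 1))) fun j => hπm (some j)
  have hx : (constantCoeff : MvPowerSeries _ (Ob E) →+* Ob E).comp xz = x :=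
    S.hom_ext (fun f hf => hle (hm f hf)) (fun w => by simp [h1, hxC]) fun j => by simp [h2]
  rw [hx] at hred
  have hxm : ∀ f ∈ mE p n, x f ∈ Ideal.span {π} := fun f hf => hx ▸ hm f hf
  obtain ⟨hli, hspan, -⟩ := D.thmQ hp
  set b := bfun hp (H.map xz) cov with hb
  obtain ⟨y, hy⟩ := exists_det_ne_zero (fun (y : Pt (Γ.map ι)) o => b o y) fun v hv => by
    funext o
    refine Fintype.linearIndependent_iff.1 hli v ?_ o
    ext y
    rw [comb_apply]
    exact hv y
  let V : AddSubmonoid (Fin (n - 1) → E) :=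
    { carrier := {v | ∃ e ∈ EndS Γ ι, ∃ a₀ : E, ∀ y, b none (e y) =
        a₀ * b none y + ∑ i, v i * b (some i) y}
      zero_mem' := ⟨0, EndS_zero Γ ι, 0, fun y => by simp⟩
      add_mem' := by
        rintro v v' ⟨e, he, a, ha⟩ ⟨e', he', a', ha'⟩
        refine ⟨e + e', EndS_add he he', a + a', fun y => ?_⟩
        change b none (e y + e' y) = _
        rw [map_add, ha, ha']
        simp only [Pi.add_apply, add_mul, Finset.sum_add_distrib]
        ring }
  have hV : Submodule.span E (V : Set (Fin (n - 1) → E)) = ⊤ := by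
    have key : ∀ w ∈ Submodule.span E {w | ∃ e ∈ EndS Γ ι, w = (b none).comp e},
        ∃ a₀ : E, ∃ v ∈ Submodule.span E (V : Set (Fin (n - 1) → E)), ∀ y,
          w y = a₀ * b none y + ∑ i, v i * b (some i) y := by
      intro w hw
      induction hw using Submodule.span_induction with
      | mem w hw =>
        obtain ⟨e, he, rfl⟩ := hw
        have : (b none).comp e ∈ Submodule.span E (Set.range b) :=
          hspan ▸ Submodule.subset_span ⟨e, he, rfl⟩
        obtain ⟨c, hc⟩ := (Submodule.mem_span_range_iff_exists_fun E).1 this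
        have hc' : ∀ y, b none (e y) = c none * b none y + ∑ i, c (some i) * b (some i) y :=
          fun y => by
            have := DFunLike.congr_fun hc y
            rw [comb_apply, Fintype.sum_option] at this
            exact this.symm
        exact ⟨c none, fun i => c (some i), Submodule.subset_span ⟨e, he, c none, hc'⟩, hc'⟩
      | zero => exact ⟨0, 0, Submodule.zero_mem _, fun y => by simp⟩
      | add w w' _ _ h h' =>
        obtain ⟨a, v, hv, h⟩ := h
        obtain ⟨a', v', hv', h'⟩ := h'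
        refine ⟨a + a', v + v', Submodule.add_mem _ hv hv', fun y => ?_⟩
        rw [AddMonoidHom.add_apply, h, h']
        simp only [Pi.add_apply, add_mul, Finset.sum_add_distrib]
        ring
      | smul c w _ h =>
        obtain ⟨a, v, hv, h⟩ := h
        refine ⟨c * a, c • v, Submodule.smul_mem _ c hv, fun y => ?_⟩
        rw [AddMonoidHom.smul_apply, h]
        simp only [Pi.smul_apply, smul_eq_mul, mul_add, Finset.mul_sum, mul_assoc]
    rw [eq_top_iff, ← (Pi.basisFun E (Fin (n - 1))).span_eq, Submodule.span_le]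
    rintro _ ⟨i, rfl⟩
    obtain ⟨a, v, hv, h⟩ := key (b (some i)) (hspan ▸ Submodule.subset_span ⟨some i, rfl⟩)
    have h0 := Fintype.linearIndependent_iff.1 hli
      (fun o => o.elim a fun j => v j - Pi.single (M := fun _ => E) i 1 j) (by
        ext y
        rw [comb_apply]
        simp only [Fintype.sum_option, Option.elim, sub_mul, Finset.sum_sub_distrib,
          AddMonoidHom.zero_apply]
        rw [← add_sub_assoc, ← h, sub_eq_zero, Finset.sum_eq_single i (fun j _ hj => by simp [hj])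
          (by simp)]
        simp)
    have : v = Pi.basisFun E (Fin (n - 1)) i := by
      funext j
      rw [Pi.basisFun_apply]
      exact sub_eq_zero.1 (h0 (some j))
    exact this ▸ hv
  have hinj : Function.Injective xz := S.injective (witt_injective s p_ne_zero_Ob) (p_mem_Nil hp) h1
    (fun j => hle (hπm (some j))) h2
  rw [eq_bot_iff]
  intro f hf
  rw [Ideal.mem_bot]
  refine hinj ((eq_zero_of_tangent V hV ?_).trans (map_zero xz).symm)
  rintro v ⟨e, ⟨δ, hδ, he⟩, a₀, ha⟩
  have he' : e = endOf ι hδ := AddMonoidHom.ext fun y => Pt.ext (he y)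
  choose φ hφ using fun m => S.exists_stab (S.isFGAut_gm hδ (Nat.le_add_left 1 m))
  let z : ℕ → Fin (n - 1) → Ob E := fun m j => x (φ m (vv p H (j + 1)) - vv p H (j + 1))
  have hzm : ∀ m j, z m j ∈ Ideal.span {π} ^ (m + 1 + 1) := fun m j => by
    have := Ideal.mem_map_of_mem x
      (S.stab_sub_mem_zero hδ (hφ m) (Nat.le_add_left 1 m) (vv p H (j + 1)))
    rw [Ideal.map_pow] at this
    exact Ideal.pow_right_mono (Ideal.map_le_iff_le_comap.2 hxm) _ this
  have hz1 : ∀ m j, z m j ∈ Ideal.span {π} := fun m j => Ideal.pow_le_self (by omega) (hzm m j)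
  have hzN : ∀ m j, z m j ∈ Nil (Ob E) := fun m j => hle (hz1 m j)
  have hev : ∀ m, (evHom (z m) (hzN m)).comp xz = x.comp (φ m).toRingHom := fun m => by
    refine (S.hom_ext (x := x.comp (φ m).toRingHom) (fun f hf => hxN _ ?_) (fun w => ?_)
      fun j => ?_).symm
    · exact (DFunLike.congr_fun (hφ m).1 f).trans hf
    · have : φ m (C w) = C w := (φ m).commutes w
      simp [h1, this, hxC]
    · simp [h2, z]
  have hπ1 : ‖(π : E)‖ < 1 := mem_Nil_Ob.1 hπ
  have hzn : ∀ m, ‖fun j => (z m j : E)‖ ≤ ‖(π : E)‖ ^ (m + 1 + 1) := fun m =>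
    (pi_norm_le_iff_of_nonneg (by positivity)).2 fun j =>
      norm_le_of_mem_pow (norm_nonneg _) (fun a ha => mem_span_iff_norm.1 ha) (hzm m j)
  have hz0 : Tendsto (fun m => ‖fun j => (z m j : E)‖) atTop (𝓝 0) :=
    squeeze_zero (fun _ => norm_nonneg _) hzn
      ((tendsto_pow_atTop_nhds_zero_of_lt_one (norm_nonneg _) hπ1).comp
        (tendsto_add_atTop_nat 2))
  have hp0 : (p : E) ≠ 0 := Nat.cast_ne_zero.2 (Fact.out : p.Prime).ne_zero
  have ht : Tendsto (fun m : ℕ => (p : E) ^ (m + 1)) atTop (𝓝 0) :=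
    (tendsto_pow_atTop_nhds_zero_of_norm_lt_one hp).comp (tendsto_add_atTop_nat 1)
  refine ⟨fun m => (p : E) ^ (m + 1), z, fun m => pow_ne_zero _ hp0, ht, fun j => ?_, ?_⟩
  · choose θ hθ hθg using fun m => (hφ m).2
    choose K hK using fun o => lg_taylor hp (cov (y o))
    refine tangent_lemma _ hy (c := fun m => (x (PowerSeries.coeff 1 (θ m)) : Ob E)) ht
      (fun m => pow_ne_zero _ hp0) (tendsto_zero_iff_norm_tendsto_zero.2 hz0)
      (fun o => o.elim a₀ v) (∑ o, |K o|) ?_ j
    filter_upwards [hz0.eventually (ge_mem_nhds (norm_pos_iff.2 hp0))] with m hm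
    have hu : IsUnit (x (PowerSeries.coeff 1 (θ m))) := by
      refine IsUnit.map x ?_
      by_contra hnu
      have h3 : PowerSeries.coeff 1 (θ m) ∈ mE p n := by
        rw [mE_eq]
        exact hnu
      have h4 := (S.isFGAut_gm hδ (Nat.le_add_left 1 m)).2
      rw [← hθg m, PowerSeries.coeff_map, RingHom.mem_ker.1 h3] at h4
      exact not_isUnit_zero h4
    have hc1 := isUnit_Ob.1 hu
    refine ⟨hc1, fun o => ?_⟩
    have e1 : (H.map xz).map (evHom (z m) (hzN m)) = (H.map (φ m).toRingHom).map x := by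
      rw [fg_map_map, fg_map_map, hev]
    have e2 : (H.map xz).map constantCoeff = H.map x := by rw [fg_map_map, hx]
    have h3 := hK o (z m) (hzN m) _ e1 _ (norm_nonneg _) hm
      fun i => norm_le_pi_norm (fun j => (z m j : E)) i
    have h4 := lg_hom hp (IsFGHom.map (hθ m) x)
      (Pt.map (evHom (z m) (hzN m)) (mapsNil_evHom (hzN m)) e1 (cov (y o)))
    have h5 : Pt.hom (IsFGHom.map (hθ m) x)
        (Pt.map (evHom (z m) (hzN m)) (mapsNil_evHom (hzN m)) e1 (cov (y o))) =
        Pt.map constantCoeff mapsNil_constantCoeff e2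
          (cov (y o + p ^ (m + 1) • e (y o))) := by
      ext1
      rw [Pt.hom_val, Pt.map_val, Pt.map_val, evHom_apply, he']
      rw [orbit (isDef_span_Ob hπ0 hπ) hpπ (div_M S.hΓ ι).2 hx hred cov D.cov
        (isFGHom_gm hδ (m + 1)) (hθ m) (hθg m) (hz1 m) (hzN m) (hev m)]
      exact congrArg (fun t => constantCoeff (cov t).1) (hom_gm ι hδ (m + 1) (y o))
    rw [h5, ← lgc_zero hp e2, PowerSeries.coeff_map] at h4
    have h6 : lgc hp (H.map xz) 0 (cov (y o + p ^ (m + 1) • e (y o))) =
        b none (y o) + (p : E) ^ (m + 1) * b none (e (y o)) := by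
      change b none _ = _
      rw [map_add, map_nsmul, nsmul_eq_mul, Nat.cast_pow]
    rw [h6, ha] at h4
    refine le_trans (le_of_eq ?_) (h3.trans (mul_le_mul_of_nonneg_right
      ((le_abs_self _).trans (Finset.single_le_sum (f := fun o => |K o|)
        (fun _ _ => abs_nonneg _) (Finset.mem_univ o))) (by positivity)))
    rw [← norm_neg, ← one_mul ‖_ - _ - _‖, ← hc1, ← norm_mul]
    congr 1
    simp only [Matrix.of_apply, Fintype.sum_option, Option.elim]
    rw [mul_sub, mul_sub, ← h4]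
    have e3 : ∑ i, b (some i) (y o) * v i = ∑ i, v i * b (some i) (y o) :=
      Finset.sum_congr rfl fun _ _ => mul_comm _ _
    rw [e3]
    change _ = _ - _ * b none (y o) - _ * ∑ i, b (some i) (y o) * _
    ring
  · filter_upwards [eventually_ge_atTop M] with m hm
    have h3 := hst _ _ (S.isFGAut_gm hδ (Nat.le_add_left 1 m))
      (fun i hi => S.coeff_gm hδ (by omega)) (hφ m)
    have h4 : (φ m).toRingHom f ∈ J := by rwa [← h3] at hf
    rw [← evHom_apply (hzN m)]
    exact (DFunLike.congr_fun (hev m) f).trans (hxJ _ h4)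

end Crest.Agent.R227
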