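import Crest.Agent.R227.Relation

/-! Row 227 (S0351), module `MainP`: a stable radical ideal that contains `I_h` and not `v_h` is
`I_h` (the case `1 ≤ h < n`). -/

set_option autoImplicit false
set_option linter.unusedSectionVars false
set_option linter.style.haveILetI false

namespace Crest.Agent.R227

open MvPowerSeries Crest.LubinTate Filter Topology

theorem exists_series_lift {R S : Type*} [CommRing R] [CommRing S] {r : R →+* S}
    (hr : Function.Surjective r) {g : PowerSeries S} (hg : PowerSeries.constantCoeff g = 0) :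
    ∃ Q : PowerSeries R, PowerSeries.constantCoeff Q = 0 ∧ PowerSeries.map r Q = g := by
  obtain ⟨g', rfl⟩ := PowerSeries.X_dvd_iff.2 hg
  obtain ⟨Q, rfl⟩ := PowerSeries.map_surjective r hr g'
  exact ⟨PowerSeries.X * Q, by simp, by simp⟩

theorem mem_Nil_of_mk {A : Type*} [CommRing A] [Adic A] {a π : A} (hπ : π ∈ Nil A)
    (ha : IsNilpotent (Ideal.Quotient.mk (Ideal.span {π}) a)) : a ∈ Nil A := by
  obtain ⟨k, hk⟩ := ha
  rw [← map_pow, Ideal.Quotient.eq_zero_iff_mem] at hk
  exact mem_Nil_of_pow ((Ideal.span_singleton_le_iff_mem _).2 hπ hk)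

variable {p : ℕ} [Fact p.Prime] {n : ℕ} {Γ : FormalGroup (GaloisField p n)}
  {H : FormalGroup (LTRing p n)} [Γ.IsComm] [H.IsComm]

/-- Reduce the coefficients and restrict to the height `h` stratum. -/
theorem exists_restrict {A R : Type*} [CommRing A] [CommRing R] (r : A →+* R) (h : ℕ) :
    ∃ α : MvPowerSeries (Fin (n - 1)) A →+* MvPowerSeries {j : Fin (n - 1) // h ≤ j + 1} R,
      (∀ a, α (C a) = C (r a)) ∧ (∀ j, α (X j) = uu R h j) ∧
      (∀ T, constantCoeff (α T) = r (constantCoeff T)) ∧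
      ∀ T j, coeff (Finsupp.single j 1) (α T) = r (coeff (Finsupp.single j.1 1) T) := by
  letI := Adic.discrete R
  have hN : ∀ j, uu R h j ∈ Nil (MvPowerSeries {j : Fin (n - 1) // h ≤ j + 1} R) := fun j =>
    mem_Nil_of_constantCoeff (constantCoeff_uu R h j)
  have hle : Ideal.span (Set.range (uu (n := n) R h)) ≤ Ideal.span (Set.range X) := by
    rw [Ideal.span_le]
    rintro _ ⟨j, rfl⟩
    unfold uu
    split_ifs with hj
    · exact Ideal.subset_span ⟨_, rfl⟩
    · exact Ideal.zero_mem _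
  have key := fun T : MvPowerSeries (Fin (n - 1)) A => (mem_span_X_pow_iff 2 _).1
    (Ideal.pow_right_mono hle 2 (ev_sub_linear_mem hN (MvPowerSeries.map (C.comp r) T)))
  refine ⟨(evHom _ hN).comp (MvPowerSeries.map (C.comp r)), fun a => by simp, fun j => by simp,
    fun T => ?_, fun T j => ?_⟩
  · have := key T 0 (by simp)
    rw [map_sub, sub_eq_zero, coeff_zero_eq_constantCoeff] at this
    rw [RingHom.comp_apply, evHom_apply, this]
    simp [constantCoeff_uu]
  · have := key T (Finsupp.single j 1) (by simp)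
    rw [map_sub, sub_eq_zero] at this
    rw [RingHom.comp_apply, evHom_apply, this, map_add, map_sum, Finset.sum_eq_single j.1]
    · simp only [constantCoeff_map, coeff_map, RingHom.comp_apply, coeff_C_mul, uu_coe]
      rw [coeff_C, if_neg (by simp), coeff_X]
      simp
    · intro i _ hi
      simp only [coeff_map, RingHom.comp_apply, coeff_C_mul]
      unfold uu
      split_ifs with hj
      · rw [coeff_X, if_neg, mul_zero]
        rw [Finsupp.single_left_inj one_ne_zero]
        rintro rfl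
        exact hi rfl
      · simp
    · simp

theorem mainP (S : LTS Γ H) {M h : ℕ} (hh : 1 ≤ h) (hn : h < n) {J : Ideal (LTRing p n)}
    (hJ : J.IsRadical) (hst : IsStableIdeal p n Γ H M J) (hI : heightIdeal p n H h ≤ J)
    (hv : vv p H h ∉ J) : J = heightIdeal p n H h := by
  refine le_antisymm (fun f hf => ?_) hI
  by_contra hf'
  obtain ⟨E, _, _, _, hp, ⟨κ⟩⟩ := exists_E p
  obtain ⟨K, _, _, _, hK⟩ := exists_tilt p E hp
  obtain ⟨ι⟩ := exists_iota p n K
  obtain ⟨F, _, hF⟩ := exists_LT p hh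
  have hp0 : (p : Ob K) = 0 := CharP.cast_eq_zero _ p
  have hHh := hF.mulSeries_map_char hp0 (toCharP p (Ob K))
  obtain ⟨xz, c, π, cov, y, τ, hτ, T, s, N, φ, hφ, h1, h2, hπ, hcN, hcov, hy0, hy, hT, hTs, hφs,
    hrel⟩ := relation S hh hn hJ hst hI hv hf hf' ι (F.map (toCharP p (Ob K))) hHh
  obtain ⟨ρ, hρ, hdet⟩ := hK _ hy
  obtain ⟨s', hs'⟩ := hρ.witt _ ι
  have hpN := p_mem_Nil hp
  set mk := Ideal.Quotient.mk (Ideal.span {(p : Ob E)}) with hmk
  have hmks : Function.Surjective mk := Ideal.Quotient.mk_surjective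
  choose a ha using fun j => hmks (ρ (c j))
  obtain ⟨π₁, hπ₁⟩ := hmks (ρ π)
  obtain ⟨π', -, hπ', hπm⟩ := exists_pi
    (fun o : Option (Option (Fin (n - 1))) => o.elim (p : Ob E) fun o => o.elim π₁ a)
    (by
      rintro (_ | _ | j)
      · exact hpN
      · exact mem_Nil_of_mk hpN (by rw [← hmk]; exact hπ₁ ▸ hρ.nil _ hπ)
      · exact mem_Nil_of_mk hpN (by rw [← hmk]; exact ha j ▸ hρ.nil _ (hcN j)))
  have hpπ : (p : Ob E) ∈ Ideal.span {π'} := hπm none
  have hle : Ideal.span {π'} ≤ Nil (Ob E) := (Ideal.span_singleton_le_iff_mem _).2 hπ'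
  obtain ⟨xz', cov', h1', h2', hm', -, D⟩ := S.exists_qdata hρ hs' hπ' hpπ a
    fun j => hπm (some (some j))
  obtain ⟨-, -, hQ⟩ := D.thmQ hp
  set b := bfun hp (H.map xz') cov' with hb
  have hdefp : IsDef (Ideal.span {(p : Ob E)}) := isDef_span_Ob p_ne_zero_Ob hpN
  letI := Adic.discrete (Ob E ⧸ Ideal.span {(p : Ob E)})
  have hmkN : MapsNil mk := fun a ha => mem_Nil_of_isNilpotent (hdefp.isNilpotent_mk ha)
  have hρN : MapsNil ρ := fun a ha => mem_Nil_of_isNilpotent (hρ.nil a ha)
  obtain ⟨α, hαC, hαX, hα0, hα1⟩ := exists_restrict (n := n) mk h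
  have hαN : MapsNil α := fun T hT => mem_Nil_mv.2 (by
    rw [hα0]
    exact hmkN _ (mem_Nil_mv.1 hT))
  have hαβ : α.comp xz' = (MvPowerSeries.map ρ).comp xz :=
    S.hom_ext (fun f hf => hαN _ (mem_Nil_mv.2 (hle (hm' f hf))))
      (fun w => by simp [h1, h1', hαC, hs'])
      fun j => by
        have : MvPowerSeries.map ρ (uu (Ob K) h j) = uu _ h j := by
          unfold uu
          split_ifs <;> simp
        simp [h2, h2', hαC, hαX, ha, this]
  have hcc : α.comp xz' = (MvPowerSeries.map ρ).comp xz → ((H.map xz').map constantCoeff).map mk =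
      ((H.map xz).map constantCoeff).map ρ := fun hαβ => by
    rw [fg_map_map H, fg_map_map H, fg_map_map H, fg_map_map H]
    congr 1
    ext1 f
    have := congrArg constantCoeff (DFunLike.congr_fun hαβ f)
    rw [RingHom.comp_apply, hα0] at this
    exact this
  have hcc := hcc hαβ
  have hcmp : ∀ y, α (cov' y).1 = MvPowerSeries.map ρ (cov y).1 := by
    have hd : IsDef (Ideal.span {mk π'}) :=
      ⟨small_span_singleton (hmkN _ hπ'), 1, by rw [pow_one]; exact bot_le⟩
    have hmem : ∀ a ∈ Ideal.span {π'}, mk a ∈ Ideal.span {mk π'} := fun a ha => by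
      obtain ⟨d, rfl⟩ := Ideal.mem_span_singleton'.1 ha
      rw [map_mul]
      exact Ideal.mul_mem_left _ _ (Ideal.mem_span_singleton_self _)
    have := addHom_ext_of_div (div_M S.hΓ ι).2
      (isDef_comap (σ := {j : Fin (n - 1) // h ≤ j + 1}) hd).1
      (by rw [Ideal.mem_comap, map_natCast, ← map_natCast mk]; exact hmem _ hpπ)
      ((Pt.map α hαN (fg_map_map H xz' α)).comp cov')
      ((Pt.map (MvPowerSeries.map ρ) hρN.map (by rw [fg_map_map, hαβ])).comp cov) fun y => by
        change constantCoeff (α (cov' y).1 - MvPowerSeries.map ρ (cov y).1) ∈ Ideal.span {mk π'}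
        rw [map_sub, hα0, constantCoeff_map]
        obtain ⟨y₀, hy₀⟩ := hmks (ρ y.1)
        have h3 := D.cov y
        rw [RingHom.comp_apply, ← hy₀, hmk, Ideal.Quotient.factor_mk, Ideal.Quotient.eq] at h3
        obtain ⟨d, hd⟩ := Ideal.mem_span_singleton'.1 (hcov y)
        have h4 : ρ (constantCoeff (cov y).1) - ρ y.1 ∈ Ideal.span {mk π'} := by
          rw [← map_sub, ← hd, map_mul, ← hπ₁]
          exact Ideal.mul_mem_left _ _ (hmem _ (hπm (some none)))
        have := Ideal.sub_mem _ (hmem _ h3) h4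
        rwa [map_sub, hy₀, sub_sub_sub_cancel_right] at this
    exact fun y => congrArg Pt.val (DFunLike.congr_fun this y)
  have hcmp0 : ∀ y, mk (constantCoeff (cov' y).1) = ρ (constantCoeff (cov y).1) := fun y => by
    rw [← hα0, hcmp, constantCoeff_map]
  -- the function `a`
  let B : Matrix {j : Fin (n - 1) // h ≤ j + 1} {j : Fin (n - 1) // h ≤ j + 1} E :=
    Matrix.of fun i j => b (some j.1) (y i)
  have hB : B.det ≠ 0 := by
    have hnorm : ∀ i j, ‖B i j - (coeff (Finsupp.single j.1 1) (cov' (y i)).1 : Ob E)‖ ≤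
        ‖(p : E)‖ := fun i j => norm_lgc_single_sub_le hp (cov' (y i))
      (Ideal.Quotient.eq_zero_iff_mem.1 (by rw [← hmk, hcmp0, hy0, map_zero])) j.1
    have hint : ∀ i j, B i j ∈ Ob E := fun i j => by
      have := (Ob E).add_mem (mem_Ob.2 ((hnorm i j).trans hp.le))
        (coeff (Finsupp.single j.1 1) (cov' (y i)).1).2
      rwa [sub_add_cancel] at this
    let B' : Matrix _ _ (Ob E) := Matrix.of fun i j => ⟨B i j, hint i j⟩
    have e1 : mk.mapMatrix B' = ρ.mapMatrix
        (Matrix.of fun i j => coeff (Finsupp.single j 1) (cov (y i)).1) := by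
      ext i j
      simp only [RingHom.mapMatrix_apply, Matrix.map_apply, Matrix.of_apply]
      rw [← coeff_map, ← hcmp, hα1, hmk, Ideal.Quotient.eq, mem_span_iff_norm]
      simpa [B'] using hnorm i j
    have e2 : (Ob E).subtype.mapMatrix B' = B := by
      ext i j
      rfl
    intro h0
    rw [← e2, ← RingHom.map_det] at h0
    have h3 : B'.det = 0 := Subtype.ext h0
    apply hdet
    rw [RingHom.map_det, ← e1, ← RingHom.map_det, h3, map_zero]
  let a₀ : Pt (Γ.map ι) →+ E := ∑ j, (B⁻¹.mulVec (Pi.single s 1)) j • b (some j.1)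
  have ha₀ : ∀ i, a₀ (y i) = Pi.single (M := fun _ => E) s 1 i := fun i => by
    have : B.mulVec (B⁻¹.mulVec (Pi.single s 1)) = Pi.single s 1 := by
      rw [Matrix.mulVec_mulVec, Matrix.mul_nonsing_inv _ (Ne.isUnit hB), Matrix.one_mulVec]
    rw [← this, comb_apply]
    exact Finset.sum_congr rfl fun j _ => mul_comm _ _
  -- the logarithm of the canonical lift
  have hHκ : (F.map (toCharP p (Ob K))).map ρ = (F.map κ).map mk := by
    rw [fg_map_map, fg_map_map]
    congr 1
    refine padic_hom_ext ?_ _ _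
    rw [← map_natCast ρ, hp0, map_zero]
  obtain ⟨πH, hπH⟩ := exists_cover hdefp (Ideal.mem_span_singleton_self _)
    (F.map (toCharP p (Ob K))) (nsmul_bijective hHh) ρ hρ.nil (F.map κ) hHκ
  have hA : ∀ {ψ : PowerSeries (Ob K)}
      (hψ : IsFGHom (F.map (toCharP p (Ob K))) (F.map (toCharP p (Ob K))) ψ),
      (lg hp (F.map κ)).comp (πH.comp ((Pt.hom hψ).comp T)) ∈
        Submodule.span E (Set.range b) := fun {ψ} hψ => by
    have h3 := IsFGHom.map (IsFGHom.comp hψ hτ) ρ
    obtain ⟨Q, hQ0, hQ⟩ := exists_series_lift hmks h3.1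
    refine D.lg_mem_span hp (F.map κ) hpN (Ideal.mem_span_singleton_self _) hQ0
      (by rw [← hmk, hcc, ← hHκ, hQ]; exact h3) _ fun y => ?_
    have hc' : constantCoeff (cov' y).1 ∈ Nil (Ob E) := mem_Nil_mv.1 (cov' y).2
    have hc : constantCoeff (cov y).1 ∈ Nil (Ob K) := mem_Nil_mv.1 (cov y).2
    rw [← Ideal.Quotient.eq, AddMonoidHom.comp_apply, hπH, ← hmk, map_ev1 mk hc' (hmkN _ hc'), hQ,
      hcmp0, ← map_ev1 ρ hc (hρN _ hc), AddMonoidHom.comp_apply, Pt.hom_val, hT,
      ev1_subst hc (PowerSeries.HasSubst.of_constantCoeff_zero' hτ.1)]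
  let A₁ : Pt (Γ.map ι) →+ E := (lg hp (F.map κ)).comp (πH.comp T)
  have hA₁ : A₁ ∈ Submodule.span E (Set.range b) := by
    have := hA (isFGHom_X _)
    convert this using 3
    ext y
    rw [AddMonoidHom.comp_apply, Pt.hom_val, ev1_X (T y).2]
  have hw := hQ _ (fun i => (lg hp (F.map κ)).comp (πH.comp ((Pt.hom (hφ i)).comp T)) -
      (if i = s then (p : E) ^ N else 0) • A₁) y s a₀
    (fun i => Submodule.sub_mem _ (hA _) (Submodule.smul_mem _ _ hA₁))
    (Submodule.sum_mem _ fun j _ => Submodule.smul_mem _ _ (Submodule.subset_span ⟨_, rfl⟩))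
    (by rw [ha₀]; simp) (fun i hi => by rw [ha₀]; simp [hi])
    (fun e he => by
      have h3 := congrArg (fun t => lg hp (F.map κ) (πH t)) (hrel e he)
      simp only [map_nsmul, map_sum, nsmul_eq_mul, Nat.cast_pow] at h3
      simp only [AddMonoidHom.sub_apply, AddMonoidHom.comp_apply, AddMonoidHom.smul_apply,
        Finset.sum_sub_distrib, smul_eq_mul, ite_mul, zero_mul, Finset.sum_ite_eq',
        Finset.mem_univ, if_true, A₁]
      rw [← h3, sub_self])
  obtain ⟨_, ⟨u, rfl⟩, hu⟩ := exists_lg_ne_zero hp (G := F.map κ) (d := p ^ h)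
    (by
      rw [hF.mulSeries_map, map_add, PowerSeries.coeff_X_pow_self, add_comm]
      refine isUnit_one_add ?_
      rw [PowerSeries.coeff_C_mul]
      exact Ideal.mul_mem_right _ _ hpN) hpN (Set.range πH)
    (fun a ha => by
      obtain ⟨u, hu⟩ := hρ.surj (mk a)
      have huN : u ∈ Nil (Ob K) := by
        refine (isUnit_or_mem_Nil u).resolve_left fun hu' => ?_
        obtain ⟨k, hk⟩ := hdefp.isNilpotent_mk ha
        rw [← hmk, ← hu] at hk
        have h4 : IsUnit (0 : Ob E ⧸ Ideal.span {(p : Ob E)}) := hk ▸ (hu'.map ρ).pow k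
        have h5 : (1 : Ob E) ∈ Nil (Ob E) := mem_Nil_of_mk hpN
          ⟨1, by rw [map_one, pow_one]; exact (isUnit_zero_iff.1 h4).symm⟩
        simpa using mem_Nil_Ob.1 h5
      exact ⟨_, ⟨⟨u, huN⟩, rfl⟩, Ideal.Quotient.eq.1 ((hπH _).trans hu)⟩)
  obtain ⟨y₁, rfl⟩ := hTs u
  have h3 := DFunLike.congr_fun hw y₁
  have h4 : Pt.hom (hφ s) (T y₁) = 0 := Pt.ext (by rw [Pt.hom_val, hφs, ev1_zero]; rfl)
  simp only [AddMonoidHom.sub_apply, AddMonoidHom.comp_apply, AddMonoidHom.smul_apply, h4, map_zero,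
    if_true, zero_sub, AddMonoidHom.zero_apply, neg_eq_zero, smul_eq_mul, A₁] at h3
  exact mul_ne_zero (pow_ne_zero _ (Nat.cast_ne_zero.2 (Fact.out : p.Prime).ne_zero)) hu h3

end Crest.Agent.R227
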