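import Crest.Agent.R227.Adic

/-!
Row 227 (S0351), module `Norm`: the unit ball of a complete algebraically closed ultrametric field
as an adic ring; norms of evaluations, identity theorems, zeros of one-variable series.
-/

set_option autoImplicit false
set_option linter.unusedSectionVars false
set_option linter.style.haveILetI false

namespace Crest.Agent.R227

open MvPowerSeries Filter Topology

/-- Complete, algebraically closed, ultrametric fields. -/
class VF (K : Type*) [NontriviallyNormedField K] : Prop extends IsUltrametricDist K,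
  CompleteSpace K, IsAlgClosed K

variable {K : Type*} [NontriviallyNormedField K] [VF K]

variable (K) in
/-- The closed unit ball. -/
def Ob : Subring K where
  carrier := {x | ‖x‖ ≤ 1}
  mul_mem' {a b} ha hb := by
    change ‖a * b‖ ≤ 1
    rw [norm_mul]
    exact mul_le_one₀ ha (norm_nonneg _) hb
  one_mem' := norm_one.le
  add_mem' {a b} ha hb := (IsUltrametricDist.norm_add_le_max a b).trans (max_le ha hb)
  zero_mem' := by simp
  neg_mem' {a} ha := by simpa using ha

theorem mem_Ob {x : K} : x ∈ Ob K ↔ ‖x‖ ≤ 1 := Iff.rfl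

theorem norm_Ob_le (x : Ob K) : ‖(x : K)‖ ≤ 1 := x.2

variable (K) in
/-- A pseudo-uniformizer. -/
noncomputable def unif : Ob K :=
  ⟨(NormedField.exists_norm_lt_one K).choose, (NormedField.exists_norm_lt_one K).choose_spec.2.le⟩

theorem norm_unif_pos : 0 < ‖(unif K : K)‖ := (NormedField.exists_norm_lt_one K).choose_spec.1

theorem norm_unif_lt : ‖(unif K : K)‖ < 1 := (NormedField.exists_norm_lt_one K).choose_spec.2

theorem mem_span_iff_norm {a x : Ob K} : x ∈ Ideal.span {a} ↔ ‖(x : K)‖ ≤ ‖(a : K)‖ := by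
  rw [Ideal.mem_span_singleton']
  constructor
  · rintro ⟨c, rfl⟩
    rw [Subring.coe_mul, norm_mul]
    exact mul_le_of_le_one_left (norm_nonneg _) c.2
  · intro h
    by_cases ha : (a : K) = 0
    · rw [ha, norm_zero, norm_le_zero_iff] at h
      exact ⟨0, Subtype.ext (by simp [h])⟩
    · refine ⟨⟨(x : K) / a, ?_⟩, Subtype.ext ?_⟩
      · rw [mem_Ob, norm_div]
        exact div_le_one_of_le₀ h (norm_nonneg _)
      · simp [ha]

theorem mem_span_pow_iff_norm {a x : Ob K} {k : ℕ} :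
    x ∈ Ideal.span {a} ^ k ↔ ‖(x : K)‖ ≤ ‖(a : K)‖ ^ k := by
  rw [Ideal.span_singleton_pow, mem_span_iff_norm, Subring.coe_pow, norm_pow]

theorem isAdicComplete_unif : IsAdicComplete (Ideal.span {unif K}) (Ob K) := by
  have ht : Tendsto (fun k : ℕ => ‖(unif K : K)‖ ^ k) atTop (𝓝 0) :=
    tendsto_pow_atTop_nhds_zero_of_lt_one (norm_nonneg _) norm_unif_lt
  refine { haus' := fun x hx => ?_, prec' := fun f hf => ?_ }
  · have h1 : ∀ k : ℕ, ‖(x : K)‖ ≤ ‖(unif K : K)‖ ^ k := fun k => by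
      have := hx k
      rwa [SModEq.zero, smul_eq_mul, Ideal.mul_top, mem_span_pow_iff_norm] at this
    exact Subtype.ext (norm_le_zero_iff.1 (ge_of_tendsto' ht h1))
  · have h1 : ∀ m n, m ≤ n → ‖(f m : K) - f n‖ ≤ ‖(unif K : K)‖ ^ m := fun m n h => by
      have := hf h
      rwa [SModEq.sub_mem, smul_eq_mul, Ideal.mul_top, mem_span_pow_iff_norm] at this
    have hc : CauchySeq fun n => (f n : K) :=
      cauchySeq_of_le_tendsto_0' _ (fun n m h => by rw [dist_eq_norm]; exact h1 n m h) ht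
    obtain ⟨L, hL⟩ := cauchySeq_tendsto_of_complete hc
    refine ⟨⟨L, le_of_tendsto' hL.norm fun n => (f n).2⟩, fun n => ?_⟩
    rw [SModEq.sub_mem, smul_eq_mul, Ideal.mul_top, mem_span_pow_iff_norm]
    exact le_of_tendsto (hL.const_sub (f n : K)).norm (eventually_atTop.2 ⟨n, fun m h => h1 n m h⟩)

noncomputable instance instAdicOb : Adic (Ob K) := ⟨Ideal.span {unif K}, isAdicComplete_unif⟩

theorem mem_idl_pow_Ob {x : Ob K} {k : ℕ} :
    x ∈ idl (Ob K) ^ k ↔ ‖(x : K)‖ ≤ ‖(unif K : K)‖ ^ k := mem_span_pow_iff_norm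

theorem mem_Nil_Ob {x : Ob K} : x ∈ Nil (Ob K) ↔ ‖(x : K)‖ < 1 := by
  rw [mem_Nil_iff]
  constructor
  · rintro ⟨k, hk⟩
    have h1 := mem_span_iff_norm.1 hk
    rw [Subring.coe_pow, norm_pow] at h1
    by_contra h2
    exact absurd (h1.trans_lt norm_unif_lt) (not_lt.2 (one_le_pow₀ (not_lt.1 h2)))
  · intro h
    obtain ⟨k, hk⟩ := exists_pow_lt_of_lt_one (norm_unif_pos (K := K)) h
    exact ⟨k, mem_span_iff_norm.2 (by rw [Subring.coe_pow, norm_pow]; exact hk.le)⟩

theorem isUnit_Ob {x : Ob K} : IsUnit x ↔ ‖(x : K)‖ = 1 := by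
  rw [← Ideal.span_singleton_eq_top, Ideal.eq_top_iff_one, mem_span_iff_norm, Subring.coe_one,
    norm_one]
  exact ⟨fun h => le_antisymm x.2 h, fun h => h.ge⟩

theorem isUnit_or_mem_Nil (x : Ob K) : IsUnit x ∨ x ∈ Nil (Ob K) := by
  rw [isUnit_Ob, mem_Nil_Ob]
  exact (norm_Ob_le x).eq_or_lt

variable (K) in
/-- The ideal of elements of norm at most `r`. -/
def ball (r : ℝ) : Ideal (Ob K) where
  carrier := {x | ‖(x : K)‖ ≤ max r 0}
  add_mem' {a b} ha hb := (IsUltrametricDist.norm_add_le_max (a : K) b).trans (max_le ha hb)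
  zero_mem' := by simp
  smul_mem' c a ha := by
    change ‖(c : K) * a‖ ≤ _
    rw [norm_mul]
    exact (mul_le_of_le_one_left (norm_nonneg _) c.2).trans ha

theorem mem_ball {r : ℝ} (hr : 0 ≤ r) {x : Ob K} : x ∈ ball K r ↔ ‖(x : K)‖ ≤ r := by
  change ‖(x : K)‖ ≤ max r 0 ↔ _
  rw [max_eq_left hr]

theorem closed_ball (r : ℝ) : Closed (ball K r) := by
  intro x hx
  have ht : Tendsto (fun k : ℕ => max (max r 0) (‖(unif K : K)‖ ^ k)) atTop
      (𝓝 (max (max r 0) 0)) :=
    tendsto_const_nhds.max (tendsto_pow_atTop_nhds_zero_of_lt_one (norm_nonneg _) norm_unif_lt)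
  rw [max_eq_left (le_max_right r 0)] at ht
  refine ge_of_tendsto' ht fun k => ?_
  obtain ⟨b, hb, e, he, h⟩ := Submodule.mem_sup.1 (hx k)
  rw [← h]
  exact (IsUltrametricDist.norm_add_le_max (b : K) e).trans (max_le_max hb (mem_idl_pow_Ob.1 he))

theorem span_eq_ball (a : Ob K) : Ideal.span {a} = ball K ‖(a : K)‖ := by
  ext x
  rw [mem_span_iff_norm, mem_ball (norm_nonneg _)]

theorem closed_span_Ob (a : Ob K) : Closed (Ideal.span {a}) := by
  rw [span_eq_ball]
  exact closed_ball _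

theorem isDef_span_Ob {a : Ob K} (h0 : a ≠ 0) (ha : a ∈ Nil (Ob K)) : IsDef (Ideal.span {a}) := by
  refine ⟨small_span_singleton ha, ?_⟩
  have h1 : 0 < ‖(a : K)‖ := norm_pos_iff.2 fun h => h0 (Subtype.ext h)
  obtain ⟨k, hk⟩ := exists_pow_lt_of_lt_one h1 (norm_unif_lt (K := K))
  exact ⟨k, fun x hx => mem_span_iff_norm.2 ((mem_idl_pow_Ob.1 hx).trans hk.le)⟩

/-- Powers of a topologically nilpotent element are divisible by any nonzero element. -/
theorem exists_pow_mem_span {a b : Ob K} (ha : a ∈ Nil (Ob K)) (hb : b ≠ 0) :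
    ∃ k : ℕ, a ^ k ∈ Ideal.span {b} := by
  have h1 : 0 < ‖(b : K)‖ := norm_pos_iff.2 fun h => hb (Subtype.ext h)
  obtain ⟨k, hk⟩ := exists_pow_lt_of_lt_one h1 (mem_Nil_Ob.1 ha)
  exact ⟨k, mem_span_iff_norm.2 (by rw [Subring.coe_pow, norm_pow]; exact hk.le)⟩

/-- A finitely generated ideal of topologically nilpotent elements lies in a principal one. -/
theorem exists_le_span_of_fg {𝔞 : Ideal (Ob K)} (hfg : 𝔞.FG) (h : 𝔞 ≤ Nil (Ob K)) :
    ∃ π : Ob K, π ≠ 0 ∧ π ∈ Nil (Ob K) ∧ 𝔞 ≤ Ideal.span {π} := by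
  classical
  obtain ⟨s, rfl⟩ := hfg
  obtain ⟨π, hπ, hmax⟩ := (insert (unif K) s).exists_max_image (fun x => ‖(x : K)‖)
    (Finset.insert_nonempty _ _)
  refine ⟨π, fun h0 => ?_, ?_, Ideal.span_le.2 fun x hx => ?_⟩
  · have := hmax _ (Finset.mem_insert_self _ _)
    rw [h0, Subring.coe_zero, norm_zero] at this
    exact absurd norm_unif_pos (not_lt.2 this)
  · rcases Finset.mem_insert.1 hπ with h1 | h1
    · rw [h1, mem_Nil_Ob]
      exact norm_unif_lt
    · exact h (Ideal.subset_span h1)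
  · exact mem_span_iff_norm.2 (hmax x (Finset.mem_insert_of_mem hx))

theorem norm_le_of_mem_pow {𝔞 : Ideal (Ob K)} {ρ : ℝ} (hρ : 0 ≤ ρ)
    (h : ∀ a ∈ 𝔞, ‖(a : K)‖ ≤ ρ) {N : ℕ} {x : Ob K} (hx : x ∈ 𝔞 ^ N) : ‖(x : K)‖ ≤ ρ ^ N := by
  induction N generalizing x with
  | zero => rw [pow_zero]; exact x.2
  | succ N ih =>
    rw [pow_succ] at hx
    refine Submodule.mul_induction_on hx (fun a ha b hb => ?_) (fun a b ha hb => ?_)
    · rw [Subring.coe_mul, norm_mul, pow_succ]
      exact mul_le_mul (ih ha) (h b hb) (norm_nonneg _) (pow_nonneg hρ _)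
    · exact (IsUltrametricDist.norm_add_le_max (a : K) b).trans (max_le ha hb)

theorem norm_le_of_mem_span_range {σ : Type*} {a : σ → Ob K} {ρ : ℝ} (hρ : 0 ≤ ρ)
    (h : ∀ i, ‖(a i : K)‖ ≤ ρ) {N : ℕ} {x : Ob K} (hx : x ∈ Ideal.span (Set.range a) ^ N) :
    ‖(x : K)‖ ≤ ρ ^ N := by
  refine norm_le_of_mem_pow hρ (fun b hb => ?_) hx
  have : Ideal.span (Set.range a) ≤ ball K ρ :=
    Ideal.span_le.2 (by rintro _ ⟨i, rfl⟩; exact (mem_ball hρ).2 (h i))
  exact (mem_ball hρ).1 (this hb)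

theorem exists_pow_eq_Ob (x : Ob K) {m : ℕ} (hm : m ≠ 0) : ∃ y : Ob K, y ^ m = x := by
  obtain ⟨y, hy⟩ := IsAlgClosed.exists_pow_nat_eq (x : K) (Nat.pos_of_ne_zero hm)
  refine ⟨⟨y, ?_⟩, Subtype.ext hy⟩
  rw [mem_Ob, ← pow_le_one_iff_of_nonneg (norm_nonneg _) hm, ← norm_pow, hy]
  exact x.2

instance perfectRing_Ob (p : ℕ) [Fact p.Prime] [CharP K p] : PerfectRing (Ob K) p := by
  refine PerfectRing.ofSurjective _ p fun x => ?_
  obtain ⟨y, hy⟩ := exists_pow_eq_Ob x (Fact.out : p.Prime).ne_zero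
  exact ⟨y, hy⟩

theorem isUnit_inv_aux {x : K} (hx : IsIntegral (Ob K) x) (h0 : x ≠ 0) (y : Ob K)
    (hy : (y : K) = x⁻¹) : IsUnit y := by
  obtain ⟨P, hP, h⟩ := hx
  have h1 : (P.reverse.eval y : Ob K) = 0 := by
    letI : Invertible x := invertibleOfNonzero h0
    have h2 := Polynomial.eval₂_reverse_eq_zero_iff (algebraMap (Ob K) K) x P
    rw [invOf_eq_inv, ← hy] at h2
    have h3 := h2.2 h
    have h4 : (y : K) = algebraMap (Ob K) K y := rfl
    rw [h4, Polynomial.eval₂_at_apply] at h3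
    exact Subtype.ext h3
  have h5 := Polynomial.X_mul_divX_add P.reverse
  rw [Polynomial.coeff_zero_reverse, hP.leadingCoeff] at h5
  rw [← h5, Polynomial.eval_add, Polynomial.eval_mul, Polynomial.eval_X, Polynomial.eval_C] at h1
  exact IsUnit.of_mul_eq_one (-(P.reverse.divX.eval y)) (by linear_combination -h1)

/-- A root of a monic polynomial over `Ob K` lies in `Ob K`. -/
theorem norm_le_one_of_isIntegral {x : K} (hx : IsIntegral (Ob K) x) : ‖x‖ ≤ 1 := by
  by_contra h
  have h1 : x ≠ 0 := by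
    rintro rfl
    simp at h
  have h2 : ‖x⁻¹‖ < 1 := by
    rw [norm_inv]
    exact inv_lt_one_of_one_lt₀ (not_le.1 h)
  have h3 := isUnit_inv_aux hx h1 (⟨x⁻¹, h2.le⟩ : Ob K) rfl
  exact absurd (isUnit_Ob.1 h3) h2.ne

theorem monic_list_prod_aux {R : Type*} [CommRing R] (l : List R) :
    (l.map fun c => Polynomial.X - Polynomial.C c).prod.Monic := by
  induction l with
  | nil => simp
  | cons c l ih =>
    rw [List.map_cons, List.prod_cons]
    exact (Polynomial.monic_X_sub_C c).mul ih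

/-- The residue field is infinite. -/
theorem exists_infinite_units : ∃ c : ℕ → Ob K, ∀ i j, i ≠ j → IsUnit (c i - c j) := by
  classical
  have step : ∀ l : List (Ob K), ∃ y : Ob K, ∀ c ∈ l, IsUnit (y - c) := by
    intro l
    let P : Polynomial (Ob K) := Polynomial.X * (l.map fun c => Polynomial.X - Polynomial.C c).prod
    have hP : P.Monic := Polynomial.monic_X.mul (monic_list_prod_aux l)
    have hdeg : 0 < P.natDegree := by
      rw [Polynomial.monic_X.natDegree_mul (monic_list_prod_aux l), Polynomial.natDegree_X]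
      omega
    have hQ : (P - 1).Monic := by
      refine hP.sub_of_left ?_
      rw [Polynomial.degree_one]
      exact Polynomial.natDegree_pos_iff_degree_pos.1 hdeg
    have hQd : (P - 1).degree ≠ 0 := by
      rw [Polynomial.degree_sub_eq_left_of_degree_lt]
      · exact (Polynomial.natDegree_pos_iff_degree_pos.1 hdeg).ne'
      · rw [Polynomial.degree_one]
        exact Polynomial.natDegree_pos_iff_degree_pos.1 hdeg
    obtain ⟨y, hy⟩ := IsAlgClosed.exists_eval₂_eq_zero_of_injective (algebraMap (Ob K) K)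
      Subtype.val_injective (P - 1) hQd
    let y' : Ob K := ⟨y, norm_le_one_of_isIntegral ⟨_, hQ, hy⟩⟩
    have h4 : y = algebraMap (Ob K) K y' := rfl
    rw [h4, Polynomial.eval₂_at_apply] at hy
    have h5 : (P - 1).eval y' = 0 := Subtype.ext hy
    rw [Polynomial.eval_sub, Polynomial.eval_one, sub_eq_zero, Polynomial.eval_mul,
      Polynomial.eval_list_prod, List.map_map] at h5
    refine ⟨y', fun c hc => ?_⟩
    have h6 : IsUnit (l.map (Polynomial.eval y' ∘ fun c => Polynomial.X - Polynomial.C c)).prod :=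
      IsUnit.of_mul_eq_one_right _ h5
    have := List.prod_isUnit_iff.1 h6 _ (List.mem_map.2 ⟨c, hc, rfl⟩)
    simpa using this
  choose g hg using step
  let L : ℕ → List (Ob K) := fun n => Nat.rec [] (fun _ l => g l :: l) n
  have hL : ∀ n, L (n + 1) = g (L n) :: L n := fun n => rfl
  have hmem : ∀ i j, i < j → g (L i) ∈ L j := by
    intro i j hij
    induction j, hij using Nat.le_induction with
    | base => rw [hL]; exact List.mem_cons_self
    | succ j _ ih => rw [hL]; exact List.mem_cons_of_mem _ ih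
  refine ⟨fun n => g (L n), fun i j hij => ?_⟩
  rcases lt_or_gt_of_ne hij with h | h
  · rw [← neg_sub, IsUnit.neg_iff]
    exact hg _ _ (hmem i j h)
  · exact hg _ _ (hmem j i h)

section ev

variable {σ : Type*} [Finite σ]

theorem norm_ev_le {a : σ → Ob K} {ρ r : ℝ} (hρ0 : 0 ≤ ρ) (hρ : ρ < 1) (hr : 0 ≤ r)
    (ha : ∀ i, ‖(a i : K)‖ ≤ ρ) {F : MvPowerSeries σ (Ob K)}
    (hF : ∀ α : σ →₀ ℕ, ‖((coeff α F : Ob K) : K)‖ * ρ ^ α.degree ≤ r) :
    ‖((ev F a : Ob K) : K)‖ ≤ r := by
  have hN : ∀ i, a i ∈ Nil (Ob K) := fun i => mem_Nil_Ob.2 ((ha i).trans_lt hρ)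
  have ht : Tendsto (fun k : ℕ => max r (ρ ^ k)) atTop (𝓝 (max r 0)) :=
    tendsto_const_nhds.max (tendsto_pow_atTop_nhds_zero_of_lt_one hρ0 hρ)
  rw [max_eq_left hr] at ht
  refine ge_of_tendsto' ht fun N => ?_
  have h1 := norm_le_of_mem_span_range hρ0 ha (ev_sub_trunc_mem hN N F)
  have h2 : MvPolynomial.eval a (truncTotal N F) ∈ ball K r := by
    rw [MvPolynomial.eval_eq]
    refine Ideal.sum_mem _ fun α _ => ?_
    rw [coeff_truncTotal_eq_ite]
    split_ifs
    · rw [mem_ball hr, Subring.coe_mul, norm_mul]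
      refine le_trans (mul_le_mul_of_nonneg_left ?_ (norm_nonneg _)) (hF α)
      rw [SubmonoidClass.coe_finsetProd, norm_prod, Finsupp.degree_apply,
        ← Finset.prod_pow_eq_pow_sum]
      refine Finset.prod_le_prod (fun i _ => norm_nonneg _) fun i _ => ?_
      rw [Subring.coe_pow, norm_pow]
      exact pow_le_pow_left₀ (norm_nonneg _) (ha i) _
    · rw [zero_mul]
      exact Ideal.zero_mem _
  have e : ev F a = MvPolynomial.eval a (truncTotal N F) +
      (ev F a - MvPolynomial.eval a (truncTotal N F)) := by ring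
  rw [e, Subring.coe_add]
  exact (IsUltrametricDist.norm_add_le_max _ _).trans (max_le_max ((mem_ball hr).1 h2) h1)

/-- The lowest homogeneous part of a nonzero series vanishes at tangent directions of zeros. -/
theorem exists_lowest {F : MvPowerSeries σ (Ob K)} (hF : F ≠ 0) :
    ∃ P : MvPolynomial σ K, P ≠ 0 ∧ ∀ (v : σ → K) (t : ℕ → K) (z : ℕ → σ → Ob K),
      (∀ m, t m ≠ 0) → Tendsto t atTop (𝓝 0) →
      (∀ i, Tendsto (fun m => (z m i : K) / t m) atTop (𝓝 (v i))) →
      (∀ᶠ m in atTop, ev F (z m) = 0) → MvPolynomial.eval v P = 0 := by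
  classical
  cases nonempty_fintype σ
  have hex : ∃ d : ℕ, ∃ α : σ →₀ ℕ, α.degree = d ∧ coeff α F ≠ 0 := by
    by_contra h
    push Not at h
    exact hF (MvPowerSeries.ext fun α => h _ α rfl)
  obtain ⟨α₀, hα₀, hα₀'⟩ := Nat.find_spec hex
  set d := Nat.find hex with hd
  have hmin : ∀ α : σ →₀ ℕ, α.degree < d → coeff α F = 0 := fun α hα => by
    by_contra h
    exact Nat.find_min hex hα ⟨α, rfl, h⟩
  set Q := truncTotal (d + 1) F with hQ
  have hQd : ∀ α ∈ Q.support, α.degree = d := fun α hα => by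
    rw [MvPolynomial.mem_support_iff, hQ, coeff_truncTotal_eq_ite] at hα
    split_ifs at hα with h1
    · by_contra h2
      exact hα (hmin α (by omega))
    · exact absurd rfl hα
  refine ⟨MvPolynomial.map (Ob K).subtype Q, fun h => ?_, fun v t z ht0 ht hz hev => ?_⟩
  · have := congrArg (MvPolynomial.coeff α₀) h
    rw [MvPolynomial.coeff_map, hQ, coeff_truncTotal _ (by omega), MvPolynomial.coeff_zero] at this
    exact hα₀' (Subtype.ext this)
  have hhom : ∀ m, ((MvPolynomial.eval (z m) Q : Ob K) : K) = t m ^ d *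
      MvPolynomial.eval (fun i => (z m i : K) / t m) (MvPolynomial.map (Ob K).subtype Q) := by
    intro m
    rw [MvPolynomial.eval_map, MvPolynomial.eval₂_eq, MvPolynomial.eval_eq, Finset.mul_sum,
      AddSubmonoidClass.coe_finsetSum]
    refine Finset.sum_congr rfl fun α hα => ?_
    rw [← hQd α hα, Finsupp.degree_apply, ← Finset.prod_pow_eq_pow_sum, mul_left_comm,
      ← Finset.prod_mul_distrib, Subring.coe_mul, SubmonoidClass.coe_finsetProd]
    congr 1
    refine Finset.prod_congr rfl fun i _ => ?_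
    rw [← mul_pow, mul_div_cancel₀ _ (ht0 m), Subring.coe_pow]
  have hlim : Tendsto (fun m => MvPolynomial.eval (fun i => (z m i : K) / t m)
      (MvPolynomial.map (Ob K).subtype Q)) atTop
      (𝓝 (MvPolynomial.eval v (MvPolynomial.map (Ob K).subtype Q))) :=
    ((MvPolynomial.continuous_eval _).tendsto v).comp (tendsto_pi_nhds.2 hz)
  refine tendsto_nhds_unique hlim ?_
  set B : ℝ := ‖v‖ + 1 with hB
  have hB0 : 0 < B := by positivity
  have h1 : ∀ᶠ m in atTop, ∀ i, ‖(z m i : K) / t m‖ < B :=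
    eventually_all.2 fun i => (hz i).norm.eventually
      (gt_mem_nhds ((norm_le_pi_norm v i).trans_lt (lt_add_one _)))
  have h2 : Tendsto (fun m => ‖t m‖ * B) atTop (𝓝 0) := by
    simpa using (tendsto_zero_iff_norm_tendsto_zero.1 ht).mul_const B
  have h3 : Tendsto (fun m => ‖t m‖ * B ^ (d + 1)) atTop (𝓝 0) := by
    simpa using (tendsto_zero_iff_norm_tendsto_zero.1 ht).mul_const (B ^ (d + 1))
  refine squeeze_zero_norm' ?_ h3
  filter_upwards [h1, h2.eventually (gt_mem_nhds one_pos), hev] with m hm1 hm2 hm3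
  have htp : 0 < ‖t m‖ := norm_pos_iff.2 (ht0 m)
  have h4 : ∀ i, ‖(z m i : K)‖ ≤ ‖t m‖ * B := fun i => by
    have := hm1 i
    rw [norm_div, div_lt_iff₀ htp, mul_comm] at this
    exact this.le
  have hN : ∀ i, z m i ∈ Nil (Ob K) := fun i => mem_Nil_Ob.2 ((h4 i).trans_lt hm2)
  have h5 := norm_le_of_mem_span_range (by positivity) h4 (ev_sub_trunc_mem hN (d + 1) F)
  rw [hm3, zero_sub, Subring.coe_neg, norm_neg, ← hQ, hhom, norm_mul, norm_pow, mul_pow,
    pow_succ, mul_assoc] at h5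
  exact le_of_mul_le_mul_left h5 (pow_pos htp d)

/-- Identity theorem: a series that vanishes at all small points is zero. -/
theorem eq_zero_of_ev_eq_zero {F : MvPowerSeries σ (Ob K)} {ε : ℝ} (hε : 0 < ε)
    (h : ∀ a : σ → Ob K, (∀ i, a i ∈ Nil (Ob K)) → (∀ i, ‖(a i : K)‖ ≤ ε) → ev F a = 0) :
    F = 0 := by
  by_contra hF
  obtain ⟨P, hP, hP'⟩ := exists_lowest hF
  have ht : Tendsto (fun k : ℕ => (unif K : K) ^ k) atTop (𝓝 0) :=
    tendsto_pow_atTop_nhds_zero_of_norm_lt_one norm_unif_lt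
  have h0 : (unif K : K) ≠ 0 := norm_pos_iff.1 norm_unif_pos
  have hinf : Set.Infinite (Ob K : Set K) := by
    refine Set.infinite_of_injective_forall_mem (f := fun k : ℕ => (unif K : K) ^ k) ?_
      fun k => ((unif K) ^ k).2
    intro i j hij
    have := congrArg norm hij
    simp only [norm_pow] at this
    exact pow_right_injective₀ norm_unif_pos norm_unif_lt.ne this
  refine hP (MvPolynomial.funext_set (fun _ => (Ob K : Set K)) (fun _ => hinf) fun v hv => ?_)
  rw [map_zero]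
  refine hP' v (fun k => (unif K : K) ^ k) (fun k i => unif K ^ k * ⟨v i, hv i trivial⟩)
    (fun k => pow_ne_zero _ h0) ht (fun i => ?_) ?_
  · refine tendsto_const_nhds.congr fun k => ?_
    simp [h0]
  · have h1 : ∀ᶠ k : ℕ in atTop, ‖(unif K : K) ^ k‖ < min ε 1 :=
      (tendsto_zero_iff_norm_tendsto_zero.1 ht).eventually (gt_mem_nhds (lt_min hε one_pos))
    filter_upwards [h1] with k hk
    have h2 : ∀ i, ‖((unif K ^ k * ⟨v i, hv i trivial⟩ : Ob K) : K)‖ < min ε 1 := fun i => by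
      rw [Subring.coe_mul, norm_mul]
      exact (mul_le_of_le_one_right (norm_nonneg _) (hv i trivial)).trans_lt hk
    exact h _ (fun i => mem_Nil_Ob.2 ((h2 i).trans_le (min_le_right _ _)))
      fun i => (h2 i).le.trans (min_le_left _ _)

/-- A series whose zeros have a spanning additive monoid of tangent directions is zero. -/
theorem eq_zero_of_tangent [CharZero K] {F : MvPowerSeries σ (Ob K)} (V : AddSubmonoid (σ → K))
    (hV : Submodule.span K (V : Set (σ → K)) = ⊤)
    (h : ∀ v ∈ V, ∃ (t : ℕ → K) (z : ℕ → σ → Ob K), (∀ m, t m ≠ 0) ∧ Tendsto t atTop (𝓝 0) ∧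
      (∀ i, Tendsto (fun m => (z m i : K) / t m) atTop (𝓝 (v i))) ∧
      ∀ᶠ m in atTop, ev F (z m) = 0) : F = 0 := by
  by_contra hF
  obtain ⟨P, hP, hP'⟩ := exists_lowest hF
  have h0 : ∀ v ∈ V, MvPolynomial.eval v P = 0 := fun v hv => by
    obtain ⟨t, z, h1, h2, h3, h4⟩ := h v hv
    exact hP' v t z h1 h2 h3 h4
  let S : Set (σ → K) := {w | ∀ v ∈ V, MvPolynomial.eval (w + v) P = 0}
  have key : ∀ x ∈ Submodule.span K (V : Set (σ → K)), ∀ c : K, ∀ w ∈ S, w + c • x ∈ S := by
    intro x hx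
    induction hx using Submodule.span_induction with
    | mem u hu =>
      intro c w hw v hv
      let q : Polynomial K := MvPolynomial.aeval
        (fun i => Polynomial.C (w i + v i) + Polynomial.X * Polynomial.C (u i)) P
      have hq : ∀ c : K, q.eval c = MvPolynomial.eval (w + c • u + v) P := fun c => by
        rw [← Polynomial.coe_aeval_eq_eval, MvPolynomial.comp_aeval_apply]
        change MvPolynomial.eval _ P = _
        congr 2
        funext i
        simp
        ring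
      have hq0 : q = 0 := by
        refine Polynomial.eq_zero_of_infinite_isRoot q
          (Set.infinite_of_injective_forall_mem (f := fun n : ℕ => (n : K)) Nat.cast_injective
            fun n => ?_)
        change q.eval (n : K) = 0
        rw [hq, add_assoc, Nat.cast_smul_eq_nsmul]
        exact hw _ (V.add_mem (V.nsmul_mem hu n) hv)
      rw [← hq, hq0, Polynomial.eval_zero]
    | zero => intro c w hw; simpa using hw
    | add x y _ _ hx hy =>
      intro c w hw
      rw [smul_add, ← add_assoc]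
      exact hy c _ (hx c w hw)
    | smul a x _ hx =>
      intro c w hw
      rw [smul_smul]
      exact hx _ w hw
  refine hP (MvPolynomial.funext fun x => ?_)
  have := key x (by rw [hV]; trivial) 1 0 (fun v hv => by simpa using h0 v hv) 0 V.zero_mem
  simpa using this

end ev

theorem not_mem_Nil_of_isUnit {A : Type*} [CommRing A] [Adic A] [Nontrivial A] {u : A}
    (hu : IsUnit u) : u ∉ Nil A := fun h => by
  have := isUnit_one_add (Ideal.mul_mem_left _ (-(↑hu.unit⁻¹ : A)) h)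
  simp at this

/-- Weierstrass preparation over an adic ring. -/
theorem exists_weierstrass {A : Type*} [CommRing A] [Adic A] [Nontrivial A] (f : PowerSeries A)
    {d : ℕ} (hlt : ∀ i < d, PowerSeries.coeff i f ∈ Nil A)
    (hd : IsUnit (PowerSeries.coeff d f)) :
    ∃ (P : Polynomial A) (U : PowerSeries A), P.Monic ∧ P.natDegree = d ∧
      (∀ i < d, P.coeff i ∈ Nil A) ∧ IsUnit U ∧ f = (P : PowerSeries A) * U := by
  let I : Ideal A := idl A ⊔ Ideal.span (Set.range fun i : Fin d => PowerSeries.coeff i f)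
  have hs : Small I := small_idl.sup (small_span_range fun i => hlt i i.2)
  have hI : IsDef I := ⟨hs, 1, by rw [pow_one]; exact le_sup_left⟩
  haveI := hI.isAdicComplete
  have hI1 : ∀ u : A, IsUnit u → u ∉ I := fun u hu h => not_mem_Nil_of_isUnit hu (hs.le_Nil h)
  have hlt' : ∀ i < d, PowerSeries.coeff i f ∈ I := fun i hi =>
    Ideal.mem_sup_right (Ideal.subset_span ⟨⟨i, hi⟩, rfl⟩)
  have hord : (f.map (Ideal.Quotient.mk I)).order = d := by
    rw [PowerSeries.order_eq_nat]
    refine ⟨?_, fun i hi => ?_⟩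
    · rw [PowerSeries.coeff_map, Ne, Ideal.Quotient.eq_zero_iff_mem]
      exact hI1 _ hd
    · rw [PowerSeries.coeff_map, Ideal.Quotient.eq_zero_iff_mem]
      exact hlt' i hi
  have hord' : (f.map (Ideal.Quotient.mk I)).order.toNat = d := by rw [hord]; rfl
  have H : f.IsWeierstrassDivisorAt I := by
    rw [PowerSeries.IsWeierstrassDivisorAt, hord']
    exact hd
  have H1 := H.isWeierstrassDivisionAt_div_mod (PowerSeries.X ^ d)
  set q := H.div (PowerSeries.X ^ d)
  set r := H.mod (PowerSeries.X ^ d)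
  have hr : r.degree < d := hord' ▸ H1.degree_lt
  have hr' : r.degree < (Polynomial.X (R := A) ^ d).degree := by rwa [Polynomial.degree_X_pow]
  have hq : IsUnit q := by
    have h2 := congrArg (PowerSeries.coeff d) H1.eq_mul_add
    rw [PowerSeries.coeff_X_pow_self, map_add, Polynomial.coeff_coe,
      Polynomial.coeff_eq_zero_of_degree_lt hr, add_zero, PowerSeries.coeff_mul,
      ← Finset.add_sum_erase _ _ (a := (d, 0)) (by simp)] at h2
    have h3 : ∑ x ∈ (Finset.HasAntidiagonal.antidiagonal d).erase (d, 0),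
        PowerSeries.coeff x.1 f * PowerSeries.coeff x.2 q ∈ I := by
      refine Ideal.sum_mem _ fun x hx => Ideal.mul_mem_right _ _ (hlt' _ ?_)
      obtain ⟨h4, h5⟩ := Finset.mem_erase.1 hx
      rw [Finset.HasAntidiagonal.mem_antidiagonal] at h5
      by_contra h6
      exact h4 (Prod.ext (by simp; omega) (by simp; omega))
    have h4 : IsUnit (PowerSeries.coeff d f * PowerSeries.coeff 0 q) := by
      refine isUnit_of_sub_mem_Nil isUnit_one (hs.le_Nil ?_)
      rw [h2, sub_add_cancel_left]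
      exact neg_mem h3
    rw [PowerSeries.isUnit_iff_constantCoeff, ← PowerSeries.coeff_zero_eq_constantCoeff_apply]
    exact isUnit_of_mul_isUnit_right h4
  refine ⟨Polynomial.X ^ d - r, ↑hq.unit⁻¹, (Polynomial.monic_X_pow d).sub_of_left hr', ?_,
    fun i hi => ?_, Units.isUnit _, ?_⟩
  · rw [Polynomial.natDegree_eq_of_degree_eq (Polynomial.degree_sub_eq_left_of_degree_lt hr'),
      Polynomial.natDegree_X_pow]
  · have := H1.coeff_f_sub_r_mem (i := i) (by rwa [hord'])
    rw [map_sub, PowerSeries.coeff_X_pow, Polynomial.coeff_coe] at this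
    rw [Polynomial.coeff_sub, Polynomial.coeff_X_pow]
    exact hs.le_Nil this
  · rw [Polynomial.coe_sub, Polynomial.coe_pow, Polynomial.coe_X, H1.eq_mul_add,
      add_sub_cancel_right, mul_assoc, IsUnit.mul_val_inv, mul_one]

theorem exists_wdeg (f : PowerSeries (Ob K)) {d : ℕ} (hd : IsUnit (PowerSeries.coeff d f)) :
    ∃ d' ≤ d, (∀ i < d', PowerSeries.coeff i f ∈ Nil (Ob K)) ∧ IsUnit (PowerSeries.coeff d' f) := by
  classical
  have hex : ∃ d, IsUnit (PowerSeries.coeff d f) := ⟨d, hd⟩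
  exact ⟨Nat.find hex, Nat.find_min' hex hd,
    fun i hi => (isUnit_or_mem_Nil _).resolve_left (Nat.find_min hex hi), Nat.find_spec hex⟩

theorem ev1_eq_zero_iff {A : Type*} [CommRing A] [Adic A] {f U : PowerSeries A} {P : Polynomial A}
    (hU : IsUnit U) (hf : f = (P : PowerSeries A) * U) {t : A} (ht : t ∈ Nil A) :
    ev1 f t = 0 ↔ P.IsRoot t := by
  have h1 : IsUnit (ev1 U t) := by
    have := hU.map (evHom (fun _ : Unit => t) fun _ => ht)
    rwa [evHom_apply] at this
  rw [hf, ev1_mul, ev1_coe ht, h1.mul_left_eq_zero, Polynomial.IsRoot.def]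

theorem exists_root_Ob {P : Polynomial (Ob K)} (hP : P.Monic) (hd : P.natDegree ≠ 0) :
    ∃ y, P.IsRoot y := by
  obtain ⟨y, hy⟩ := IsAlgClosed.exists_eval₂_eq_zero_of_injective (algebraMap (Ob K) K)
    Subtype.val_injective P (Polynomial.natDegree_pos_iff_degree_pos.1 (Nat.pos_of_ne_zero hd)).ne'
  let y' : Ob K := ⟨y, norm_le_one_of_isIntegral ⟨_, hP, hy⟩⟩
  have h4 : y = algebraMap (Ob K) K y' := rfl
  rw [h4, Polynomial.eval₂_at_apply] at hy
  exact ⟨y', Subtype.ext hy⟩

theorem card_roots_Ob {P : Polynomial (Ob K)} (hP : P.Monic) : P.roots.card = P.natDegree := by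
  induction h : P.natDegree generalizing P with
  | zero => exact Nat.le_zero.1 (h ▸ Polynomial.card_roots' P)
  | succ n ih =>
    obtain ⟨y, hy⟩ := exists_root_Ob hP (by omega)
    obtain ⟨Q, rfl⟩ := Polynomial.dvd_iff_isRoot.2 hy
    have hQ : Q.Monic := (Polynomial.monic_X_sub_C y).of_mul_monic_left hP
    rw [(Polynomial.monic_X_sub_C y).natDegree_mul hQ, Polynomial.natDegree_X_sub_C] at h
    rw [Polynomial.roots_mul hP.ne_zero, Polynomial.roots_X_sub_C, Multiset.card_add,
      ih hQ (by omega), Multiset.card_singleton, add_comm]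

theorem root_mem_Nil {A : Type*} [CommRing A] [Adic A] {P : Polynomial A} (hP : P.Monic)
    (h : ∀ i < P.natDegree, P.coeff i ∈ Nil A) {y : A} (hy : P.IsRoot y) : y ∈ Nil A := by
  refine mem_Nil_of_pow (k := P.natDegree) ?_
  rw [Polynomial.IsRoot.def, Polynomial.eval_eq_sum_range, Finset.sum_range_succ,
    hP.coeff_natDegree, one_mul, add_comm, add_eq_zero_iff_eq_neg] at hy
  rw [hy]
  exact neg_mem (Ideal.sum_mem _ fun i hi => Ideal.mul_mem_right _ _ (h i (Finset.mem_range.1 hi)))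

theorem shift_mul {A : Type*} [CommRing A] [Adic A] (f g : PowerSeries A) (t : A) :
    shift (f * g) t = shift f t * shift g t := by
  rw [shift, map_mul, ev1_mul, shift, shift]

theorem shift_X_sub_C_pow {A : Type*} [CommRing A] [Adic A] {t : A} (ht : t ∈ Nil A) (m : ℕ) :
    shift ((PowerSeries.X - PowerSeries.C t) ^ m) t = PowerSeries.X ^ m := by
  have h := C_add_X_mem_Nil ht
  rw [shift, map_pow, map_sub, PowerSeries.map_X, PowerSeries.map_C, ev1_pow h, ev1_sub, ev1_X h,
    ev1_C h, add_sub_cancel_left]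

theorem card_zeros_le (f : PowerSeries (Ob K)) {d : ℕ} (hd : IsUnit (PowerSeries.coeff d f))
    (s : Finset (Ob K)) (hs : ∀ t ∈ s, t ∈ Nil (Ob K) ∧ ev1 f t = 0) : s.card ≤ d := by
  obtain ⟨d', hd', h1, h2⟩ := exists_wdeg f hd
  obtain ⟨P, U, hP, hPd, -, hU, hf⟩ := exists_weierstrass f h1 h2
  refine le_trans ?_ hd'
  rw [← hPd]
  refine Polynomial.card_le_degree_of_subset_roots fun t ht => ?_
  obtain ⟨h3, h4⟩ := hs t ht
  rw [Polynomial.mem_roots hP.ne_zero]
  exact (ev1_eq_zero_iff hU hf h3).1 h4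

theorem exists_zero (f : PowerSeries (Ob K)) (h0 : PowerSeries.constantCoeff f ∈ Nil (Ob K))
    {d : ℕ} (hd : IsUnit (PowerSeries.coeff d f)) : ∃ t ∈ Nil (Ob K), ev1 f t = 0 := by
  obtain ⟨d', -, h1, h2⟩ := exists_wdeg f hd
  obtain ⟨P, U, hP, hPd, hPc, hU, hf⟩ := exists_weierstrass f h1 h2
  have h3 : d' ≠ 0 := by
    rintro rfl
    exact not_mem_Nil_of_isUnit h2 (by simpa using h0)
  obtain ⟨y, hy⟩ := exists_root_Ob hP (hPd ▸ h3)
  have h4 := root_mem_Nil hP (hPd ▸ hPc) hy
  exact ⟨y, h4, (ev1_eq_zero_iff hU hf h4).2 hy⟩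

/-- If the Weierstrass degree is `d` and every zero has multiplicity at most `μ`, there are at least
`d / μ` zeros. -/
theorem exists_zeros (f : PowerSeries (Ob K)) {d μ : ℕ}
    (hlt : ∀ i < d, PowerSeries.coeff i f ∈ Nil (Ob K)) (hd : IsUnit (PowerSeries.coeff d f))
    (hμ : ∀ t ∈ Nil (Ob K), ev1 f t = 0 → ∃ i ≤ μ, PowerSeries.coeff i (shift f t) ≠ 0) :
    ∃ s : Finset (Ob K), (∀ t ∈ s, t ∈ Nil (Ob K) ∧ ev1 f t = 0) ∧ d ≤ μ * s.card := by
  classical
  obtain ⟨P, U, hP, hPd, hPc, hU, hf⟩ := exists_weierstrass f hlt hd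
  have h1 : ∀ t ∈ P.roots.toFinset, t ∈ Nil (Ob K) ∧ ev1 f t = 0 := fun t ht => by
    have hy := (Polynomial.mem_roots hP.ne_zero).1 (Multiset.mem_toFinset.1 ht)
    have h4 := root_mem_Nil hP (hPd ▸ hPc) hy
    exact ⟨h4, (ev1_eq_zero_iff hU hf h4).2 hy⟩
  refine ⟨P.roots.toFinset, h1, ?_⟩
  rw [← hPd, ← card_roots_Ob hP, ← Multiset.toFinset_sum_count_eq, mul_comm, ← smul_eq_mul]
  refine Finset.sum_le_card_nsmul _ _ _ fun t ht => ?_
  obtain ⟨i, hi, hc⟩ := hμ t (h1 t ht).1 (h1 t ht).2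
  rw [Polynomial.count_roots]
  refine le_trans ?_ hi
  by_contra h2
  obtain ⟨Q, hQ⟩ := Polynomial.pow_rootMultiplicity_dvd P t
  set m := Polynomial.rootMultiplicity t P
  have h3 : f = (PowerSeries.X - PowerSeries.C t) ^ m * ((Q : PowerSeries (Ob K)) * U) := by
    rw [hf, hQ, Polynomial.coe_mul, Polynomial.coe_pow, Polynomial.coe_sub, Polynomial.coe_X,
      Polynomial.coe_C, mul_assoc]
  rw [h3, shift_mul, shift_X_sub_C_pow (h1 t ht).1] at hc
  exact hc (PowerSeries.X_pow_dvd_iff.1 (dvd_mul_right _ _) i (not_le.1 h2))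

end Crest.Agent.R227
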