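import Crest.Agent.R227.Cover
import Crest.Agent.R227.EndM
import Crest.Agent.R227.E0Coord
import Crest.Agent.R227.E0Stab

/-! Row 227 (S0351), module `Orbit`: the universal cover of a family and the action of the
stabilizer group on it. -/

set_option autoImplicit false
set_option linter.unusedSectionVars false
set_option linter.style.haveILetI false

namespace Crest.Agent.R227

open MvPowerSeries Crest.LubinTate Filter Topology

section

variable {A O : Type*} [CommRing A] [Adic A] [CommRing O] [Adic O] {σ : Type*} [Finite σ]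

theorem IsDef.isNilpotent_mk {𝔞 : Ideal A} (h𝔞 : IsDef 𝔞) {a : A} (ha : a ∈ Nil A) :
    IsNilpotent (Ideal.Quotient.mk 𝔞 a) := by
  obtain ⟨k, hk⟩ := h𝔞.2
  obtain ⟨j, hj⟩ := ha
  refine ⟨j * k, ?_⟩
  rw [← map_pow, Ideal.Quotient.eq_zero_iff_mem, pow_mul]
  exact hk (Ideal.pow_mem_pow hj k)

theorem exists_cov {p : ℕ} {𝔞 : Ideal A} (h𝔞 : IsDef 𝔞) (hp : (p : A) ∈ 𝔞) (Γ : FormalGroup O)
    [Γ.IsComm] (hbij : Function.Bijective fun y : Pt Γ => p • y) (ρ : O →+* A ⧸ 𝔞)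
    (hρ : ∀ y ∈ Nil O, IsNilpotent (ρ y)) (𝒢 : FormalGroup (MvPowerSeries σ A)) [𝒢.IsComm]
    (hG : Γ.map ρ = (𝒢.map constantCoeff).map (Ideal.Quotient.mk 𝔞)) :
    ∃ cov : Pt Γ →+ Pt 𝒢, ∀ y, Ideal.Quotient.mk 𝔞 (constantCoeff (cov y).1) = ρ y.1 := by
  let 𝔄 : Ideal (MvPowerSeries σ A) := 𝔞.comap constantCoeff
  let η : A ⧸ 𝔞 →+* MvPowerSeries σ A ⧸ 𝔄 := Ideal.quotientMap 𝔄 C fun a ha => by
    simpa [𝔄] using ha
  let η' : MvPowerSeries σ A ⧸ 𝔄 →+* A ⧸ 𝔞 := Ideal.quotientMap 𝔞 constantCoeff le_rfl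
  have h1 : η.comp ((Ideal.Quotient.mk 𝔞).comp constantCoeff) = Ideal.Quotient.mk 𝔄 := by
    ext1 f
    simp only [RingHom.comp_apply, η, Ideal.quotientMap_mk]
    rw [Ideal.Quotient.eq]
    simp [𝔄]
  have h2 : ∀ a, η' (η a) = a := fun a => by
    obtain ⟨a, rfl⟩ := Ideal.Quotient.mk_surjective a
    simp [η, η']
  obtain ⟨cov, hcov⟩ := exists_cover (isDef_comap (σ := σ) h𝔞) (p := p) (by simpa using hp) Γ hbij
    (η.comp ρ) (fun y hy => (hρ y hy).map η) 𝒢
    (by rw [← fg_map_map, hG, fg_map_map, fg_map_map, RingHom.comp_assoc, h1])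
  refine ⟨cov, fun y => ?_⟩
  have := congrArg η' (hcov y)
  rwa [RingHom.comp_apply, h2] at this

variable {p : ℕ} [Fact p.Prime] {n : ℕ} {Γ : FormalGroup (GaloisField p n)}
  {H : FormalGroup (LTRing p n)} [Γ.IsComm] [H.IsComm]

theorem orbit {𝔞 : Ideal A} (h𝔞 : IsDef 𝔞) (hp : (p : A) ∈ 𝔞) {ι : GaloisField p n →+* O}
    (hdiv : ∀ y : Pt (Γ.map ι), ∃ y', p • y' = y) {ρ : O →+* A ⧸ 𝔞}
    {xz : LTRing p n →+* MvPowerSeries σ A} {x : LTRing p n →+* A}
    (hx : (constantCoeff : MvPowerSeries σ A →+* A).comp xz = x)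
    (hred : (Ideal.Quotient.mk 𝔞).comp x = (ρ.comp ι).comp (LTRing.residue p n))
    (cov : Pt (Γ.map ι) →+ Pt (H.map xz))
    (hcov : ∀ y, Ideal.Quotient.mk 𝔞 (constantCoeff (cov y).1) = ρ y.1)
    {g : PowerSeries (GaloisField p n)} (hg : IsFGHom Γ Γ g) {φ : LTRing p n →+* LTRing p n}
    {θ : PowerSeries (LTRing p n)} (hθ : IsFGHom (H.map φ) H θ)
    (hθg : PowerSeries.map (LTRing.residue p n) θ = g) {z : σ → A} (hz : ∀ i, z i ∈ 𝔞)
    (hzN : ∀ i, z i ∈ Nil A) (hφ : (evHom z hzN).comp xz = x.comp φ) (y : Pt (Γ.map ι)) :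
    ev1 (PowerSeries.map x θ) (ev (cov y).1 z) = constantCoeff (cov (endOf ι hg y)).1 := by
  have e1 : (H.map xz).map (evHom z hzN) = (H.map φ).map x := by
    rw [fg_map_map, fg_map_map, hφ]
  have e2 : (H.map xz).map constantCoeff = H.map x := by rw [fg_map_map, hx]
  let a : Pt (Γ.map ι) →+ Pt (H.map x) := (Pt.hom (IsFGHom.map hθ x)).comp
    ((Pt.map (evHom z hzN) (mapsNil_evHom hzN) e1).comp cov)
  let a' : Pt (Γ.map ι) →+ Pt (H.map x) :=
    (Pt.map constantCoeff mapsNil_constantCoeff e2).comp (cov.comp (endOf ι hg))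
  have key : a = a' := addHom_ext_of_div hdiv h𝔞.1 hp a a' fun y => by
    letI := Adic.discrete (A ⧸ 𝔞)
    rw [← Ideal.Quotient.eq]
    have hc : constantCoeff (cov y).1 ∈ Nil A := mem_Nil_mv.1 (cov y).2
    have ht : ev (cov y).1 z ∈ Nil A := ev_mem_Nil hzN hc
    have h1 : Ideal.Quotient.mk 𝔞 (ev (cov y).1 z) = ρ y.1 := by
      rw [← hcov, Ideal.Quotient.eq]
      exact Ideal.span_le.2 (by rintro _ ⟨i, rfl⟩; exact hz i) (ev_sub_constantCoeff_mem hzN _)
    have hn : ρ y.1 ∈ Nil (A ⧸ 𝔞) := by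
      rw [← hcov]
      exact mem_Nil_of_isNilpotent (h𝔞.isNilpotent_mk hc)
    have h2 : (a y).1 = ev1 (PowerSeries.map x θ) (ev (cov y).1 z) := by
      simp only [a, AddMonoidHom.comp_apply, Pt.hom_val, Pt.map_val, evHom_apply]
    have h3 : (a' y).1 = constantCoeff (cov (endOf ι hg y)).1 := rfl
    rw [h2, h3, hcov, endOf_val, map_ev1 _ ht (by rw [h1]; exact hn), map_ev1 ρ y.2 hn, h1, ← hθg]
    congr 1
    ext i
    simp only [PowerSeries.coeff_map]
    exact DFunLike.congr_fun hred _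
  have := congrArg Pt.val (DFunLike.congr_fun key y)
  simp only [a, AddMonoidHom.comp_apply, Pt.hom_val, Pt.map_val, evHom_apply] at this
  exact this

end

theorem tangent_lemma {E : Type*} [NontriviallyNormedField E] [CompleteSpace E] {σ : Type*}
    [Fintype σ] [DecidableEq σ] (B : Matrix (Option σ) (Option σ) E) (hB : B.det ≠ 0) {t c : ℕ → E}
    (ht : Tendsto t atTop (𝓝 0)) (ht0 : ∀ m, t m ≠ 0) {z : ℕ → σ → E}
    (hz : Tendsto z atTop (𝓝 0)) (a : Option σ → E) (K : ℝ)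
    (h : ∀ᶠ m in atTop, ‖c m‖ = 1 ∧ ∀ i, ‖c m * (B i none + ∑ j, B i (some j) * z m j) -
      (B i none + t m * ∑ o, B i o * a o)‖ ≤ K * ‖z m‖ ^ 2) (j : σ) :
    Tendsto (fun m => z m j / t m) atTop (𝓝 (a (some j))) := by
  let L : (Option σ → E) →L[E] (Option σ → E) := LinearMap.toContinuousLinearMap (B⁻¹.mulVecLin)
  let u : ℕ → Option σ → E := fun m o => match o with
    | none => c m - 1 - t m * a none
    | some j => c m * z m j - t m * a (some j)
  set K' := ‖L‖ * max K 0 with hK'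
  have hK0 : 0 ≤ K' := mul_nonneg (norm_nonneg _) (le_max_right _ _)
  have hu : ∀ᶠ m in atTop, ‖c m‖ = 1 ∧ ‖u m‖ ≤ K' * ‖z m‖ ^ 2 := by
    filter_upwards [h] with m hm
    refine ⟨hm.1, ?_⟩
    have e : L (B.mulVec (u m)) = u m := by
      simp only [L, LinearMap.coe_toContinuousLinearMap', Matrix.mulVecLin_apply,
        Matrix.mulVec_mulVec, Matrix.nonsing_inv_mul _ (Ne.isUnit hB), Matrix.one_mulVec]
    have h1 : ‖B.mulVec (u m)‖ ≤ max K 0 * ‖z m‖ ^ 2 := by
      refine (pi_norm_le_iff_of_nonneg (by positivity)).2 fun i => ?_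
      refine le_trans (le_of_eq ?_) ((hm.2 i).trans
        (mul_le_mul_of_nonneg_right (le_max_left _ _) (by positivity)))
      congr 1
      simp only [Matrix.mulVec, dotProduct, Fintype.sum_option, u, mul_add, mul_sub,
        Finset.sum_sub_distrib, Finset.mul_sum]
      have e1 : ∑ j, B i (some j) * (c m * z m j) = ∑ j, c m * (B i (some j) * z m j) :=
        Finset.sum_congr rfl fun j _ => by ring
      have e2 : ∑ j, B i (some j) * (t m * a (some j)) = ∑ j, t m * (B i (some j) * a (some j)) :=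
        Finset.sum_congr rfl fun j _ => by ring
      rw [e1, e2]
      ring
    rw [← e, hK', mul_assoc]
    exact (L.le_opNorm _).trans (mul_le_mul_of_nonneg_left h1 (norm_nonneg _))
  have hzn : Tendsto (fun m => K' * ‖z m‖) atTop (𝓝 0) := by
    simpa using (tendsto_zero_iff_norm_tendsto_zero.1 hz).const_mul K'
  have hz2 : ∀ᶠ m in atTop, ‖u m‖ ≤ K' * (2 * ‖a‖ * ‖t m‖) ^ 2 := by
    filter_upwards [hu, hzn.eventually (ge_mem_nhds (show (0 : ℝ) < 1 / 2 by norm_num))]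
      with m hm h2
    have h3 : ‖z m‖ ≤ ‖a‖ * ‖t m‖ + K' * ‖z m‖ ^ 2 := by
      refine (pi_norm_le_iff_of_nonneg (by positivity)).2 fun i => ?_
      have e : c m * z m i = t m * a (some i) + u m (some i) := by simp [u]
      have : ‖z m i‖ = ‖c m * z m i‖ := by rw [norm_mul, hm.1, one_mul]
      rw [this, e]
      refine (norm_add_le _ _).trans (add_le_add ?_ ((norm_le_pi_norm _ _).trans hm.2))
      rw [norm_mul, mul_comm]
      exact mul_le_mul_of_nonneg_right (norm_le_pi_norm _ _) (norm_nonneg _)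
    have h4 : ‖z m‖ ≤ 2 * ‖a‖ * ‖t m‖ := by nlinarith [norm_nonneg (z m)]
    exact hm.2.trans (mul_le_mul_of_nonneg_left (pow_le_pow_left₀ (norm_nonneg _) h4 2) hK0)
  have htn := tendsto_zero_iff_norm_tendsto_zero.1 ht
  have hut : ∀ o, Tendsto (fun m => u m o / t m) atTop (𝓝 0) := fun o => by
    refine squeeze_zero_norm' (a := fun m => K' * (2 * ‖a‖) ^ 2 * ‖t m‖) ?_
      (by simpa using htn.const_mul (K' * (2 * ‖a‖) ^ 2))
    filter_upwards [hz2] with m hm
    rw [norm_div, div_le_iff₀ (norm_pos_iff.2 (ht0 m))]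
    refine ((norm_le_pi_norm _ _).trans hm).trans (le_of_eq (by ring))
  have hc : Tendsto c atTop (𝓝 1) := by
    have := ((hut none).mul ht).add ((ht.mul_const (a none)).add_const 1)
    simp only [mul_zero, zero_mul, zero_add] at this
    refine this.congr fun m => ?_
    rw [div_mul_cancel₀ _ (ht0 m)]
    simp only [u]
    ring
  have := ((hut (some j)).add_const (a (some j))).div hc one_ne_zero
  simp only [zero_add, div_one] at this
  refine this.congr' ?_
  filter_upwards [hu] with m hm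
  have hc0 : c m ≠ 0 := by
    rw [← norm_pos_iff, hm.1]
    exact one_pos
  have := ht0 m
  simp only [u, Pi.div_apply]
  field_simp
  ring

end Crest.Agent.R227
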