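import Crest.Agent.R227.Pt

/-!
Row 227 (S0351), module `Phi`: series in `X ^ (p ^ e)` in characteristic `p`, Frobenius
invariance, and the formal inverse function theorem.
-/

set_option autoImplicit false
set_option linter.unusedSectionVars false
set_option linter.style.haveILetI false

namespace Crest.Agent.R227

open MvPowerSeries Crest.LubinTate

variable {R : Type*} [CommRing R] {p : ℕ} [Fact p.Prime]

theorem pow_ne_zero_p (p : ℕ) [Fact p.Prime] (e : ℕ) : p ^ e ≠ 0 :=
  pow_ne_zero e (Fact.out : p.Prime).ne_zero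

theorem phi_subst_expand {τ : Type*} {b : MvPowerSeries τ R} (hb : PowerSeries.HasSubst b) {q : ℕ}
    (hq : q ≠ 0) (g : PowerSeries R) :
    PowerSeries.subst b (PowerSeries.expand q hq g) = PowerSeries.subst (b ^ q) g := by
  rw [PowerSeries.expand_apply,
    PowerSeries.subst_comp_subst_apply (PowerSeries.HasSubst.X_pow hq) hb,
    PowerSeries.subst_pow hb, PowerSeries.subst_X hb]

theorem phi_subst_X_expand {τ : Type*} (i : τ) {q : ℕ} (hq : q ≠ 0) (g : PowerSeries R) :
    PowerSeries.subst (X i : MvPowerSeries τ R) (PowerSeries.expand q hq g) =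
      MvPowerSeries.expand q hq (PowerSeries.subst (X i : MvPowerSeries τ R) g) := by
  rw [phi_subst_expand (PowerSeries.HasSubst.X i),
    PowerSeries.expand_subst _ _ (PowerSeries.HasSubst.X i), expand_X]

theorem phi_pow_eq_expand [CharP R p] {τ : Type*} (b : MvPowerSeries τ R) (e : ℕ) :
    b ^ p ^ e = MvPowerSeries.expand (p ^ e) (pow_ne_zero_p p e)
      (MvPowerSeries.map (iterateFrobenius R p e) b) := by
  rw [← map_expand, map_iterateFrobenius_expand p (Fact.out : p.Prime).ne_zero]

theorem phi_subst_fg_expand [CharP R p] (G : FormalGroup R) (e : ℕ) (g : PowerSeries R) :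
    PowerSeries.subst G.toPowerSeries (PowerSeries.expand (p ^ e) (pow_ne_zero_p p e) g) =
      MvPowerSeries.expand (p ^ e) (pow_ne_zero_p p e)
        (PowerSeries.subst (G.map (iterateFrobenius R p e)).toPowerSeries g) := by
  rw [phi_subst_expand (hasSubst_fg G), phi_pow_eq_expand,
    PowerSeries.expand_subst _ _ (hasSubst_fg _), FormalGroup.map_toPowerSeries]

/-- If `g(G(X,Y)) ≡ g(X)` modulo `Y ^ 2` then the derivative of `g` vanishes. -/
theorem phi_deriv_eq_zero (G : FormalGroup R) {g : PowerSeries R}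
    (H : (X 1 : MvPowerSeries (Fin 2) R) ^ 2 ∣ PowerSeries.subst G.toPowerSeries g -
      PowerSeries.subst (X 0 : MvPowerSeries (Fin 2) R) g) (n : ℕ) :
    ((n + 1 : ℕ) : R) * PowerSeries.coeff (n + 1) g = 0 := by
  letI := Adic.discrete R
  have h0 : (X 0 : MvPowerSeries (Fin 2) R) ∈ Nil _ := X_mem_Nil 0
  have h1 : (X 1 : MvPowerSeries (Fin 2) R) ∈ Nil _ := X_mem_Nil 1
  have h2 := Pt.add_val_sub_mem (G := G.map (C : R →+* MvPowerSeries (Fin 2) R)) ⟨_, h0⟩ ⟨_, h1⟩
  rw [Pt.add_val, FormalGroup.map_toPowerSeries, ev2_map_C_X, Ideal.mem_span_singleton'] at h2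
  obtain ⟨c, hc⟩ := h2
  have hu : IsUnit (1 + c * X 0) := isUnit_one_add (Ideal.mul_mem_left _ _ h0)
  have hG : G.toPowerSeries = X 0 + X 1 * (1 + c * X 0) := by
    simp only at hc
    linear_combination -hc
  have key : ∀ d ∈ Nil (MvPowerSeries (Fin 2) R), ∃ c', ev1 (PowerSeries.map C g) (X 0 + d) -
      ev1 (PowerSeries.map C g) (X 0) =
        PowerSeries.coeff 1 (shift (PowerSeries.map C g) (X 0)) * d + d ^ 2 * c' := by
    intro d hd
    obtain ⟨c', hc'⟩ := exists_ev1_eq hd (shift (PowerSeries.map C g) (X 0))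
    rw [ev1_shift h0 hd, constantCoeff_shift h0] at hc'
    exact ⟨c', by rw [hc']; ring⟩
  rw [subst_eq_ev1 (hasSubst_fg G), subst_eq_ev1 (PowerSeries.HasSubst.X 0), hG] at H
  obtain ⟨c₁, e₁⟩ := key _ (Ideal.mul_mem_right (1 + c * X 0) _ h1)
  obtain ⟨c₂, e₂⟩ := key _ h1
  rw [e₁, mul_pow, mul_assoc (X 1 ^ 2), dvd_add_left (dvd_mul_right _ _), ← mul_assoc,
    hu.dvd_mul_right] at H
  have H2 := dvd_add H (dvd_mul_right (X 1 ^ 2) c₂)
  rw [← e₂, ← subst_eq_ev1 ((PowerSeries.HasSubst.X 0).add (PowerSeries.HasSubst.X 1)),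
    ← subst_eq_ev1 (PowerSeries.HasSubst.X 0), X_pow_dvd_iff] at H2
  have H3 := H2 (Finsupp.single 0 n + Finsupp.single 1 1) (by simp)
  rw [map_sub, PowerSeries.coeff_subst_X_zero_add_X_one, PowerSeries.coeff_subst_single,
    if_neg (fun h => by simpa using DFunLike.congr_fun h 1)] at H3
  simpa using H3

theorem phi_exists_expand_of_coeff {q : ℕ} (hq : q ≠ 0) {g : PowerSeries R}
    (h : ∀ i, ¬ q ∣ i → PowerSeries.coeff i g = 0) :
    ∃ g₁ : PowerSeries R, g = PowerSeries.expand q hq g₁ := by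
  refine ⟨PowerSeries.mk fun i => PowerSeries.coeff (q * i) g, ?_⟩
  ext i
  rw [PowerSeries.coeff_expand]
  split_ifs with hi
  · rw [PowerSeries.coeff_mk, Nat.mul_div_cancel' hi]
  · exact h i hi

/-- If `f(G(X,Y)) - f(X)` lies in the ideal `(f(Y), Y ^ (p ^ e))` and the coefficients of
`X ^ (p ^ j)`, `j < e`, of `f` vanish, then `f` is a series in `X ^ (p ^ e)`. -/
theorem exists_expand_of_ideal (hp : (p : R) = 0) (G : FormalGroup R) {f : PowerSeries R} {e : ℕ}
    (hf0 : PowerSeries.constantCoeff f = 0) {a b : MvPowerSeries (Fin 2) R}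
    (H : PowerSeries.subst G.toPowerSeries f - PowerSeries.subst (X 0 : MvPowerSeries (Fin 2) R) f =
      a * PowerSeries.subst (X 1 : MvPowerSeries (Fin 2) R) f + b * X 1 ^ p ^ e)
    (hc : ∀ j < e, PowerSeries.coeff (p ^ j) f = 0) :
    ∃ g : PowerSeries R, f = PowerSeries.expand (p ^ e) (pow_ne_zero_p p e) g := by
  rcases subsingleton_or_nontrivial R with hR | hR
  · exact ⟨0, PowerSeries.ext fun _ => Subsingleton.elim _ _⟩
  haveI : CharP R p := (CharP.charP_iff_prime_eq_zero Fact.out).2 hp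
  have hp2 : 2 ≤ p := (Fact.out : p.Prime).two_le
  suffices key : ∀ j ≤ e, ∃ g : PowerSeries R,
      f = PowerSeries.expand (p ^ j) (pow_ne_zero_p p j) g from key e le_rfl
  intro j
  induction j with
  | zero => exact fun _ => ⟨f, by simp⟩
  | succ j ih =>
    intro hj
    obtain ⟨g, rfl⟩ := ih (by omega)
    have hq := pow_ne_zero_p p j
    have g0 : PowerSeries.constantCoeff g = 0 := by rwa [PowerSeries.constantCoeff_expand] at hf0
    have g1 : PowerSeries.coeff 1 g = 0 := by
      rw [← PowerSeries.coeff_expand_mul _ hq, mul_one]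
      exact hc j (by omega)
    obtain ⟨g', hg'⟩ : PowerSeries.X ^ 2 ∣ g := PowerSeries.X_pow_dvd_iff.2 fun m hm => by
      interval_cases m
      · simpa using g0
      · exact g1
    have d1 : (X 1 : MvPowerSeries (Fin 2) R) ^ (p ^ j * 2) ∣
        PowerSeries.subst (X 1 : MvPowerSeries (Fin 2) R) (PowerSeries.expand (p ^ j) hq g) := by
      rw [hg', map_mul, map_pow, PowerSeries.expand_X,
        PowerSeries.subst_mul (PowerSeries.HasSubst.X 1), ← pow_mul,
        PowerSeries.subst_pow (PowerSeries.HasSubst.X 1),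
        PowerSeries.subst_X (PowerSeries.HasSubst.X 1)]
      exact dvd_mul_right _ _
    have d2 : (X 1 : MvPowerSeries (Fin 2) R) ^ (p ^ j * 2) ∣ X 1 ^ p ^ e :=
      pow_dvd_pow _ ((Nat.mul_le_mul_left _ hp2).trans
        ((pow_succ p j).symm.le.trans (Nat.pow_le_pow_right (by omega) hj)))
    have d3 := dvd_add (d1.mul_left a) (d2.mul_left b)
    rw [← H, phi_subst_fg_expand, phi_subst_X_expand, ← map_sub, X_pow_dvd_iff] at d3
    have d4 := phi_deriv_eq_zero (G.map (iterateFrobenius R p j)) (g := g)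
      (X_pow_dvd_iff.2 fun m hm => by
        rw [← coeff_expand_smul _ hq]
        exact d3 _ (by simpa [Nat.pos_of_ne_zero hq] using hm))
    obtain ⟨g₁, rfl⟩ := phi_exists_expand_of_coeff (Fact.out : p.Prime).ne_zero (g := g)
      fun i hi => by
        obtain ⟨n, rfl⟩ : ∃ n, i = n + 1 := Nat.exists_eq_succ_of_ne_zero (by rintro rfl; simp at hi)
        have hu : IsUnit ((n + 1 : ℕ) : R) := by
          have := (((Nat.Prime.coprime_iff_not_dvd Fact.out).2 hi).cast : IsCoprime (p : R) _)
          rwa [hp, isCoprime_zero_left] at this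
        exact hu.mul_right_eq_zero.1 (d4 n)
    exact ⟨g₁, (PowerSeries.expand_mul _ _ _ _ _).symm⟩

theorem IsFGHom.exists_expand (hp : (p : R) = 0) {G G' : FormalGroup R} {θ : PowerSeries R}
    (h : IsFGHom G G' θ) {e : ℕ} (hc : ∀ j < e, PowerSeries.coeff (p ^ j) θ = 0) :
    ∃ g : PowerSeries R, PowerSeries.constantCoeff g = 0 ∧
      θ = PowerSeries.expand (p ^ e) (pow_ne_zero_p p e) g := by
  letI := Adic.discrete R
  have h0 := h.1
  have hs := hasSubst_subst_X h0 (0 : Fin 2)
  have ht := hasSubst_subst_X h0 (1 : Fin 2)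
  have h2 := Pt.add_val_sub_left_mem (G := G'.map (C : R →+* MvPowerSeries (Fin 2) R))
    ⟨_, mem_Nil_mv.2 (mem_Nil_of_isNilpotent hs)⟩ ⟨_, mem_Nil_mv.2 (mem_Nil_of_isNilpotent ht)⟩
  rw [Pt.add_val, FormalGroup.map_toPowerSeries, ← subst_eq_ev2 hs ht, ← h.2,
    Ideal.mem_span_singleton'] at h2
  obtain ⟨a, ha⟩ := h2
  obtain ⟨g, hg⟩ := exists_expand_of_ideal hp G h0 (a := a) (b := 0) (e := e)
    (by rw [zero_mul, add_zero]; exact ha.symm) hc
  exact ⟨g, by rwa [hg, PowerSeries.constantCoeff_expand] at h0, hg⟩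

theorem exists_w (hp : (p : R) = 0) (G : FormalGroup R) [G.IsComm] {h : ℕ}
    (hc : ∀ j < h, PowerSeries.coeff (p ^ j) (mulSeries G p) = 0) :
    ∃ w : PowerSeries R, PowerSeries.constantCoeff w = 0 ∧
      mulSeries G p = PowerSeries.expand (p ^ h) (pow_ne_zero_p p h) w :=
  IsFGHom.exists_expand hp (isFGHom_mulSeries G p) hc

theorem mv_expand_injective {σ : Type*} {q : ℕ} (hq : q ≠ 0) :
    Function.Injective (MvPowerSeries.expand (σ := σ) (R := R) q hq) := by
  intro f g h
  ext m
  rw [← coeff_expand_smul q hq f, h, coeff_expand_smul]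

/-- If `θ = g(X ^ (p ^ e))` is a homomorphism `G → G'` then `g` is a homomorphism from the
Frobenius twist of `G`. -/
theorem IsFGHom.of_expand [CharP R p] {G G' : FormalGroup R} {g : PowerSeries R} {e : ℕ}
    (h : IsFGHom G G' (PowerSeries.expand (p ^ e) (pow_ne_zero_p p e) g)) :
    IsFGHom (G.map (iterateFrobenius R p e)) G' g := by
  have g0 : PowerSeries.constantCoeff g = 0 := by
    have := h.1
    rwa [PowerSeries.constantCoeff_expand] at this
  refine ⟨g0, mv_expand_injective (pow_ne_zero_p p e) ?_⟩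
  rw [← phi_subst_fg_expand, h.2,
    expand_subst _ _ (hasSubst_pair (hasSubst_subst_X g0 0) (hasSubst_subst_X g0 1))]
  congr 1
  funext i
  fin_cases i
  · exact phi_subst_X_expand _ _ _
  · exact phi_subst_X_expand _ _ _

/-- A law with `[p] = X ^ (p ^ e)` has coefficients fixed by the `p ^ e`-Frobenius. -/
theorem fg_map_frob [CharP R p] (G : FormalGroup R) [G.IsComm] {e : ℕ}
    (hG : mulSeries G p = PowerSeries.X ^ p ^ e) : G.map (iterateFrobenius R p e) = G := by
  have h := isFGHom_mulSeries G p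
  rw [hG, ← PowerSeries.expand_X _ (pow_ne_zero_p p e)] at h
  exact fg_eq_of_isFGHom (by simp) (IsFGHom.of_expand h) (isFGHom_X G)

/-- A homomorphism to a law with `[p] = X ^ (p ^ e)` intertwines `w` with the Frobenius. -/
theorem IsFGHom.subst_w [CharP R p] {G H : FormalGroup R} [G.IsComm] [H.IsComm]
    {τ w : PowerSeries R} {e : ℕ} (h : IsFGHom G H τ) (hw0 : PowerSeries.constantCoeff w = 0)
    (hw : mulSeries G p = PowerSeries.expand (p ^ e) (pow_ne_zero_p p e) w)
    (hH : mulSeries H p = PowerSeries.X ^ p ^ e) :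
    PowerSeries.subst w τ = PowerSeries.map (iterateFrobenius R p e) τ := by
  have h1 := IsFGHom.subst_mulSeries h p
  have hτ := PowerSeries.HasSubst.of_constantCoeff_zero' h.1
  rw [hw, hH, PowerSeries.subst_pow hτ, PowerSeries.subst_X hτ] at h1
  refine mv_expand_injective (pow_ne_zero_p p e) ?_
  rw [PowerSeries.expand_subst _ _ (PowerSeries.HasSubst.of_constantCoeff_zero' hw0)]
  exact h1.trans (phi_pow_eq_expand τ e)

theorem pow_ev1 [CharP R p] [Adic R] {t : R} (ht : t ∈ Nil R) (f : PowerSeries R) (e : ℕ) :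
    ev1 f t ^ p ^ e = ev1 (PowerSeries.map (iterateFrobenius R p e) f) (t ^ p ^ e) :=
  map_ev1 (iterateFrobenius R p e) ht (pow_mem_Nil ht (pow_ne_zero_p p e)) f

/-- An endomorphism of a power series ring tangent to the identity is bijective. -/
theorem phi_unipotent_bijective {σ : Type*} [Finite σ] [Adic R]
    (ψ : MvPowerSeries σ R →+* MvPowerSeries σ R) (hC : ∀ r, ψ (C r) = C r)
    (hX : ∀ i, ψ (X i) - X i ∈ idl (MvPowerSeries σ R) ^ 2) : Function.Bijective ψ := by
  have hN : ∀ i, ψ (X i) ∈ Nil (MvPowerSeries σ R) := fun i => by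
    have := Ideal.add_mem _ (idl_le_Nil (Ideal.pow_le_self two_ne_zero (hX i))) (X_mem_Nil i)
    rwa [sub_add_cancel] at this
  have h2 : ∀ f, ψ f - f ∈ idl (MvPowerSeries σ R) ^ 2 := by
    intro f
    have := ev_sub_ev_mem hN (fun i => X_mem_Nil i) hX (MvPowerSeries.map C f)
    rwa [ev_map_C_X, ← show ψ.comp C = C from RingHom.ext hC, ← hom_eq_ev ψ hN] at this
  have h3 : ∀ N : ℕ, ∀ f ∈ idl (MvPowerSeries σ R) ^ N,
      ψ f - f ∈ idl (MvPowerSeries σ R) ^ (N + 1) := by
    intro N
    induction N with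
    | zero => exact fun f _ => Ideal.pow_le_pow_right (by omega) (h2 f)
    | succ N ih =>
      intro f hf
      rw [pow_succ'] at hf
      refine Submodule.mul_induction_on hf (fun m hm n hn => ?_) (fun x y hx hy => ?_)
      · have e : ψ (m * n) - m * n = (ψ m - m) * n + (ψ m - m) * (ψ n - n) + m * (ψ n - n) := by
          rw [map_mul]; ring
        rw [e]
        refine Ideal.add_mem _ (Ideal.add_mem _ ?_ ?_) ?_
        · rw [show N + 1 + 1 = 2 + N by omega, pow_add]
          exact Ideal.mul_mem_mul (h2 m) hn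
        · rw [show N + 1 + 1 = 2 + N by omega, pow_add]
          exact Ideal.mul_mem_mul (h2 m) (Ideal.pow_le_pow_right (by omega) (ih n hn))
        · rw [pow_succ']
          exact Ideal.mul_mem_mul hm (ih n hn)
      · rw [map_add, add_sub_add_comm]
        exact Ideal.add_mem _ hx hy
  constructor
  · rw [injective_iff_map_eq_zero]
    intro f hf
    refine eq_zero_of_mem_idl_pow fun N => ?_
    induction N with
    | zero => simp
    | succ N ih => simpa [hf] using h3 N f ih
  · intro g
    let x : ℕ → MvPowerSeries σ R := fun j => Nat.rec g (fun _ y => g - (ψ y - y)) j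
    have hx : ∀ j, x (j + 1) = g - (ψ (x j) - x j) := fun _ => rfl
    obtain ⟨y, hy⟩ := isDef_idl.exists_lim x fun j => by
      induction j with
      | zero =>
        have := neg_mem (h3 0 g (by simp))
        convert this using 1
        rw [hx]
        change _ - g = _
        change g - (ψ g - g) - g = _
        ring
      | succ j ih =>
        have := neg_mem (h3 _ _ ih)
        convert this using 1
        rw [map_sub]
        linear_combination hx (j + 1) - hx j
    refine ⟨y, sub_eq_zero.1 (eq_zero_of_mem_idl_pow fun N => ?_)⟩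
    have := Ideal.add_mem _ (h3 _ _ (hy N)) (hy (N + 1))
    refine Ideal.pow_le_pow_right (by omega : N ≤ N + 1 + 1) ?_
    convert this using 1
    rw [map_sub]
    linear_combination hx N

/-- Formal inverse function theorem. -/
theorem subst_bijective {σ : Type*} [Fintype σ] [DecidableEq σ] (S : σ → MvPowerSeries σ R)
    (h0 : ∀ i, constantCoeff (S i) = 0)
    (hJ : IsUnit (Matrix.of fun i j => coeff (Finsupp.single j 1) (S i)).det) :
    Function.Bijective (subst S : MvPowerSeries σ R → MvPowerSeries σ R) := by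
  letI := Adic.discrete R
  set J : Matrix σ σ R := Matrix.of fun i j => coeff (Finsupp.single j 1) (S i) with hJdef
  have hm : Ideal.span (Set.range (X : σ → MvPowerSeries σ R)) = idl _ := span_range_X
  have hX : ∀ i, (X i : MvPowerSeries σ R) ∈ idl _ := fun i => hm ▸ Ideal.subset_span ⟨i, rfl⟩
  have lin : ∀ (T : σ → MvPowerSeries σ R), (∀ i, constantCoeff (T i) = 0) → ∀ i,
      subst T (S i) - ∑ j, C (J i j) * T j ∈ idl (MvPowerSeries σ R) ^ 2 := by
    intro T hT i
    have h1 := ev_sub_linear_mem (fun j => mem_Nil_of_constantCoeff (hT j))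
      (MvPowerSeries.map C (S i))
    rw [← subst_eq_ev (hasSubst_of_constantCoeff_zero hT), constantCoeff_map, h0, map_zero,
      zero_add] at h1
    refine Ideal.pow_right_mono (Ideal.span_le.2 ?_) 2 h1
    rintro _ ⟨j, rfl⟩
    exact hT j
  obtain ⟨L, hL⟩ : ∃ L : σ → MvPowerSeries σ R, ∀ i, L i = ∑ j, C (J⁻¹ i j) * X j :=
    ⟨_, fun _ => rfl⟩
  have hL0 : ∀ i, constantCoeff (L i) = 0 := fun i => by simp [hL]
  have hS := hasSubst_of_constantCoeff_zero h0
  have hLs := hasSubst_of_constantCoeff_zero hL0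
  have prod : ∀ (A B : Matrix σ σ R), A * B = 1 → ∀ i,
      ∑ j, C (A i j) * ∑ k, C (B j k) * (X k : MvPowerSeries σ R) = X i := by
    intro A B hAB i
    simp only [Finset.mul_sum, ← mul_assoc, ← map_mul]
    rw [Finset.sum_comm]
    simp only [← Finset.sum_mul, ← map_sum, ← Matrix.mul_apply, hAB, Matrix.one_apply]
    simp [apply_ite C]
  have b1 := phi_unipotent_bijective
    ((substAlgHom (R := R) hLs).toRingHom.comp (substAlgHom (R := R) hS).toRingHom)
    (fun r => by simp [subst_C]) (fun i => by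
      have := lin L hL0 i
      simp only [hL, prod _ _ (Matrix.mul_nonsing_inv J hJ)] at this
      simpa [subst_X hS] using this)
  have b2 := phi_unipotent_bijective
    ((substAlgHom (R := R) hS).toRingHom.comp (substAlgHom (R := R) hLs).toRingHom)
    (fun r => by simp [subst_C]) (fun i => by
      have e1 : substAlgHom (R := R) hS (L i) = ∑ j, C (J⁻¹ i j) * S j := by
        rw [hL, map_sum]
        simp [subst_mul hS, subst_C, subst_X hS]
      have e2 : ∑ j, C (J⁻¹ i j) * S j - X i =
          ∑ j, C (J⁻¹ i j) * (S j - ∑ k, C (J j k) * X k) := by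
        simp only [mul_sub, Finset.sum_sub_distrib, prod _ _ (Matrix.nonsing_inv_mul J hJ)]
      have e3 : ∑ j, C (J⁻¹ i j) * S j - X i ∈ idl (MvPowerSeries σ R) ^ 2 := by
        rw [e2]
        refine Ideal.sum_mem _ fun j _ => Ideal.mul_mem_left _ _ ?_
        simpa [subst_self] using lin X (fun i => constantCoeff_X i) j
      rw [← e1] at e3
      simpa [subst_X hLs] using e3)
  rw [← coe_substAlgHom hS]
  exact ⟨Function.Injective.of_comp (f := substAlgHom (R := R) hLs) b1.1,
    Function.Surjective.of_comp (g := substAlgHom (R := R) hLs) b2.2⟩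

end Crest.Agent.R227
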