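import Crest.Agent.R227.Log
import Crest.Agent.R227.Phi

/-! Row 227 (S0351), module `QLogAux`: algebraic lemmas for `QLog` (coboundaries, cocycles in
characteristic `p`, successive approximation). -/

set_option autoImplicit false
set_option linter.unusedSectionVars false
set_option linter.style.haveILetI false

namespace Crest.Agent.R227

open MvPowerSeries Filter Topology Crest.LubinTate

section alg

variable {R S : Type*} [CommRing R] [CommRing S]

/-- The coboundary `g(G(X,Y)) - g(X) - g(Y)`. -/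
noncomputable def dser (G : FormalGroup R) (g : PowerSeries R) : MvPowerSeries (Fin 2) R :=
  PowerSeries.subst G.toPowerSeries g - PowerSeries.subst (X 0 : MvPowerSeries (Fin 2) R) g -
    PowerSeries.subst (X 1 : MvPowerSeries (Fin 2) R) g

theorem map_dser (φ : R →+* S) (G : FormalGroup R) (g : PowerSeries R) :
    MvPowerSeries.map φ (dser G g) = dser (G.map φ) (PowerSeries.map φ g) := by
  simp only [dser, map_sub, PowerSeries.map_subst (hasSubst_fg G),
    PowerSeries.map_subst (PowerSeries.HasSubst.X (0 : Fin 2)),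
    PowerSeries.map_subst (PowerSeries.HasSubst.X (1 : Fin 2)), map_X,
    FormalGroup.map_toPowerSeries]

theorem dser_add (G : FormalGroup R) (g h : PowerSeries R) :
    dser G (g + h) = dser G g + dser G h := by
  simp only [dser, PowerSeries.subst_add (hasSubst_fg G),
    PowerSeries.subst_add (PowerSeries.HasSubst.X (0 : Fin 2)),
    PowerSeries.subst_add (PowerSeries.HasSubst.X (1 : Fin 2))]
  ring

theorem dser_smul (G : FormalGroup R) (r : R) (g : PowerSeries R) :
    dser G (r • g) = r • dser G g := by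
  simp only [dser, PowerSeries.subst_smul (hasSubst_fg G),
    PowerSeries.subst_smul (PowerSeries.HasSubst.X (0 : Fin 2)),
    PowerSeries.subst_smul (PowerSeries.HasSubst.X (1 : Fin 2)), smul_sub]

theorem ev2_dser [Adic R] (G : FormalGroup R) (g : PowerSeries R) (s t : Pt G) :
    ev2 (dser G g) s.1 t.1 = ev1 g (s + t).1 - ev1 g s.1 - ev1 g t.1 := by
  have hc := pair_mem_Nil s.2 t.2
  rw [ev2, dser, ev_sub, ev_sub, ev_subst1 hc (hasSubst_fg G),
    ev_subst1 hc (PowerSeries.HasSubst.X _), ev_subst1 hc (PowerSeries.HasSubst.X _),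
    ev_X hc, ev_X hc]
  rfl

theorem cocycle_modp {p : ℕ} [Fact p.Prime] [CharP R p] (G : FormalGroup R) [G.IsComm] {n : ℕ}
    (hG : mulSeries G p = PowerSeries.X ^ p ^ n) {c : MvPowerSeries (Fin 2) R}
    {ν : PowerSeries R} (hν0 : PowerSeries.constantCoeff ν = 0)
    (hc : ∀ j < n, PowerSeries.coeff (p ^ j) ν = 0) (hcY : X 1 ∣ c)
    (H : MvPowerSeries.expand (p ^ n) (pow_ne_zero_p p n) c = dser G ν) :
    ∃ g : PowerSeries R, PowerSeries.constantCoeff g = 0 ∧ c = dser G g := by
  obtain ⟨c₁, hc₁⟩ := hcY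
  obtain ⟨g, rfl⟩ := exists_expand_of_ideal (CharP.cast_eq_zero R p) G (e := n) hν0 (a := 1)
    (b := MvPowerSeries.expand (p ^ n) (pow_ne_zero_p p n) c₁) (by
      rw [hc₁, map_mul, expand_X, dser] at H
      linear_combination -H) hc
  refine ⟨g, by rwa [PowerSeries.constantCoeff_expand] at hν0, mv_expand_injective
    (pow_ne_zero_p p n) ?_⟩
  rw [H, dser, dser, phi_subst_fg_expand, fg_map_frob G hG, phi_subst_X_expand,
    phi_subst_X_expand, map_sub, map_sub]

theorem succ_approx {M N : Type*} [AddCommGroup M] [Module R M] [AddCommGroup N] [Module R N]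
    (π : R) (hM : ∀ x : ℕ → M, ∃ L, ∀ k, ∃ r, L = ∑ j ∈ Finset.range k, π ^ j • x j + π ^ k • r)
    (hN : ∀ y : N, (∀ k, ∃ r, y = π ^ k • r) → y = 0) (Φ : M →ₗ[R] N) (Z : Set N)
    (step : ∀ c ∈ Z, ∃ m, ∃ c' ∈ Z, c = Φ m + π • c') {c : N} (hc : c ∈ Z) : ∃ m, c = Φ m := by
  choose! m c' hc' he using step
  let u : ℕ → N := fun k => c'^[k] c
  have hu : ∀ k, u k ∈ Z := fun k => by
    induction k with
    | zero => exact hc
    | succ k ih =>
      simp only [u, Function.iterate_succ_apply']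
      exact hc' _ ih
  have h1 : ∀ k, c = Φ (∑ j ∈ Finset.range k, π ^ j • m (u j)) + π ^ k • u k := fun k => by
    induction k with
    | zero => simp [u]
    | succ k ih =>
      have h2 : u (k + 1) = c' (u k) := Function.iterate_succ_apply' _ _ _
      rw [Finset.sum_range_succ, map_add, map_smul, h2, pow_succ, mul_smul, add_assoc, ← smul_add,
        ← he _ (hu k)]
      exact ih
  obtain ⟨L, hL⟩ := hM fun j => m (u j)
  refine ⟨L, sub_eq_zero.1 (hN _ fun k => ?_)⟩
  obtain ⟨r, hr⟩ := hL k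
  refine ⟨u k - Φ r, ?_⟩
  rw [hr, map_add, map_smul, smul_sub]
  nth_rewrite 1 [h1 k]
  abel

theorem exists_lim_smul [Adic R] {π : R} (hπ : IsDef (Ideal.span {π})) (x : ℕ → R) :
    ∃ L, ∀ k, ∃ r, L = ∑ j ∈ Finset.range k, π ^ j • x j + π ^ k • r := by
  obtain ⟨L, hL⟩ := hπ.exists_lim (fun k => ∑ j ∈ Finset.range (k + 1), π ^ j • x j) fun k => by
    rw [Finset.sum_range_succ _ (k + 1), add_sub_cancel_left, Ideal.span_singleton_pow]
    exact Ideal.mul_mem_right _ _ (Ideal.mem_span_singleton_self _)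
  refine ⟨L, fun k => ?_⟩
  cases k with
  | zero => exact ⟨L, by simp⟩
  | succ k =>
    have := hL k
    rw [Ideal.span_singleton_pow, Ideal.mem_span_singleton'] at this
    obtain ⟨r, hr⟩ := this
    exact ⟨r, by rw [smul_eq_mul (π ^ (k + 1)), mul_comm, hr]; abel⟩

theorem exists_lim_prod [Adic R] {π : R} (hπ : IsDef (Ideal.span {π})) {ι : Type*}
    (x : ℕ → (ι → R) × PowerSeries R) :
    ∃ L, ∀ k, ∃ r, L = ∑ j ∈ Finset.range k, π ^ j • x j + π ^ k • r := by
  choose L₁ hL₁ using fun i => exists_lim_smul hπ fun j => (x j).1 i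
  choose L₂ hL₂ using fun i => exists_lim_smul hπ fun j => PowerSeries.coeff i (x j).2
  refine ⟨(L₁, PowerSeries.mk L₂), fun k => ?_⟩
  choose r₁ hr₁ using fun i => hL₁ i k
  choose r₂ hr₂ using fun i => hL₂ i k
  refine ⟨(r₁, PowerSeries.mk r₂), Prod.ext ?_ ?_⟩
  · funext i
    simpa [Prod.fst_sum, Finset.sum_apply] using hr₁ i
  · ext i
    simpa [Prod.snd_sum] using hr₂ i

theorem eq_zero_of_smul [Adic R] {π : R} (hπ : π ∈ Nil R) {σ : Type*} (y : MvPowerSeries σ R)
    (h : ∀ k, ∃ r, y = π ^ k • r) : y = 0 := by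
  ext α
  refine (small_span_singleton hπ).eq_zero fun k => ?_
  obtain ⟨r, rfl⟩ := h k
  rw [Ideal.span_singleton_pow, map_smul]
  exact Ideal.mul_mem_right _ _ (Ideal.mem_span_singleton_self _)

/-- Exchange of the two sets of variables. -/
theorem coeff_ev1_C_X [Adic R] {σ : Type*} [Finite σ] (α : σ →₀ ℕ) (k : ℕ)
    (F : PowerSeries (MvPowerSeries σ R)) :
    PowerSeries.coeff k (coeff α (ev1 (PowerSeries.map
      (MvPowerSeries.map (PowerSeries.C : R →+* PowerSeries R)) F)
      (C PowerSeries.X : MvPowerSeries σ (PowerSeries R)))) =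
      coeff α (PowerSeries.coeff k F) := by
  have hX : (C PowerSeries.X : MvPowerSeries σ (PowerSeries R)) ∈ Nil _ :=
    mapsNil_C _ (X_mem_Nil ())
  induction k generalizing F with
  | zero =>
    obtain ⟨F', hF'⟩ : PowerSeries.X ∣ F - PowerSeries.C (PowerSeries.constantCoeff F) :=
      PowerSeries.X_dvd_iff.2 (by simp)
    rw [sub_eq_iff_eq_add] at hF'
    nth_rewrite 1 [hF']
    rw [map_add, map_mul, PowerSeries.map_X, PowerSeries.map_C, ev1_add, ev1_mul, ev1_X hX,
      ev1_C hX, map_add, coeff_C_mul, coeff_map]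
    simp
  | succ k ih =>
    obtain ⟨F', hF'⟩ : PowerSeries.X ∣ F - PowerSeries.C (PowerSeries.constantCoeff F) :=
      PowerSeries.X_dvd_iff.2 (by simp)
    rw [sub_eq_iff_eq_add] at hF'
    rw [hF', map_add, map_mul, PowerSeries.map_X, PowerSeries.map_C, ev1_add, ev1_mul, ev1_X hX,
      ev1_C hX, map_add, coeff_C_mul, coeff_map, map_add, PowerSeries.coeff_succ_X_mul, ih]
    simp

theorem coeff_single_mul {σ : Type*} (i : σ) (f g : MvPowerSeries σ R)
    (hf : constantCoeff f = 0) :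
    coeff (Finsupp.single i 1) (f * g) = coeff (Finsupp.single i 1) f * constantCoeff g := by
  classical
  rw [coeff_mul, Finsupp.antidiagonal_single]
  simp [Finset.Nat.antidiagonal_succ, hf]

/-- Second differences. -/
theorem ev2_second_diff [Adic R] {J : Ideal R} {s t : R} (hs : s ∈ Nil R) (ht : t ∈ Nil R)
    (hs' : s ∈ J) (ht' : t ∈ J) (F : MvPowerSeries (Fin 2) R) :
    ev2 F s t - ev2 F s 0 - ev2 F 0 t + ev2 F 0 0 ∈ J ^ 2 := by
  have key : ∀ a ∈ Nil R, ∀ b ∈ Nil R, a ∈ J → b ∈ J → ev2 F a b - (constantCoeff F +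
      (coeff (Finsupp.single 0 1) F * a + coeff (Finsupp.single 1 1) F * b)) ∈ J ^ 2 := by
    intro a ha b hb ha' hb'
    have h := ev_sub_linear_mem (pair_mem_Nil ha hb) F
    rw [Fin.sum_univ_two] at h
    refine Ideal.pow_right_mono (Ideal.span_le.2 ?_) 2 h
    rintro _ ⟨i, rfl⟩
    fin_cases i
    · exact ha'
    · exact hb'
  have z := (Nil R).zero_mem
  have := Ideal.add_mem _ (Ideal.sub_mem _ (Ideal.sub_mem _ (key s hs t ht hs' ht')
    (key s hs 0 z hs' J.zero_mem)) (key 0 z t ht J.zero_mem ht')) (key 0 z 0 z J.zero_mem J.zero_mem)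
  convert this using 1
  ring

end alg

end Crest.Agent.R227
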