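import Crest.Agent.R227.Log
import Crest.Agent.R227.Phi
import Crest.Agent.R227.QLogAux

/-! Row 227 (S0351), module `QLog`: every quasi-logarithm is a combination of the logarithm and of
its derivatives in a versal family. -/

set_option autoImplicit false
set_option linter.unusedSectionVars false
set_option linter.style.haveILetI false

namespace Crest.Agent.R227

open MvPowerSeries Filter Topology Crest.LubinTate

/-- The constant point. -/
noncomputable def Pt.cst {A : Type*} [CommRing A] [Adic A] {σ : Type*} [Finite σ]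
    (𝒢 : FormalGroup (MvPowerSeries σ A)) {G : FormalGroup A} (t : Pt G) : Pt 𝒢 :=
  ⟨C t.1, mapsNil_C _ t.2⟩

variable {E : Type*} [NontriviallyNormedField E] [VF E] [CharZero E] {p : ℕ} [Fact p.Prime]

section cob

variable {G : FormalGroup (Ob E)} [G.IsComm]

/-- `c` is an integral series representing the coboundary of the function `f`. -/
def Cob (G : FormalGroup (Ob E)) [G.IsComm] (f : Pt G → E) (c : MvPowerSeries (Fin 2) (Ob E)) :
    Prop :=
  f 0 = 0 ∧ ∀ s t, ((ev2 c s.1 t.1 : Ob E) : E) = f (s + t) - f s - f t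

/-- `ν` is an integral series representing `f (m s) - m f s`. -/
def Nu (G : FormalGroup (Ob E)) [G.IsComm] (m : ℕ) (f : Pt G → E) (ν : PowerSeries (Ob E)) : Prop :=
  ∀ s, ((ev1 ν s.1 : Ob E) : E) = f (m • s) - m * f s

theorem eq_zero_of_ev {τ : Type*} [Finite τ] {F : MvPowerSeries τ (Ob E)}
    (h : ∀ a : τ → Ob E, (∀ i, a i ∈ Nil (Ob E)) → ((ev F a : Ob E) : E) = 0) : F = 0 :=
  eq_zero_of_ev_eq_zero one_pos fun a ha _ => Subtype.ext (h a ha)

theorem eq_zero_of_pt1 (G : FormalGroup (Ob E)) {F : PowerSeries (Ob E)}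
    (h : ∀ s : Pt G, ((ev1 F s.1 : Ob E) : E) = 0) : F = 0 :=
  eq_zero_of_ev fun a ha => h ⟨a (), ha ()⟩

theorem eq_zero_of_pt2 (G : FormalGroup (Ob E)) {F : MvPowerSeries (Fin 2) (Ob E)}
    (h : ∀ s t : Pt G, ((ev2 F s.1 t.1 : Ob E) : E) = 0) : F = 0 :=
  eq_zero_of_ev fun a ha => by
    have e : a = ![a 0, a 1] := by
      funext i
      fin_cases i <;> rfl
    rw [e]
    exact h ⟨a 0, ha 0⟩ ⟨a 1, ha 1⟩

variable {f f' : Pt G → E} {c c' : MvPowerSeries (Fin 2) (Ob E)} {ν ν' : PowerSeries (Ob E)}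

theorem Cob.zero_right (h : Cob G f c) {τ : Type*} [Finite τ] {U : MvPowerSeries τ (Ob E)}
    (hU : U ∈ Nil (MvPowerSeries τ (Ob E))) : ev2 (MvPowerSeries.map C c) U 0 = 0 :=
  eq_zero_of_ev fun a ha => by
    rw [ev_ev2 ha hU (Ideal.zero_mem _), ev_zero]
    have := h.2 ⟨ev U a, ev_mem_Nil ha (mem_Nil_mv.1 hU)⟩ 0
    rw [add_zero, h.1, sub_self, sub_self] at this
    exact this

theorem Cob.zero_left (h : Cob G f c) {τ : Type*} [Finite τ] {U : MvPowerSeries τ (Ob E)}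
    (hU : U ∈ Nil (MvPowerSeries τ (Ob E))) : ev2 (MvPowerSeries.map C c) 0 U = 0 :=
  eq_zero_of_ev fun a ha => by
    rw [ev_ev2 ha (Ideal.zero_mem _) hU, ev_zero]
    have := h.2 0 ⟨ev U a, ev_mem_Nil ha (mem_Nil_mv.1 hU)⟩
    rw [zero_add, h.1, sub_zero, sub_self] at this
    exact this

theorem Cob.X_dvd (h : Cob G f c) : X 1 ∣ c := by
  have hX : ∀ i : Fin 2, (X i : MvPowerSeries (Fin 2) (Ob E)) ∈ Nil _ := fun i => X_mem_Nil i
  have h1 := ev2_sub_ev2_mem (J := Ideal.span {X 1}) (hX 0) (hX 1) (hX 0) (Ideal.zero_mem _)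
    (by simp) (by rw [sub_zero]; exact Ideal.mem_span_singleton_self _) (MvPowerSeries.map C c)
  rwa [h.zero_right (hX 0), sub_zero, ev2_map_C_X, Ideal.mem_span_singleton] at h1

theorem Cob.exists_nu (h : Cob G f c) (m : ℕ) :
    ∃ ν, Nu G m f ν ∧ ν ∈ Ideal.span {(PowerSeries.X : PowerSeries (Ob E))} ^ 2 := by
  induction m with
  | zero => exact ⟨0, fun s => by simp [h.1], Ideal.zero_mem _⟩
  | succ m ih =>
    obtain ⟨ν, hν, hν'⟩ := ih
    have hU : mulSeries G m ∈ Nil (PowerSeries (Ob E)) :=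
      mem_Nil_of_constantCoeff (constantCoeff_mulSeries G m)
    have hX : (PowerSeries.X : PowerSeries (Ob E)) ∈ Nil (PowerSeries (Ob E)) := X_mem_Nil ()
    refine ⟨ν + ev2 (MvPowerSeries.map C c) (mulSeries G m) PowerSeries.X, fun s => ?_,
      Ideal.add_mem _ hν' ?_⟩
    · have e := ev_ev2 (c := fun _ : Unit => s.1) (fun _ => s.2) hU hX c
      have e1 : ev (PowerSeries.X : PowerSeries (Ob E)) (fun _ : Unit => s.1) = s.1 := ev1_X s.2
      have e2 : ev (mulSeries G m) (fun _ : Unit => s.1) = (m • s).1 := (Pt.nsmul_val m s).symm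
      rw [e1, e2] at e
      have e3 : ev1 (ev2 (MvPowerSeries.map C c) (mulSeries G m) PowerSeries.X) s.1 =
        ev2 c (m • s).1 s.1 := e
      rw [ev1_add, e3, Subring.coe_add, hν s, h.2, succ_nsmul]
      push_cast
      ring
    · have := ev2_second_diff (J := Ideal.span {(PowerSeries.X : PowerSeries (Ob E))}) hU hX
        (Ideal.mem_span_singleton.2 (PowerSeries.X_dvd_iff.2 (constantCoeff_mulSeries G m)))
        (Ideal.mem_span_singleton_self _) (MvPowerSeries.map C c)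
      rwa [h.zero_right hU, h.zero_left hX, h.zero_right (Ideal.zero_mem _), sub_zero, sub_zero,
        add_zero] at this

theorem Nu.unique {m : ℕ} (h : Nu G m f ν) (h' : Nu G m f ν') : ν = ν' :=
  sub_eq_zero.1 (eq_zero_of_pt1 G fun s => by
    rw [ev1_sub, AddSubgroupClass.coe_sub, h s, h' s, sub_self])

theorem Cob.identity (h : Cob G f c) {m : ℕ} (hν : Nu G m f ν) :
    subst ![PowerSeries.subst (X 0 : MvPowerSeries (Fin 2) (Ob E)) (mulSeries G m),
      PowerSeries.subst (X 1 : MvPowerSeries (Fin 2) (Ob E)) (mulSeries G m)] c =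
      dser G ν + C (m : Ob E) * c :=
  sub_eq_zero.1 (eq_zero_of_pt2 G fun s t => by
    have hc := pair_mem_Nil s.2 t.2
    have h0 := constantCoeff_mulSeries G m
    have e := ev2_dser G ν s t
    rw [ev2] at e
    rw [ev2, ev_sub, ev_add, ev_C_mul hc, e,
      ev_subst2 hc (hasSubst_subst_X h0 0) (hasSubst_subst_X h0 1),
      ev_subst1 hc (PowerSeries.HasSubst.X _), ev_subst1 hc (PowerSeries.HasSubst.X _),
      ev_X hc, ev_X hc]
    change ((ev2 c (ev1 (mulSeries G m) s.1) (ev1 (mulSeries G m) t.1) - (_ + m * ev2 c s.1 t.1) :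
      Ob E) : E) = 0
    rw [← Pt.nsmul_val, ← Pt.nsmul_val]
    push_cast
    rw [h.2, h.2, hν, hν, hν, nsmul_add]
    ring)

theorem Cob.sub_sum {ι : Type*} [Fintype ι] (h : Cob G f c) {fi : ι → Pt G → E}
    {ci : ι → MvPowerSeries (Fin 2) (Ob E)} (hi : ∀ i, Cob G (fi i) (ci i)) (a : ι → Ob E) :
    Cob G (fun t => f t - ∑ i, a i * fi i t) (c - ∑ i, a i • ci i) := by
  refine ⟨by simp [h.1, (hi _).1], fun s t => ?_⟩
  have hc := pair_mem_Nil s.2 t.2
  have e : ∀ i, ev (a i • ci i) ![s.1, t.1] = a i * ev2 (ci i) s.1 t.1 := fun i => by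
    rw [smul_eq_C_mul, ev_C_mul hc, ev2]
  rw [ev2, ev_sub, ev_sum]
  simp only [e]
  push_cast
  have := h.2 s t
  rw [ev2] at this
  simp only [this, (hi _).2, mul_sub, Finset.sum_sub_distrib]
  ring

theorem Nu.sub_sum {ι : Type*} [Fintype ι] {m : ℕ} (h : Nu G m f ν) {fi : ι → Pt G → E}
    {νi : ι → PowerSeries (Ob E)} (hi : ∀ i, Nu G m (fi i) (νi i)) (a : ι → Ob E) :
    Nu G m (fun t => f t - ∑ i, a i * fi i t) (ν - ∑ i, PowerSeries.C (a i) * νi i) := by
  intro s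
  rw [ev1_sub, ev1_sum]
  simp only [ev1_C_mul s.2]
  push_cast
  simp only [h s, hi _ s, mul_sub, Finset.sum_sub_distrib, Finset.mul_sum]
  have : ∀ i, (a i : E) * (m * fi i s) = m * (a i * fi i s) := fun i => by ring
  simp only [this]
  ring

theorem Cob.sub_dser (h : Cob G f c) {g : PowerSeries (Ob E)}
    (hg : PowerSeries.constantCoeff g = 0) :
    Cob G (fun t => f t - (ev1 g t.1 : Ob E)) (c - dser G g) := by
  refine ⟨by simp [h.1, ev1_at_zero, hg], fun s t => ?_⟩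
  have e := ev2_dser G g s t
  have e' := h.2 s t
  rw [ev2] at e e'
  rw [ev2, ev_sub, e]
  push_cast
  rw [e']
  ring

theorem Cob.div {π : Ob E} (hπ : π ≠ 0) (h : Cob G f (π • c)) :
    Cob G (fun t => f t / π) c := by
  have hπ' : (π : E) ≠ 0 := fun h => hπ (Subtype.ext h)
  refine ⟨by simp [h.1], fun s t => ?_⟩
  have e := h.2 s t
  rw [ev2, smul_eq_C_mul, ev_C_mul (pair_mem_Nil s.2 t.2)] at e
  push_cast at e
  rw [ev2, ← sub_div, ← sub_div, ← e, mul_div_cancel_left₀ _ hπ']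

/-- The reduction step: a cocycle whose `ν` has no `X ^ p ^ j` terms modulo `π` is a coboundary
modulo `π`. -/
theorem Cob.exists_dser {π : Ob E} (hπ : π ∈ Nil (Ob E)) (hpπ : (p : Ob E) ∈ Ideal.span {π})
    {n : ℕ}
    (hred : mulSeries (G.map (Ideal.Quotient.mk (Ideal.span {π}))) p = PowerSeries.X ^ p ^ n)
    (h : Cob G f c) (hν : Nu G p f ν) (hν0 : PowerSeries.constantCoeff ν = 0)
    (hc : ∀ j < n, PowerSeries.coeff (p ^ j) ν ∈ Ideal.span {π}) :
    ∃ (g : PowerSeries (Ob E)) (c' : MvPowerSeries (Fin 2) (Ob E)),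
      c = dser G (PowerSeries.X * g) + π • c' := by
  set φ := Ideal.Quotient.mk (Ideal.span {π}) with hφ
  have hp0 : (p : Ob E ⧸ Ideal.span {π}) = 0 := by
    rw [← map_natCast φ, hφ, Ideal.Quotient.eq_zero_iff_mem]
    exact hpπ
  haveI : Nontrivial (Ob E ⧸ Ideal.span {π}) := Ideal.Quotient.nontrivial_iff.2 fun htop =>
    not_mem_Nil_of_isUnit (Ideal.span_singleton_eq_top.1 htop) hπ
  haveI : CharP (Ob E ⧸ Ideal.span {π}) p := (CharP.charP_iff_prime_eq_zero Fact.out).2 hp0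
  have h0 := constantCoeff_mulSeries G p
  have H := congrArg (MvPowerSeries.map φ) (h.identity hν)
  rw [map_add, map_mul, map_C, map_natCast, hp0, map_zero, zero_mul, add_zero, map_dser,
    map_subst (hasSubst_pair (hasSubst_subst_X h0 0) (hasSubst_subst_X h0 1))] at H
  have e : (fun i => MvPowerSeries.map φ
      (![PowerSeries.subst (X 0 : MvPowerSeries (Fin 2) (Ob E)) (mulSeries G p),
        PowerSeries.subst (X 1 : MvPowerSeries (Fin 2) (Ob E)) (mulSeries G p)] i)) =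
      fun i => X i ^ p ^ n := by
    have e1 : ∀ i : Fin 2, MvPowerSeries.map φ
        (PowerSeries.subst (X i : MvPowerSeries (Fin 2) (Ob E)) (mulSeries G p)) =
          X i ^ p ^ n := fun i => by
      rw [PowerSeries.map_subst (PowerSeries.HasSubst.X i), ← mulSeries_map, hred, map_X,
        PowerSeries.subst_pow (PowerSeries.HasSubst.X i),
        PowerSeries.subst_X (PowerSeries.HasSubst.X i)]
    funext i
    fin_cases i
    · exact e1 0
    · exact e1 1
  rw [e] at H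
  obtain ⟨g, hg0, hg⟩ := cocycle_modp (G.map φ) hred (c := MvPowerSeries.map φ c)
    (ν := PowerSeries.map φ ν) (constantCoeff_map_eq_zero φ hν0)
    (fun j hj => by
      rw [PowerSeries.coeff_map, hφ, Ideal.Quotient.eq_zero_iff_mem]
      exact hc j hj)
    (by
      obtain ⟨c₁, rfl⟩ := h.X_dvd
      rw [map_mul, map_X]
      exact dvd_mul_right _ _)
    (by
      rw [← H, MvPowerSeries.expand, coe_substAlgHom])
  obtain ⟨g, rfl⟩ := PowerSeries.X_dvd_iff.2 hg0
  obtain ⟨g, rfl⟩ := PowerSeries.map_surjective φ Ideal.Quotient.mk_surjective g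
  obtain ⟨c', hc'⟩ := exists_eq_C_mul (c := π) (F := c - dser G (PowerSeries.X * g)) fun α => by
    rw [← Ideal.Quotient.eq_zero_iff_mem, ← hφ, ← coeff_map, map_sub, map_dser, map_mul,
      PowerSeries.map_X, ← hg, sub_self, map_zero]
  exact ⟨g, c', by rw [smul_eq_C_mul, ← hc', add_sub_cancel]⟩

end cob

section fam

variable {σ τ : Type*} [Finite σ] [Finite τ] {G : FormalGroup (Ob E)} [G.IsComm]
  {𝒢 : FormalGroup (MvPowerSeries σ (Ob E))} [𝒢.IsComm]

theorem fg_map_C_ev (G : FormalGroup (Ob E)) {z : τ → Ob E} (hz : ∀ i, z i ∈ Nil (Ob E)) :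
    (G.map (C : Ob E →+* MvPowerSeries τ (Ob E))).map (evHom z hz) = G := by
  rw [fg_map_map, show (evHom z hz).comp C = RingHom.id _ from RingHom.ext fun r => by simp,
    fg_map_id]

theorem fam_const (hG : 𝒢.map constantCoeff = G) :
    (𝒢.map (MvPowerSeries.map (C : Ob E →+* MvPowerSeries τ (Ob E)))).map constantCoeff =
      G.map C := by
  rw [← hG, fg_map_map, fg_map_map]
  rfl

theorem fam_ev (𝒢 : FormalGroup (MvPowerSeries σ (Ob E))) {z : τ → Ob E}
    (hz : ∀ i, z i ∈ Nil (Ob E)) :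
    (𝒢.map (MvPowerSeries.map (C : Ob E →+* MvPowerSeries τ (Ob E)))).map
      (MvPowerSeries.map (evHom z hz)) = 𝒢 := by
  rw [fg_map_map, ← MvPowerSeries.map_comp,
    show (evHom z hz).comp C = RingHom.id _ from RingHom.ext fun r => by simp,
    MvPowerSeries.map_id, fg_map_id]

variable (hp : ‖(p : E)‖ < 1)

theorem fam_spec
    (T : Pt (𝒢.map (MvPowerSeries.map (C : Ob E →+* MvPowerSeries τ (Ob E)))))
    (hT : constantCoeff T.1 = 0) {z : τ → Ob E} (hz : ∀ i, z i ∈ Nil (Ob E)) (i : σ) :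
    lgc hp 𝒢 (Finsupp.single i 1)
      (Pt.map (MvPowerSeries.map (evHom z hz)) (mapsNil_evHom hz).map (fam_ev 𝒢 hz) T) =
      (ev (coeff (Finsupp.single i 1) T.1) z : Ob E) := by
  rw [lgc_single hp _ (by rw [Pt.map_val, constantCoeff_map, hT, map_zero]), Pt.map_val,
    coeff_map, evHom_apply]

theorem fam_cst {z : τ → Ob E} (hz : ∀ i, z i ∈ Nil (Ob E))
    (u : Pt (G.map (C : Ob E →+* MvPowerSeries τ (Ob E)))) :
    Pt.map (MvPowerSeries.map (evHom z hz)) (mapsNil_evHom hz).map (fam_ev 𝒢 hz) (Pt.cst _ u) =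
      Pt.cst 𝒢 (Pt.map (evHom z hz) (mapsNil_evHom hz) (fg_map_C_ev G hz) u) :=
  Pt.ext (map_C _ _)

theorem const_cst {A : Type*} [CommRing A] [Adic A] {𝒢 : FormalGroup (MvPowerSeries σ A)}
    [𝒢.IsComm] {G : FormalGroup A} [G.IsComm] (hG : 𝒢.map constantCoeff = G) (u : Pt G) :
    Pt.map constantCoeff mapsNil_constantCoeff hG (Pt.cst 𝒢 u) = u :=
  Pt.ext (constantCoeff_C _)

theorem cst_zero {A : Type*} [CommRing A] [Adic A] (𝒢 : FormalGroup (MvPowerSeries σ A))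
    (G : FormalGroup A) : Pt.cst 𝒢 (0 : Pt G) = 0 := Pt.ext (map_zero C)

theorem exists_cob_lgc (hG : 𝒢.map constantCoeff = G) (i : σ) :
    ∃ c, Cob G (fun t => lgc hp 𝒢 (Finsupp.single i 1) (Pt.cst 𝒢 t)) c := by
  let x : Pt (G.map (C : Ob E →+* MvPowerSeries (Fin 2) (Ob E))) := ⟨X 0, X_mem_Nil 0⟩
  let y : Pt (G.map (C : Ob E →+* MvPowerSeries (Fin 2) (Ob E))) := ⟨X 1, X_mem_Nil 1⟩
  let T : Pt (𝒢.map (MvPowerSeries.map (C : Ob E →+* MvPowerSeries (Fin 2) (Ob E)))) :=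
    Pt.cst _ (x + y) - Pt.cst _ x - Pt.cst _ y
  have hT : constantCoeff T.1 = 0 := by
    have : Pt.map constantCoeff mapsNil_constantCoeff (fam_const hG) T = 0 := by
      simp only [T, map_sub, const_cst]
      abel
    exact congrArg Pt.val this
  refine ⟨coeff (Finsupp.single i 1) T.1, by simp only [cst_zero, map_zero], fun s t => ?_⟩
  have hz := pair_mem_Nil s.2 t.2
  have hx : Pt.map (evHom _ hz) (mapsNil_evHom hz) (fg_map_C_ev G hz) x = s :=
    Pt.ext (evHom_X hz 0)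
  have hy : Pt.map (evHom _ hz) (mapsNil_evHom hz) (fg_map_C_ev G hz) y = t :=
    Pt.ext (evHom_X hz 1)
  rw [ev2, ← fam_spec hp T hT hz i]
  simp only [T, map_sub, fam_cst, map_add, hx, hy]

theorem exists_nu_lgc (hG : 𝒢.map constantCoeff = G) (i : σ) (m : ℕ) :
    ∃ ν w : PowerSeries (Ob E), Nu G m (fun t => lgc hp 𝒢 (Finsupp.single i 1) (Pt.cst 𝒢 t)) ν ∧
      ∀ k, PowerSeries.coeff k ν + PowerSeries.coeff k (mulSeries G m * w) =
        -coeff (Finsupp.single i 1) (PowerSeries.coeff k (mulSeries 𝒢 m)) := by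
  classical
  let x : Pt (G.map (C : Ob E →+* MvPowerSeries Unit (Ob E))) := ptX G
  let S : Pt (𝒢.map (MvPowerSeries.map (C : Ob E →+* MvPowerSeries Unit (Ob E)))) :=
    m • Pt.cst _ x
  let T : Pt (𝒢.map (MvPowerSeries.map (C : Ob E →+* MvPowerSeries Unit (Ob E)))) :=
    Pt.cst _ (m • x) - S
  have hT : constantCoeff T.1 = 0 := by
    have : Pt.map constantCoeff mapsNil_constantCoeff (fam_const hG) T = 0 := by
      simp only [T, S, map_sub, map_nsmul, const_cst, sub_self]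
    exact congrArg Pt.val this
  have hS : constantCoeff S.1 = mulSeries G m := by
    have : Pt.map constantCoeff mapsNil_constantCoeff (fam_const hG) S = m • x := by
      simp only [S, map_nsmul, const_cst]
    exact (congrArg Pt.val this).trans (nsmul_ptX G m)
  obtain ⟨w, hw⟩ := Ideal.mem_span_singleton'.1 (Pt.add_val_sub_mem T S)
  have hw1 := congrArg (coeff (Finsupp.single i 1)) hw
  have hTS : (T + S).1 = C (m • x).1 := by
    simp only [T, sub_add_cancel]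
    rfl
  rw [mul_comm w, mul_assoc, coeff_single_mul i _ _ hT, map_mul, hS, hTS, map_sub, map_sub,
    coeff_C, if_neg (by simp)] at hw1
  refine ⟨coeff (Finsupp.single i 1) T.1, coeff (Finsupp.single i 1) T.1 * constantCoeff w,
    fun s => ?_, fun k => ?_⟩
  · have hz : ∀ _ : Unit, s.1 ∈ Nil (Ob E) := fun _ => s.2
    have hx : Pt.map (evHom _ hz) (mapsNil_evHom hz) (fg_map_C_ev G hz) x = s :=
      Pt.ext (evHom_X hz ())
    rw [ev1, ← fam_spec hp T hT hz i]
    simp only [T, S, map_sub, fam_cst, map_nsmul, hx, nsmul_eq_mul]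
  · rw [← coeff_ev1_C_X (Finsupp.single i 1) k (mulSeries 𝒢 m), ← map_add, ← map_neg]
    congr 1
    have e : S.1 = ev1 (PowerSeries.map
        (MvPowerSeries.map (PowerSeries.C : Ob E →+* PowerSeries (Ob E))) (mulSeries 𝒢 m))
        (C PowerSeries.X : MvPowerSeries σ (PowerSeries (Ob E))) := by
      rw [← mulSeries_map]
      exact Pt.nsmul_val m _
    rw [← e]
    linear_combination hw1

theorem exists_cob_lg (𝓗 : FormalGroup (Ob E)) [𝓗.IsComm] {π' : Ob E} (hπ' : π' ∈ Nil (Ob E))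
    (hpπ' : (p : Ob E) ∈ Ideal.span {π'}) {Q : PowerSeries (Ob E)}
    (hQ0 : PowerSeries.constantCoeff Q = 0)
    (hQ : IsFGHom (G.map (Ideal.Quotient.mk (Ideal.span {π'})))
      (𝓗.map (Ideal.Quotient.mk (Ideal.span {π'})))
      (PowerSeries.map (Ideal.Quotient.mk (Ideal.span {π'})) Q)) :
    ∃ (b : E) (c : MvPowerSeries (Fin 2) (Ob E)), b ≠ 0 ∧
      Cob G (fun t => b * lg hp 𝓗 (Pt.app 𝓗 Q hQ0 t)) c := by
  obtain ⟨k, hk⟩ := exists_pow_mem_span hπ' (p_ne_zero_Ob (E := E) (p := p))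
  have hp0 : (p : E) ≠ 0 := Nat.cast_ne_zero.2 (Fact.out : p.Prime).ne_zero
  let x : Pt (G.map (C : Ob E →+* MvPowerSeries (Fin 2) (Ob E))) := ⟨X 0, X_mem_Nil 0⟩
  let y : Pt (G.map (C : Ob E →+* MvPowerSeries (Fin 2) (Ob E))) := ⟨X 1, X_mem_Nil 1⟩
  let q : Pt (G.map (C : Ob E →+* MvPowerSeries (Fin 2) (Ob E))) →
      Pt (𝓗.map (C : Ob E →+* MvPowerSeries (Fin 2) (Ob E))) :=
    Pt.app _ (PowerSeries.map C Q) (constantCoeff_map_eq_zero _ hQ0)
  let T := q (x + y) - (q x + q y)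
  have hT : T.1 ∈ Ideal.span {(C π' : MvPowerSeries (Fin 2) (Ob E))} := by
    rw [Pt.sub_val_mem_iff]
    have e1 : (q (x + y)).1 = PowerSeries.subst G.toPowerSeries Q := by
      rw [subst_eq_ev1 (hasSubst_fg G)]
      exact congrArg (ev1 (PowerSeries.map C Q)) (ev2_map_C_X G.toPowerSeries)
    have e2 : (q x + q y).1 = subst ![PowerSeries.subst (X 0 : MvPowerSeries (Fin 2) (Ob E)) Q,
        PowerSeries.subst (X 1 : MvPowerSeries (Fin 2) (Ob E)) Q] 𝓗.toPowerSeries := by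
      rw [subst_eq_ev2 (hasSubst_subst_X hQ0 0) (hasSubst_subst_X hQ0 1),
        subst_eq_ev1 (PowerSeries.HasSubst.X 0), subst_eq_ev1 (PowerSeries.HasSubst.X 1)]
      rfl
    obtain ⟨F, hF⟩ := exists_eq_C_mul (c := π') (F := (q (x + y)).1 - (q x + q y).1) fun α => by
      rw [← Ideal.Quotient.eq_zero_iff_mem, ← coeff_map, map_sub, e1, e2,
        PowerSeries.map_subst (hasSubst_fg G),
        map_subst (hasSubst_pair (hasSubst_subst_X hQ0 0) (hasSubst_subst_X hQ0 1))]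
      have h2 := hQ.2
      rw [FormalGroup.map_toPowerSeries, FormalGroup.map_toPowerSeries] at h2
      rw [h2, sub_eq_zero.2, map_zero]
      congr 1
      funext i
      fin_cases i
      · simp [PowerSeries.map_subst (PowerSeries.HasSubst.X (0 : Fin 2))]
      · simp [PowerSeries.map_subst (PowerSeries.HasSubst.X (1 : Fin 2))]
    rw [hF]
    exact Ideal.mul_mem_right _ _ (Ideal.mem_span_singleton_self _)
  have hT2 := Pt.pow_nsmul_mem_pow (m := p) (j := 0) (t := T)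
    (𝔞 := Ideal.span {(C π' : MvPowerSeries (Fin 2) (Ob E))}) (by
      obtain ⟨r, hr⟩ := Ideal.mem_span_singleton'.1 hpπ'
      rw [← map_natCast (C : Ob E →+* MvPowerSeries (Fin 2) (Ob E)), ← hr, map_mul]
      exact Ideal.mul_mem_left _ _ (Ideal.mem_span_singleton_self _))
    (by rwa [zero_add, pow_one]) k
  rw [Ideal.span_singleton_pow, Ideal.mem_span_singleton'] at hT2
  obtain ⟨r, hr⟩ := hT2
  obtain ⟨c, -, hc⟩ := exists_lg_series hp (p ^ k • T) fun β => by
    rw [← hr, ← map_pow, coeff_mul_C, zero_add, pow_succ]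
    exact Ideal.mul_mem_left _ _ (Ideal.mul_mem_right _ _ hk)
  refine ⟨(p : E) ^ k / p, c, div_ne_zero (pow_ne_zero _ hp0) hp0, ?_, fun s t => ?_⟩
  · have : Pt.app 𝓗 Q hQ0 (0 : Pt G) = 0 := Pt.ext (by
      rw [Pt.app_val, Pt.zero_val, ev1_at_zero, hQ0, Pt.zero_val])
    simp only [this, map_zero, mul_zero]
  have hz := pair_mem_Nil s.2 t.2
  have hx : Pt.map (evHom _ hz) (mapsNil_evHom hz) (fg_map_C_ev G hz) x = s :=
    Pt.ext (evHom_X hz 0)
  have hy : Pt.map (evHom _ hz) (mapsNil_evHom hz) (fg_map_C_ev G hz) y = t :=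
    Pt.ext (evHom_X hz 1)
  have hq : ∀ u, Pt.map (evHom _ hz) (mapsNil_evHom hz) (fg_map_C_ev 𝓗 hz) (q u) =
      Pt.app 𝓗 Q hQ0 (Pt.map (evHom _ hz) (mapsNil_evHom hz) (fg_map_C_ev G hz) u) := fun u =>
    Pt.ext (by
      rw [Pt.map_val, Pt.app_val, Pt.app_val, Pt.map_val, evHom_apply, evHom_apply,
        ev_ev1 hz u.2])
  have h := hc _ hz 𝓗 (fg_map_C_ev 𝓗 hz)
  simp only [T, map_nsmul, map_sub, map_add, hq, hx, hy, nsmul_eq_mul] at h
  push_cast at h
  rw [ev2]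
  field_simp
  linear_combination -h

end fam

section main

variable {G : FormalGroup (Ob E)} [G.IsComm]

theorem norm_ev1_sub_le (g : PowerSeries (Ob E)) (hg : PowerSeries.constantCoeff g = 0)
    {t : Ob E} (ht : t ∈ Nil (Ob E)) :
    ‖((ev1 g t : Ob E) : E) - (PowerSeries.coeff 1 g : Ob E) * t‖ ≤ ‖(t : E)‖ ^ 2 := by
  obtain ⟨c, hc⟩ := exists_ev1_eq ht g
  rw [hc, hg]
  push_cast
  rw [zero_add, add_sub_cancel_left, norm_mul, norm_pow]
  exact mul_le_of_le_one_right (by positivity) (norm_Ob_le c)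

theorem norm_ev1_le (g : PowerSeries (Ob E)) (hg : PowerSeries.constantCoeff g = 0)
    {t : Ob E} (ht : t ∈ Nil (Ob E)) : ‖((ev1 g t : Ob E) : E)‖ ≤ ‖(t : E)‖ :=
  mem_span_iff_norm.1 (ev1_mem_of_mem ht (Ideal.mem_span_singleton_self _)
    (hg.symm ▸ Ideal.zero_mem _))

/-- All integral cocycles are combinations of the `c i` and of coboundaries. -/
theorem Cob.exists_eq (hp : ‖(p : E)‖ < 1) {n : ℕ}
    (𝒢 : FormalGroup (MvPowerSeries (Fin (n - 1)) (Ob E))) [𝒢.IsComm]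
    (hG : 𝒢.map constantCoeff = G) {π : Ob E} (hπ : π ∈ Nil (Ob E))
    (hpπ : (p : Ob E) ∈ Ideal.span {π})
    (hred : mulSeries (G.map (Ideal.Quotient.mk (Ideal.span {π}))) p = PowerSeries.X ^ p ^ n)
    (jac : ∀ i j : Fin (n - 1), coeff (Finsupp.single j 1)
      (PowerSeries.coeff (p ^ ((i : ℕ) + 1)) (mulSeries 𝒢 p)) = if i = j then 1 else 0)
    {ci : Fin (n - 1) → MvPowerSeries (Fin 2) (Ob E)}
    (hci : ∀ i, Cob G (fun t => lgc hp 𝒢 (Finsupp.single i 1) (Pt.cst 𝒢 t)) (ci i))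
    {f : Pt G → E} {c : MvPowerSeries (Fin 2) (Ob E)} (h : Cob G f c) :
    ∃ (a : Fin (n - 1) → Ob E) (g : PowerSeries (Ob E)),
      c = ∑ i, a i • ci i + dser G (PowerSeries.X * g) := by
  have hπ0 : π ≠ 0 := by
    rintro rfl
    exact p_ne_zero_Ob (E := E) (p := p) (by simpa using hpπ)
  have hp1 : 1 < p := (Fact.out : p.Prime).one_lt
  choose νi w hνi hw using fun i => exists_nu_lgc hp hG i p
  have hsq : ∀ {f' : Pt G → E} {c' : MvPowerSeries (Fin 2) (Ob E)} {ν' : PowerSeries (Ob E)},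
      Cob G f' c' → Nu G p f' ν' → ∀ j < 2, PowerSeries.coeff j ν' = 0 := by
    intro f' c' ν' h1 h2
    obtain ⟨ν'', h3, h4⟩ := h1.exists_nu p
    rw [h2.unique h3, ← PowerSeries.X_pow_dvd_iff, ← Ideal.mem_span_singleton,
      ← Ideal.span_singleton_pow]
    exact h4
  have hcoef : ∀ i j : Fin (n - 1), PowerSeries.coeff (p ^ ((j : ℕ) + 1)) (νi i) +
      (if j = i then 1 else 0) ∈ Ideal.span {π} := by
    intro i j
    have h1 := hw i (p ^ ((j : ℕ) + 1))
    rw [jac] at h1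
    have h2 : PowerSeries.coeff (p ^ ((j : ℕ) + 1)) (mulSeries G p * w i) ∈ Ideal.span {π} := by
      rw [← Ideal.Quotient.eq_zero_iff_mem, ← PowerSeries.coeff_map, map_mul, ← mulSeries_map,
        hred, PowerSeries.coeff_X_pow_mul', if_neg]
      have := j.2
      exact not_le.2 (Nat.pow_lt_pow_right hp1 (by omega))
    have := neg_mem h2
    convert this using 1
    linear_combination h1
  let Φ : ((Fin (n - 1) → Ob E) × PowerSeries (Ob E)) →ₗ[Ob E] MvPowerSeries (Fin 2) (Ob E) :=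
    { toFun := fun m => ∑ i, m.1 i • ci i + dser G (PowerSeries.X * m.2)
      map_add' := fun m m' => by
        simp only [Prod.fst_add, Prod.snd_add, Pi.add_apply, add_smul, Finset.sum_add_distrib,
          mul_add, dser_add]
        abel
      map_smul' := fun r m => by
        simp only [Prod.smul_fst, Prod.smul_snd, Pi.smul_apply, smul_eq_mul, mul_smul,
          mul_smul_comm, dser_smul, RingHom.id_apply, smul_add, Finset.smul_sum] }
  obtain ⟨m, hm⟩ := succ_approx π (exists_lim_prod (isDef_span_Ob hπ0 hπ)) (eq_zero_of_smul hπ) Φ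
    {c | ∃ f, Cob G f c} (c := c) (by
      rintro c ⟨f, h⟩
      obtain ⟨ν, hν, -⟩ := h.exists_nu p
      let a : Fin (n - 1) → Ob E := fun j => -PowerSeries.coeff (p ^ ((j : ℕ) + 1)) ν
      have h1 := h.sub_sum hci a
      have h2 := hν.sub_sum hνi a
      obtain ⟨g, c', hc'⟩ := h1.exists_dser hπ hpπ hred h2 (by simpa using hsq h1 h2 0 (by omega))
        (fun j hj => by
          rcases j with _ | j
          · rw [pow_zero, hsq h1 h2 1 (by omega)]
            exact Ideal.zero_mem _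
          · let j' : Fin (n - 1) := ⟨j, by omega⟩
            have h3 := Ideal.sum_mem (Ideal.span {π}) (t := Finset.univ) fun i _ =>
              Ideal.mul_mem_left _ (a i) (hcoef i j')
            simp only [mul_add, Finset.sum_add_distrib, mul_ite, mul_one, mul_zero,
              Finset.sum_ite_eq, Finset.mem_univ, if_true] at h3
            rw [map_sub, map_sum]
            simp only [PowerSeries.coeff_C_mul]
            convert neg_mem h3 using 1
            simp only [a, j']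
            ring)
      refine ⟨(a, g), c', ?_, ?_⟩
      · have h3 := h1.sub_dser (g := PowerSeries.X * g) (by simp)
        rw [hc', add_sub_cancel_left] at h3
        exact ⟨_, h3.div hπ0⟩
      · change c = ∑ i, a i • ci i + dser G (PowerSeries.X * g) + π • c'
        rw [add_assoc, ← hc']
        abel) ⟨f, h⟩
  exact ⟨m.1, m.2, hm⟩

theorem quasilog' (hp : ‖(p : E)‖ < 1) {n : ℕ}
    (𝒢 : FormalGroup (MvPowerSeries (Fin (n - 1)) (Ob E))) [𝒢.IsComm]
    (hG : 𝒢.map constantCoeff = G) {π : Ob E} (hπ : π ∈ Nil (Ob E))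
    (hpπ : (p : Ob E) ∈ Ideal.span {π})
    (hred : mulSeries (G.map (Ideal.Quotient.mk (Ideal.span {π}))) p = PowerSeries.X ^ p ^ n)
    (jac : ∀ i j : Fin (n - 1), coeff (Finsupp.single j 1)
      (PowerSeries.coeff (p ^ ((i : ℕ) + 1)) (mulSeries 𝒢 p)) = if i = j then 1 else 0)
    (𝓗 : FormalGroup (Ob E)) [𝓗.IsComm] {π' : Ob E} (hπ' : π' ∈ Nil (Ob E))
    (hpπ' : (p : Ob E) ∈ Ideal.span {π'}) {Q : PowerSeries (Ob E)}
    (hQ0 : PowerSeries.constantCoeff Q = 0)
    (hQ : IsFGHom (G.map (Ideal.Quotient.mk (Ideal.span {π'})))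
      (𝓗.map (Ideal.Quotient.mk (Ideal.span {π'})))
      (PowerSeries.map (Ideal.Quotient.mk (Ideal.span {π'})) Q)) :
    ∃ (a₀ : E) (a : Fin (n - 1) → E) (K : ℝ), ∀ t : Pt G,
      ‖lg hp 𝓗 (Pt.app 𝓗 Q hQ0 t) - a₀ * lg hp G t -
        ∑ i, a i * lgc hp 𝒢 (Finsupp.single i 1) (Pt.cst 𝒢 t)‖ ≤ K := by
  classical
  have hp0 : (p : E) ≠ 0 := Nat.cast_ne_zero.2 (Fact.out : p.Prime).ne_zero
  have hp0' : 0 < ‖(p : E)‖ := norm_pos_iff.2 hp0
  obtain ⟨b, c, hb, hc⟩ := exists_cob_lg hp 𝓗 hπ' hpπ' hQ0 hQ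
  choose ci hci using fun i => exists_cob_lgc hp hG i
  obtain ⟨a, g, hg⟩ := Cob.exists_eq hp 𝒢 hG hπ hpπ hred jac hci hc
  have hg0 : PowerSeries.constantCoeff (PowerSeries.X * g) = 0 := by simp
  generalize PowerSeries.X * g = g at hg hg0
  have h1 := (hc.sub_sum hci a).sub_dser hg0
  rw [hg, add_sub_cancel_left, sub_self] at h1
  let A : Pt G →+ E :=
    { toFun := fun t => b * lg hp 𝓗 (Pt.app 𝓗 Q hQ0 t) -
        ∑ i, a i * lgc hp 𝒢 (Finsupp.single i 1) (Pt.cst 𝒢 t) - (ev1 g t.1 : Ob E)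
      map_zero' := h1.1
      map_add' := fun s t => by
        have := h1.2 s t
        rw [ev2, ev_zero] at this
        push_cast at this
        linear_combination -this }
  have hA := eq_mul_lg hp A (b * (PowerSeries.coeff 1 Q : Ob E) - (PowerSeries.coeff 1 g : Ob E))
    (‖b‖ * (1 / ‖(p : E)‖ + 1) + ∑ _i : Fin (n - 1), 1 / ‖(p : E)‖ + 1) _ hp0' fun t ht => by
      have e1 := norm_ev1_le Q hQ0 t.2
      have e2 := norm_lg_sub_le hp (Pt.app 𝓗 Q hQ0 t) (e1.trans ht)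
      have e3 := norm_ev1_sub_le Q hQ0 t.2
      have e4 := norm_ev1_sub_le g hg0 t.2
      have e5 : ∀ i, ‖(a i : E) * lgc hp 𝒢 (Finsupp.single i 1) (Pt.cst 𝒢 t)‖ ≤
          1 / ‖(p : E)‖ * ‖(t.1 : E)‖ ^ 2 := fun i => by
        have := norm_lgc_sub_le hp ht (Pt.cst 𝒢 t) (fun β => by
          change coeff β (C t.1) ∈ _
          rw [coeff_C]
          split_ifs
          · exact Ideal.mem_span_singleton_self _
          · exact Ideal.zero_mem _) (Finsupp.single i 1)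
        have e : coeff (Finsupp.single i 1) (Pt.cst 𝒢 t).1 = 0 := by
          change coeff _ (C t.1) = 0
          rw [coeff_C, if_neg (by simp)]
        rw [e, ZeroMemClass.coe_zero, sub_zero] at this
        rw [norm_mul, one_div_mul_eq_div]
        exact (mul_le_of_le_one_left (norm_nonneg _) (norm_Ob_le _)).trans this
      have e6 : ‖lg hp 𝓗 (Pt.app 𝓗 Q hQ0 t) - (PowerSeries.coeff 1 Q : Ob E) * t.1‖ ≤
          (1 / ‖(p : E)‖ + 1) * ‖(t.1 : E)‖ ^ 2 := by
        rw [Pt.app_val] at e2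
        have e7 : ‖((ev1 Q t.1 : Ob E) : E)‖ ^ 2 / ‖(p : E)‖ ≤ ‖(t.1 : E)‖ ^ 2 / ‖(p : E)‖ := by
          gcongr
        have := norm_sub_le_norm_sub_add_norm_sub (lg hp 𝓗 (Pt.app 𝓗 Q hQ0 t))
          ((ev1 Q t.1 : Ob E) : E) ((PowerSeries.coeff 1 Q : Ob E) * t.1)
        rw [add_mul, one_div_mul_eq_div, one_mul]
        linarith
      have e8 : A t - (b * (PowerSeries.coeff 1 Q : Ob E) - (PowerSeries.coeff 1 g : Ob E)) * t.1 =
          b * (lg hp 𝓗 (Pt.app 𝓗 Q hQ0 t) - (PowerSeries.coeff 1 Q : Ob E) * t.1) -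
          ∑ i, a i * lgc hp 𝒢 (Finsupp.single i 1) (Pt.cst 𝒢 t) -
          (((ev1 g t.1 : Ob E) : E) - (PowerSeries.coeff 1 g : Ob E) * t.1) := by
        change b * lg hp 𝓗 (Pt.app 𝓗 Q hQ0 t) -
          ∑ i, a i * lgc hp 𝒢 (Finsupp.single i 1) (Pt.cst 𝒢 t) - (ev1 g t.1 : Ob E) - _ = _
        ring
      rw [e8, add_mul, add_mul, one_mul, Finset.sum_mul]
      refine (norm_sub_le _ _).trans (add_le_add ((norm_sub_le _ _).trans (add_le_add ?_ ?_)) e4)
      · rw [norm_mul, mul_assoc]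
        exact mul_le_mul_of_nonneg_left e6 (norm_nonneg _)
      · exact norm_sum_le_of_le _ fun i _ => e5 i
  refine ⟨(b * (PowerSeries.coeff 1 Q : Ob E) - (PowerSeries.coeff 1 g : Ob E)) / b,
    fun i => a i / b, ‖b⁻¹‖, fun t => ?_⟩
  have h2 : b * lg hp 𝓗 (Pt.app 𝓗 Q hQ0 t) -
    ∑ i, a i * lgc hp 𝒢 (Finsupp.single i 1) (Pt.cst 𝒢 t) - (ev1 g t.1 : Ob E) = _ := hA t
  have h3 : ∑ i, (a i : E) / b * lgc hp 𝒢 (Finsupp.single i 1) (Pt.cst 𝒢 t) =
      (∑ i, a i * lgc hp 𝒢 (Finsupp.single i 1) (Pt.cst 𝒢 t)) / b := by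
    rw [Finset.sum_div]
    exact Finset.sum_congr rfl fun i _ => by ring
  have h4 : lg hp 𝓗 (Pt.app 𝓗 Q hQ0 t) -
      (b * (PowerSeries.coeff 1 Q : Ob E) - (PowerSeries.coeff 1 g : Ob E)) / b * lg hp G t -
      (∑ i, a i * lgc hp 𝒢 (Finsupp.single i 1) (Pt.cst 𝒢 t)) / b =
      b⁻¹ * (ev1 g t.1 : Ob E) := by
    field_simp
    linear_combination h2
  rw [h3, h4, norm_mul]
  exact mul_le_of_le_one_right (norm_nonneg _) (norm_Ob_le _)

end main

theorem quasilog (hp : ‖(p : E)‖ < 1) {n : ℕ} (hn : 1 ≤ n)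
    (𝒢 : FormalGroup (MvPowerSeries (Fin (n - 1)) (Ob E))) [𝒢.IsComm] {G : FormalGroup (Ob E)}
    [G.IsComm] (hG : 𝒢.map constantCoeff = G) {π : Ob E} (hπ : π ∈ Nil (Ob E))
    (hpπ : (p : Ob E) ∈ Ideal.span {π})
    (hred : mulSeries (G.map (Ideal.Quotient.mk (Ideal.span {π}))) p = PowerSeries.X ^ p ^ n)
    (jac : ∀ i j : Fin (n - 1), coeff (Finsupp.single j 1)
      (PowerSeries.coeff (p ^ ((i : ℕ) + 1)) (mulSeries 𝒢 p)) = if i = j then 1 else 0)
    (𝓗 : FormalGroup (Ob E)) [𝓗.IsComm] {Q : PowerSeries (Ob E)}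
    (hQ0 : PowerSeries.constantCoeff Q = 0)
    (hQ : IsFGHom (G.map (Ideal.Quotient.mk (Ideal.span {(p : Ob E)})))
      (𝓗.map (Ideal.Quotient.mk (Ideal.span {(p : Ob E)})))
      (PowerSeries.map (Ideal.Quotient.mk (Ideal.span {(p : Ob E)})) Q)) :
    ∃ (a₀ : E) (a : Fin (n - 1) → E) (K : ℝ), ∀ t : Pt G,
      ‖lg hp 𝓗 (Pt.app 𝓗 Q hQ0 t) - a₀ * lg hp G t -
        ∑ i, a i * lgc hp 𝒢 (Finsupp.single i 1) (Pt.cst 𝒢 t)‖ ≤ K :=
  quasilog' hp 𝒢 hG hπ hpπ hred jac 𝓗 (p_mem_Nil hp) (Ideal.mem_span_singleton_self _) hQ0 hQ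

end Crest.Agent.R227
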