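import Crest.Agent.R227.Descent
import Crest.Agent.R227.Pt

/-! Row 227 (S0351), module `Rigid`: a bounded subgroup of `H ^ σ` that satisfies an equation
satisfies a linear relation over the endomorphism ring. -/

set_option autoImplicit false
set_option linter.unusedSectionVars false
set_option linter.style.haveILetI false

namespace Crest.Agent.R227

open MvPowerSeries Filter Crest.LubinTate

namespace RigidAux

section general

variable {A : Type*} [CommRing A] [Adic A] {σ τ : Type*} [Finite σ] [Finite τ]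

theorem option_mem_Nil {t : A} {c : σ → A} (ht : t ∈ Nil A) (hc : ∀ i, c i ∈ Nil A) :
    ∀ o : Option σ, o.elim t c ∈ Nil A := by
  rintro (_ | i)
  · exact ht
  · exact hc i

/-- Translation of a series by a point of `H ^ σ`. -/
noncomputable def tr (H : FormalGroup A) (μ : σ → Pt H) (F : MvPowerSeries σ A) :
    MvPowerSeries σ A :=
  ev (MvPowerSeries.map C F)
    (fun i => ev2 (MvPowerSeries.map C H.toPowerSeries) (X i) (C (μ i).1))

theorem ev_tr (H : FormalGroup A) (μ a : σ → Pt H) (F : MvPowerSeries σ A) :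
    ev (tr H μ F) (fun i => (a i).1) = ev F (fun i => (a i + μ i).1) := by
  have ha : ∀ i, (a i).1 ∈ Nil A := fun i => (a i).2
  refine (ev_ev ha (fun i => ev2_mem_Nil (H.map C) (X_mem_Nil i) (mapsNil_C _ (μ i).2)) F).trans ?_
  congr 1
  funext i
  rw [FormalGroup.map_toPowerSeries, ev_ev2 ha (X_mem_Nil i) (mapsNil_C _ (μ i).2), ev_X ha,
    ev_C ha, Pt.add_val]

/-- Restriction to the distinguished coordinate axis. -/
noncomputable def ax : MvPowerSeries (Option σ) A →+* PowerSeries A :=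
  (killCompl (R := A) (⟨fun _ => none, fun _ _ _ => rfl⟩ : Unit ↪ Option σ)).toRingHom

theorem coeff_ax (d : ℕ) (F : MvPowerSeries (Option σ) A) :
    PowerSeries.coeff d (ax F) = coeff (Finsupp.single none d) F := by
  change coeff (Finsupp.single () d) (killCompl _ F) = _
  rw [coeff_killCompl, Finsupp.embDomain_single]
  rfl

theorem ax_C (r : A) : ax (C r : MvPowerSeries (Option σ) A) = PowerSeries.C r := killCompl_C r

theorem ax_X_none : ax (X none : MvPowerSeries (Option σ) A) = PowerSeries.X :=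
  killCompl_X (e := (⟨fun _ => none, fun _ _ _ => rfl⟩ : Unit ↪ Option σ)) ()

theorem ax_X_some (i : σ) : ax (X (some i) : MvPowerSeries (Option σ) A) = 0 :=
  killCompl_X_eq_zero (by rintro ⟨_, h⟩; cases h)

theorem ev1_ax {t : A} (ht : t ∈ Nil A) (F : MvPowerSeries (Option σ) A) :
    ev1 (ax F) t = ev F (fun o => o.elim t fun _ => 0) := by
  have hN := option_mem_Nil (c := fun _ : σ => (0 : A)) ht fun _ => Ideal.zero_mem _
  have : (evHom (fun _ : Unit => t) fun _ => ht).comp ax = evHom _ hN := by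
    refine hom_ext ?_ (fun r => ?_) ?_
    · rintro (_ | i)
      · rw [RingHom.comp_apply, ax_X_none, evHom_apply]
        change ev1 PowerSeries.X t ∈ _
        rwa [ev1_X ht]
      · rw [RingHom.comp_apply, ax_X_some, map_zero]
        exact Ideal.zero_mem _
    · rw [RingHom.comp_apply, ax_C, evHom_C]
      exact evHom_C _ r
    · rintro (_ | i)
      · rw [RingHom.comp_apply, ax_X_none, evHom_X]
        exact evHom_X _ ()
      · rw [RingHom.comp_apply, ax_X_some, map_zero, evHom_X]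
        rfl
  have h := DFunLike.congr_fun this F
  rwa [RingHom.comp_apply, evHom_apply, evHom_apply] at h

theorem sl_mem : ∀ o : Option σ, o.elim (PowerSeries.X : PowerSeries (MvPowerSeries σ A))
    (fun i => PowerSeries.C (X i)) ∈ Nil (PowerSeries (MvPowerSeries σ A)) :=
  option_mem_Nil (X_mem_Nil ()) fun i => mapsNil_C _ (X_mem_Nil i)

/-- A series in the variables `Option σ` as a series in one variable over `A⟦σ⟧`. -/
noncomputable def sl : MvPowerSeries (Option σ) A →+* PowerSeries (MvPowerSeries σ A) :=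
  (evHom _ sl_mem).comp (MvPowerSeries.map (PowerSeries.C.comp C))

theorem sl_C (r : A) : sl (C r : MvPowerSeries (Option σ) A) = PowerSeries.C (C r) := by
  rw [sl, RingHom.comp_apply, map_C, evHom_C, RingHom.comp_apply]

theorem sl_X_none : sl (X none : MvPowerSeries (Option σ) A) = PowerSeries.X := by
  rw [sl, RingHom.comp_apply, map_X, evHom_X]
  rfl

theorem sl_X_some (i : σ) :
    sl (X (some i) : MvPowerSeries (Option σ) A) = PowerSeries.C (X i) := by
  rw [sl, RingHom.comp_apply, map_X, evHom_X]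
  rfl

theorem ev1_sl {t : A} {c : σ → A} (ht : t ∈ Nil A) (hc : ∀ i, c i ∈ Nil A)
    (F : MvPowerSeries (Option σ) A) :
    ev1 (PowerSeries.map (evHom c hc) (sl F)) t = ev F (fun o => o.elim t c) := by
  have hN := option_mem_Nil ht hc
  have hX : ∀ o, ((evHom (fun _ : Unit => t) fun _ => ht).comp
      ((PowerSeries.map (evHom c hc)).comp sl)) (X o) = o.elim t c := by
    rintro (_ | i)
    · rw [RingHom.comp_apply, RingHom.comp_apply, sl_X_none, PowerSeries.map_X]
      exact evHom_X _ ()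
    · rw [RingHom.comp_apply, RingHom.comp_apply, sl_X_some, PowerSeries.map_C, evHom_X]
      exact evHom_C _ _
  have : (evHom (fun _ : Unit => t) fun _ => ht).comp ((PowerSeries.map (evHom c hc)).comp sl) =
      evHom _ hN := by
    refine hom_ext (fun o => (hX o).symm ▸ hN o) (fun r => ?_) fun o => by rw [hX, evHom_X]
    rw [RingHom.comp_apply, RingHom.comp_apply, sl_C, PowerSeries.map_C, evHom_C, evHom_C]
    exact evHom_C _ r
  have h := DFunLike.congr_fun this F
  rwa [RingHom.comp_apply, evHom_apply, evHom_apply] at h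

theorem map_sl (F : MvPowerSeries (Option σ) A) :
    PowerSeries.map (constantCoeff : MvPowerSeries σ A →+* A) (sl F) = ax F := by
  have hX : ∀ o, ((PowerSeries.map (constantCoeff : MvPowerSeries σ A →+* A)).comp sl) (X o) =
      ax (X o) := by
    rintro (_ | i)
    · rw [RingHom.comp_apply, sl_X_none, PowerSeries.map_X, ax_X_none]
    · rw [RingHom.comp_apply, sl_X_some, PowerSeries.map_C, ax_X_some, constantCoeff_X, map_zero]
  have : (PowerSeries.map (constantCoeff : MvPowerSeries σ A →+* A)).comp sl = ax := by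
    refine hom_ext (fun o => ?_) (fun r => ?_) hX
    · rw [hX]
      rcases o with _ | i
      · rw [ax_X_none]
        exact X_mem_Nil ()
      · rw [ax_X_some]
        exact Ideal.zero_mem _
    · rw [RingHom.comp_apply, sl_C, PowerSeries.map_C, ax_C, constantCoeff_C]
  exact DFunLike.congr_fun this F

/-- If `P(w)` vanishes to order `d = deg P` for a series `w = b + u T + …` with `u` a unit, then
`P = (Y - b) ^ d`. -/
theorem eq_pow_of_dvd [IsDomain A] {P : Polynomial A} (hP : P.Monic) {w : PowerSeries A}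
    (hw : IsUnit (PowerSeries.coeff 1 w))
    (h : PowerSeries.X ^ P.natDegree ∣ P.eval₂ PowerSeries.C w) :
    P = (Polynomial.X - Polynomial.C (PowerSeries.constantCoeff w)) ^ P.natDegree := by
  set b := PowerSeries.constantCoeff w with hb
  obtain ⟨Q, hQ, hQb⟩ := P.exists_eq_pow_rootMultiplicity_mul_and_not_dvd hP.ne_zero b
  set k := P.rootMultiplicity b with hk
  obtain ⟨u, hu⟩ : PowerSeries.X ∣ w - PowerSeries.C b := by
    rw [PowerSeries.X_dvd_iff]
    simp [hb]
  have hu0 : PowerSeries.constantCoeff u = PowerSeries.coeff 1 w := by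
    have := congrArg (PowerSeries.coeff 1) hu
    rw [map_sub, PowerSeries.coeff_C, if_neg one_ne_zero, sub_zero,
      PowerSeries.coeff_succ_X_mul, PowerSeries.coeff_zero_eq_constantCoeff] at this
    exact this.symm
  have hle : P.natDegree ≤ k := by
    by_contra hlt
    push Not at hlt
    have e : P.eval₂ PowerSeries.C w = PowerSeries.X ^ k * (u ^ k * Q.eval₂ PowerSeries.C w) := by
      conv_lhs => rw [hQ]
      rw [Polynomial.eval₂_mul, Polynomial.eval₂_pow, Polynomial.eval₂_sub, Polynomial.eval₂_X,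
        Polynomial.eval₂_C, hu, mul_pow, mul_assoc]
    have h1 := PowerSeries.X_pow_dvd_iff.1 h k hlt
    rw [e, PowerSeries.coeff_X_pow_mul', if_pos le_rfl, Nat.sub_self,
      PowerSeries.coeff_zero_eq_constantCoeff, map_mul, map_pow, hu0, Polynomial.hom_eval₂,
      PowerSeries.constantCoeff_comp_C, Polynomial.eval₂_id, ← hb] at h1
    rcases mul_eq_zero.1 h1 with h2 | h2
    · exact (hw.pow k).ne_zero h2
    · exact hQb (Polynomial.dvd_iff_isRoot.2 h2)
  have hdvd : (Polynomial.X - Polynomial.C b) ^ P.natDegree ∣ P :=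
    (pow_dvd_pow _ hle).trans (P.pow_rootMultiplicity_dvd b)
  exact Polynomial.eq_of_monic_of_dvd_of_natDegree_le ((Polynomial.monic_X_sub_C b).pow _) hP hdvd
    (by simp)

theorem coeff_pow_charP {R : Type*} [CommRing R] {p : ℕ} [Fact p.Prime] [CharP R p] (b : R)
    (e d' : ℕ) : ((Polynomial.X - Polynomial.C b) ^ (p ^ e * (d' + 1))).coeff (d' * p ^ e) =
      -((d' + 1 : ℕ) * b ^ p ^ e) := by
  have h1 : (Polynomial.X - Polynomial.C b) ^ (p ^ e * (d' + 1)) =
      Polynomial.expand R (p ^ e) ((Polynomial.X + Polynomial.C (-b ^ p ^ e)) ^ (d' + 1)) := by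
    rw [pow_mul, sub_pow_char_pow, map_pow (Polynomial.expand R (p ^ e)), map_add,
      Polynomial.expand_X, Polynomial.expand_C, map_neg, map_pow, sub_eq_add_neg]
  rw [h1, Polynomial.coeff_expand_mul (pow_pos (Fact.out : p.Prime).pos e),
    Polynomial.coeff_X_add_C_pow, Nat.add_sub_cancel_left, Nat.choose_succ_self_right]
  ring

end general

variable {p : ℕ} [Fact p.Prime] {K : Type*} [NontriviallyNormedField K] [VF K] [CharP K p]

theorem eq_zero_of_points (H : FormalGroup (Ob K)) {σ : Type*} [Finite σ]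
    {F : MvPowerSeries σ (Ob K)} (h : ∀ a : σ → Pt H, ev F (fun i => (a i).1) = 0) : F = 0 :=
  eq_zero_of_ev_eq_zero one_pos fun a ha _ => h fun i => ⟨a i, ha i⟩

theorem isFGHom_of_points (H : FormalGroup (Ob K)) {θ : PowerSeries (Ob K)}
    (h0 : PowerSeries.constantCoeff θ = 0)
    (h : ∀ s t : Pt H, ev1 θ (s + t).1 = ev2 H.toPowerSeries (ev1 θ s.1) (ev1 θ t.1)) :
    IsFGHom H H θ := by
  rw [isFGHom_iff]
  refine ⟨h0, sub_eq_zero.1 (eq_zero_of_points H fun a => ?_)⟩
  have ha : ∀ i, (a i).1 ∈ Nil (Ob K) := fun i => (a i).2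
  have hN : ∀ i : Fin 2, ev1 (PowerSeries.map C θ) (X i) ∈ Nil (MvPowerSeries (Fin 2) (Ob K)) :=
    fun i => ev1_mem_Nil' (X_mem_Nil i) (constantCoeff_map_eq_zero _ h0)
  rw [ev_sub, ev_ev1 ha (mem_Nil_of_constantCoeff H.zero_constantCoeff), ev_ev2 ha (hN 0) (hN 1),
    ev_ev1 ha (X_mem_Nil 0), ev_ev1 ha (X_mem_Nil 1), ev_X ha, ev_X ha, sub_eq_zero, ← h,
    Pt.add_val, ev2]
  congr 2
  funext i
  fin_cases i <;> rfl

variable {h : ℕ} {H : FormalGroup (Ob K)} [H.IsComm]

theorem pow_nsmul_val (hH : mulSeries H p = PowerSeries.X ^ p ^ h) (m : ℕ) (t : Pt H) :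
    (p ^ m • t).1 = t.1 ^ (p ^ h) ^ m := by
  induction m with
  | zero => simp
  | succ m ih =>
    rw [pow_succ' p, mul_nsmul', Pt.nsmul_val, hH, ev1_X_pow (Pt.mem _), ih, ← pow_mul, ← pow_succ]

theorem exists_coeff_one (hh : 1 ≤ h) (hH : mulSeries H p = PowerSeries.X ^ p ^ h) {σ : Type*}
    [Finite σ] (Λ : AddSubgroup (σ → Pt H)) {ρ : ℝ} (hρ0 : 0 ≤ ρ) (hρ : ρ < 1)
    (hΛ : ∀ l ∈ Λ, ∀ i, ‖((l i).1 : K)‖ ≤ ρ) {F : MvPowerSeries σ (Ob K)}
    (hZ : ∀ l ∈ Λ, ev F (fun i => (l i).1) = 0) {α₀ : σ →₀ ℕ} (hα : coeff α₀ F ≠ 0) :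
    ∃ F' : MvPowerSeries σ (Ob K), coeff α₀ F' = 1 ∧ ∀ l ∈ Λ, ev F' (fun i => (l i).1) = 0 := by
  obtain ⟨F', h1, h2⟩ := descent (p := p) hh hρ0 hρ
    ((fun l i => (l i).1) '' (Λ : Set (σ → Pt H))) (by rintro _ ⟨l, hl, rfl⟩; exact hΛ l hl)
    (F := MvPowerSeries.map (Ob K).subtype F) (α₀ := α₀)
    (fun h0 => hα (Subtype.ext h0)) (by
      rintro _ ⟨l, hl, rfl⟩
      refine asymZero_of_ev (two_le_pow_p hh) hρ0 hρ (hΛ l hl) fun m => ?_
      have := hZ _ (Λ.nsmul_mem hl (p ^ m))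
      simpa only [Pi.smul_apply, pow_nsmul_val hH] using this)
  exact ⟨F', h1, fun l hl => h2 _ ⟨l, hl, rfl⟩⟩

variable {σ : Type} [Fintype σ]

/-- A series that is additive on a Zariski dense subgroup is a sum of endomorphisms. -/
theorem exists_hom_of_additive (Λ : AddSubgroup (σ → Pt H))
    (hΛ : ∀ G : MvPowerSeries σ (Ob K), (∀ l ∈ Λ, ev G (fun i => (l i).1) = 0) → G = 0)
    {φ : MvPowerSeries σ (Ob K)} (h0 : constantCoeff φ = 0)
    (hadd : ∀ l ∈ Λ, ∀ m ∈ Λ, ev φ (fun i => (l i + m i).1) =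
      ev2 H.toPowerSeries (ev φ fun i => (l i).1) (ev φ fun i => (m i).1)) :
    ∃ (θ : σ → PowerSeries (Ob K)) (hθ : ∀ i, IsFGHom H H (θ i)),
      ∀ a : σ → Pt H, ev φ (fun i => (a i).1) = (∑ i, Pt.hom (hθ i) (a i)).1 := by
  classical
  let f : (σ → Pt H) → Pt H := fun a => ⟨ev φ fun i => (a i).1,
    ev_mem_Nil (fun i => (a i).2) (h0.symm ▸ Ideal.zero_mem _)⟩
  have key : ∀ b : σ → Pt H, (∀ l ∈ Λ, f (l + b) = f l + f b) → ∀ a, f (a + b) = f a + f b := by
    intro b hb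
    let G : MvPowerSeries σ (Ob K) :=
      tr H b φ - ev2 (MvPowerSeries.map C H.toPowerSeries) φ (C (f b).1)
    have hG : ∀ a : σ → Pt H, ev G (fun i => (a i).1) = (f (a + b)).1 - (f a + f b).1 := fun a => by
      have ha : ∀ i, (a i).1 ∈ Nil (Ob K) := fun i => (a i).2
      rw [ev_sub, ev_tr, ev_ev2 ha (mem_Nil_of_constantCoeff h0) (mapsNil_C _ (f b).2), ev_C ha]
      rfl
    have hG0 : G = 0 := hΛ G fun l hl => by rw [hG, hb l hl, sub_self]
    intro a
    refine Pt.ext (sub_eq_zero.1 ?_)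
    rw [← hG, hG0, ev_zero]
  have h1 : ∀ m ∈ Λ, ∀ a, f (a + m) = f a + f m := fun m hm =>
    key m fun l hl => Pt.ext (hadd l hl m hm)
  have h2 : ∀ a b, f (a + b) = f a + f b := fun a b =>
    key b (fun l hl => by rw [add_comm l, h1 l hl, add_comm]) a
  let f' : (σ → Pt H) →+ Pt H := AddMonoidHom.mk' f h2
  have hN : ∀ i j : σ, (Pi.single i PowerSeries.X : σ → PowerSeries (Ob K)) j ∈
      Nil (PowerSeries (Ob K)) := fun i j => by
    rcases eq_or_ne j i with rfl | hij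
    · rw [Pi.single_eq_same]
      exact X_mem_Nil ()
    · rw [Pi.single_eq_of_ne hij]
      exact Ideal.zero_mem _
  let θ : σ → PowerSeries (Ob K) := fun i =>
    ev (MvPowerSeries.map C φ) (Pi.single i PowerSeries.X : σ → PowerSeries (Ob K))
  have hθ : ∀ i (t : Pt H), ev1 (θ i) t.1 = (f' (Pi.single i t)).1 := fun i t => by
    refine (ev_ev (c := fun _ : Unit => t.1) (fun _ => t.2) (hN i) φ).trans ?_
    change _ = ev φ _
    congr 1
    funext j
    rcases eq_or_ne j i with rfl | hij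
    · rw [Pi.single_eq_same, Pi.single_eq_same]
      exact ev1_X t.2
    · rw [Pi.single_eq_of_ne hij, Pi.single_eq_of_ne hij, ev_zero, Pt.zero_val]
  have hhom : ∀ i, IsFGHom H H (θ i) := fun i => by
    refine isFGHom_of_points H ?_ fun s t => ?_
    · rw [← ev1_at_zero, ← Pt.zero_val (G := H), hθ, Pi.single_zero, map_zero]
    · rw [hθ, hθ, hθ, Pi.single_add, map_add, Pt.add_val]
  refine ⟨θ, hhom, fun a => ?_⟩
  have h3 : ∀ i, Pt.hom (hhom i) (a i) = f' (Pi.single i (a i)) := fun i => Pt.ext (hθ i _)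
  simp only [h3]
  rw [← map_sum, Finset.univ_sum_single]
  rfl

/-- The projection that forgets the distinguished coordinate. -/
def proj (H : FormalGroup (Ob K)) [H.IsComm] (σ : Type) : (Option σ → Pt H) →+ (σ → Pt H) where
  toFun l i := l (some i)
  map_zero' := rfl
  map_add' _ _ := rfl

theorem exists_ax_ne_zero (Λ : AddSubgroup (Option σ → Pt H))
    (hΛ : ∀ G : MvPowerSeries σ (Ob K), (∀ l ∈ Λ, ev G (fun i => (l (some i)).1) = 0) → G = 0)
    {F : MvPowerSeries (Option σ) (Ob K)} (hF : F ≠ 0) : ∃ l ∈ Λ, ax (tr H l F) ≠ 0 := by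
  by_contra hc
  push Not at hc
  refine hF (eq_zero_of_points H fun a => ?_)
  have hN := option_mem_Nil (A := MvPowerSeries σ (Ob K)) (mapsNil_C _ (a none).2) X_mem_Nil
  have hG : ∀ c : σ → Pt H, ev (ev (MvPowerSeries.map C F)
      fun o => o.elim (C (a none).1) (X : σ → MvPowerSeries σ (Ob K))) (fun i => (c i).1) =
      ev F fun o => (o.elim (a none) c).1 := fun c => by
    have hc : ∀ i, (c i).1 ∈ Nil (Ob K) := fun i => (c i).2
    rw [ev_ev hc hN]
    congr 1
    funext o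
    rcases o with _ | i
    · exact ev_C hc _
    · exact ev_X hc i
  have h0 := hΛ _ fun l hl => (hG fun i => l (some i)).trans (by
    have h1 := ev1_ax (a none - l none).2 (tr H l F)
    have h2 := ev_tr H l (fun o => o.elim (a none - l none) fun _ => 0) F
    rw [hc l hl, ev1_zero] at h1
    have e1 : (fun o : Option σ => (o.elim (a none - l none) fun _ => (0 : Pt H)).1) =
        fun o => o.elim (a none - l none).1 fun _ => 0 := by
      funext o
      rcases o with _ | i <;> rfl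
    have e2 : (fun o : Option σ => ((o.elim (a none - l none) fun _ => (0 : Pt H)) + l o).1) =
        fun o => (o.elim (a none) fun i => l (some i)).1 := by
      funext o
      rcases o with _ | i
      · exact congrArg Pt.val (sub_add_cancel _ _)
      · exact congrArg Pt.val (zero_add _)
    rw [e1, e2, ← h1] at h2
    exact h2.symm)
  have h3 := hG fun i => a (some i)
  rw [h0, ev_zero] at h3
  rw [h3]
  congr 1
  funext o
  rcases o with _ | i <;> rfl

theorem ax_tr (l : Option σ → Pt H) (F : MvPowerSeries (Option σ) (Ob K)) :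
    ax (tr H l F) = ev1 (PowerSeries.map C (PowerSeries.map
      (evHom (fun i => (l (some i)).1) fun i => (l (some i)).2) (sl F))) (lser H (l none).1) := by
  refine sub_eq_zero.1 (eq_zero_of_points H fun a => ?_)
  have ha : ∀ i, (a i).1 ∈ Nil (Ob K) := fun i => (a i).2
  have hw : lser H (l none).1 ∈ Nil (PowerSeries (Ob K)) :=
    mem_Nil_mv.2 ((constantCoeff_lser H (l none).2).symm ▸ (l none).2)
  rw [ev_sub, ev_ev1 ha hw, sub_eq_zero]
  have e0 : (fun i => (a i).1) = fun _ => (a ()).1 := rfl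
  rw [e0]
  change ev1 _ _ = ev1 _ (ev1 _ _)
  rw [ev1_lser H (a ()).2 (l none).2, ← Pt.add_val, ev1_sl (Pt.mem _), ev1_ax (a ()).2]
  have h2 := ev_tr H l (fun o => o.elim (a ()) fun _ => 0) F
  have e1 : (fun o : Option σ => (o.elim (a ()) fun _ => (0 : Pt H)).1) =
      fun o => o.elim (a ()).1 fun _ => 0 := by
    funext o
    rcases o with _ | i <;> rfl
  rw [e1] at h2
  rw [h2]
  congr 1
  funext o
  rcases o with _ | i
  · rfl
  · exact congrArg Pt.val (zero_add _)

theorem exists_graph (hh : 1 ≤ h) (hH : mulSeries H p = PowerSeries.X ^ p ^ h)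
    (Λ : AddSubgroup (Option σ → Pt H)) {ρ : ℝ} (hρ0 : 0 ≤ ρ) (hρ : ρ < 1)
    (hΛ : ∀ l ∈ Λ, ∀ i, ‖((l i).1 : K)‖ ≤ ρ)
    (hΛ' : ∀ G : MvPowerSeries σ (Ob K), (∀ l ∈ Λ, ev G (fun i => (l (some i)).1) = 0) → G = 0)
    {F : MvPowerSeries (Option σ) (Ob K)} (hF : F ≠ 0)
    (hZ : ∀ l ∈ Λ, ev F (fun i => (l i).1) = 0) :
    ∃ (N : ℕ) (φ : MvPowerSeries σ (Ob K)),
      ∀ l ∈ Λ, ev φ (fun i => (l (some i)).1) = (p ^ N • l none).1 := by
  classical
  have htr : ∀ G : MvPowerSeries (Option σ) (Ob K), (∀ l ∈ Λ, ev G (fun i => (l i).1) = 0) →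
      ∀ m ∈ Λ, ∀ l ∈ Λ, ev (tr H m G) (fun i => (l i).1) = 0 := fun G hG m hm l hl => by
    rw [ev_tr]
    exact hG _ (Λ.add_mem hl hm)
  have hex : ∃ d, ∃ G : MvPowerSeries (Option σ) (Ob K),
      (∀ l ∈ Λ, ev G (fun i => (l i).1) = 0) ∧ PowerSeries.coeff d (ax G) ≠ 0 := by
    obtain ⟨m, hm, h0⟩ := exists_ax_ne_zero Λ hΛ' hF
    obtain ⟨d, hd⟩ : ∃ d, PowerSeries.coeff d (ax (tr H m F)) ≠ 0 := by
      by_contra hc
      push Not at hc
      exact h0 (PowerSeries.ext hc)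
    exact ⟨d, _, htr F hZ m hm, hd⟩
  set d := Nat.find hex with hd
  have hmin : ∀ G : MvPowerSeries (Option σ) (Ob K), (∀ l ∈ Λ, ev G (fun i => (l i).1) = 0) →
      ∀ i < d, PowerSeries.coeff i (ax G) = 0 := fun G hG i hi => by
    by_contra hc
    exact Nat.find_min hex hi ⟨G, hG, hc⟩
  obtain ⟨G₀, hG₀, hG₀d⟩ := Nat.find_spec hex
  rw [coeff_ax] at hG₀d
  obtain ⟨G, hG1, hG⟩ := exists_coeff_one hh hH Λ hρ0 hρ hΛ hG₀ hG₀d
  rw [← coeff_ax, ← hd] at hG1
  have hd0 : d ≠ 0 := by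
    intro h0
    have h1 := hG 0 Λ.zero_mem
    rw [h0, coeff_ax, Finsupp.single_zero, coeff_zero_eq_constantCoeff, ← ev_at_zero] at hG1
    exact one_ne_zero (hG1.symm.trans h1)
  have hcc : ∀ i, constantCoeff (PowerSeries.coeff i (sl G)) = PowerSeries.coeff i (ax G) :=
    fun i => by rw [← map_sl, PowerSeries.coeff_map]
  obtain ⟨P, U, hP, hPd, -, hU, hPU⟩ := exists_weierstrass (sl G) (d := d)
    (fun i hi => mem_Nil_of_constantCoeff ((hcc i).trans (hmin G hG i hi)))
    (by rw [MvPowerSeries.isUnit_iff_constantCoeff, hcc, hG1]; exact isUnit_one)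
  have hPl : ∀ l ∈ Λ, P.map (evHom (fun i => (l (some i)).1) fun i => (l (some i)).2) =
      (Polynomial.X - Polynomial.C (l none).1) ^ d := fun l hl => by
    set ψ := evHom (fun i => (l (some i)).1) fun i => (l (some i)).2 with hψ
    have hw : lser H (l none).1 ∈ Nil (PowerSeries (Ob K)) :=
      mem_Nil_mv.2 ((constantCoeff_lser H (l none).2).symm ▸ (l none).2)
    have h1 : PowerSeries.X ^ d ∣ ax (tr H l G) :=
      PowerSeries.X_pow_dvd_iff.2 (hmin _ (htr G hG l hl))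
    have h2 : IsUnit (ev1 (PowerSeries.map C (PowerSeries.map ψ U)) (lser H (l none).1)) := by
      have := ((hU.map (PowerSeries.map ψ)).map (PowerSeries.map C)).map
        (evHom (fun _ : Unit => lser H (l none).1) fun _ => hw)
      rwa [evHom_apply] at this
    rw [ax_tr, ← hψ, hPU, map_mul, map_mul, ev1_mul, h2.dvd_mul_right, ← Polynomial.polynomial_map_coe,
      ← Polynomial.polynomial_map_coe, ev1_coe hw, Polynomial.eval_map] at h1
    have h3 : (P.map ψ).natDegree = d := by rw [hP.natDegree_map, hPd]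
    have h4 := eq_pow_of_dvd (hP.map ψ) (isUnit_coeff_one_lser H (l none).2) (h3.symm ▸ h1)
    rwa [h3, constantCoeff_lser H (l none).2] at h4
  obtain ⟨e, d', hd', hde⟩ := Nat.exists_eq_pow_mul_and_not_dvd hd0 p (Fact.out : p.Prime).ne_one
  obtain ⟨d', rfl⟩ : ∃ d'', d' = d'' + 1 := ⟨d' - 1, by
    have : d' ≠ 0 := fun h0 => hd' (h0 ▸ dvd_zero p)
    omega⟩
  obtain ⟨u, hu⟩ : IsUnit ((d' + 1 : ℕ) : Ob K) :=
    (CharP.isUnit_natCast_iff (Fact.out : p.Prime)).2 hd'
  refine ⟨e, (C (-(↑u⁻¹ : Ob K)) * P.coeff (d' * p ^ e)) ^ p ^ (h * e - e), fun l hl => ?_⟩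
  have ha : ∀ i, (l (some i)).1 ∈ Nil (Ob K) := fun i => (l (some i)).2
  have h1 := congrArg (fun Q => Polynomial.coeff Q (d' * p ^ e)) (hPl l hl)
  simp only [Polynomial.coeff_map] at h1
  rw [hde, coeff_pow_charP, evHom_apply, ← hu] at h1
  rw [ev_pow ha, ev_C_mul ha, h1, pow_nsmul_val hH, neg_mul_neg, Units.inv_mul_cancel_left,
    ← pow_mul, ← pow_add, ← pow_mul, Nat.add_sub_cancel' (Nat.le_mul_of_pos_left e hh)]

end RigidAux

open RigidAux

variable {p : ℕ} [Fact p.Prime] {K : Type*} [NontriviallyNormedField K] [VF K] [CharP K p]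

theorem rigid_ev {h : ℕ} (hh : 1 ≤ h) (H : FormalGroup (Ob K)) [H.IsComm]
    (hH : mulSeries H p = PowerSeries.X ^ p ^ h) {σ : Type} [Fintype σ]
    (Λ : AddSubgroup (σ → Pt H)) {ρ : ℝ} (hρ0 : 0 ≤ ρ) (hρ : ρ < 1)
    (hΛ : ∀ l ∈ Λ, ∀ i, ‖((l i).1 : K)‖ ≤ ρ) {F : MvPowerSeries σ (Ob K)} (hF : F ≠ 0)
    (hZ : ∀ l ∈ Λ, ev F (fun i => (l i).1) = 0) :
    ∃ (s : σ) (N : ℕ) (φ : σ → PowerSeries (Ob K)) (hφ : ∀ i, IsFGHom H H (φ i)), φ s = 0 ∧
      ∀ l ∈ Λ, p ^ N • l s = ∑ i, Pt.hom (hφ i) (l i) := by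
  revert Λ F
  refine Fintype.induction_empty_option (P := fun σ _ => ∀ (Λ : AddSubgroup (σ → Pt H)),
    (∀ l ∈ Λ, ∀ i, ‖((l i).1 : K)‖ ≤ ρ) → ∀ {F : MvPowerSeries σ (Ob K)}, F ≠ 0 →
    (∀ l ∈ Λ, ev F (fun i => (l i).1) = 0) →
    ∃ (s : σ) (N : ℕ) (φ : σ → PowerSeries (Ob K)) (hφ : ∀ i, IsFGHom H H (φ i)), φ s = 0 ∧
      ∀ l ∈ Λ, p ^ N • l s = ∑ i, Pt.hom (hφ i) (l i)) ?_ ?_ ?_ σ
  · intro α β _ e ih Λ hΛ F hF hZ
    letI : Fintype α := Fintype.ofEquiv β e.symm
    let π : (β → Pt H) →+ (α → Pt H) :=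
      { toFun := fun l i => l (e i), map_zero' := rfl, map_add' := fun _ _ => rfl }
    let F' : MvPowerSeries α (Ob K) := ev (MvPowerSeries.map C F) fun j => X (e.symm j)
    have hF' : ∀ a : β → Pt H, ev F' (fun i => (a (e i)).1) = ev F fun j => (a j).1 := fun a => by
      have ha : ∀ i, (a (e i)).1 ∈ Nil (Ob K) := fun i => (a (e i)).2
      rw [ev_ev ha fun j => X_mem_Nil _]
      simp only [ev_X ha, Equiv.apply_symm_apply]
    obtain ⟨s, N, φ, hφ, hs, hl⟩ := ih (Λ.map π) (by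
        rintro _ ⟨l, hl, rfl⟩ i
        exact hΛ l hl (e i)) (F := F')
      (fun h0 => hF (eq_zero_of_points H fun a => by rw [← hF', h0, ev_zero])) (by
        rintro _ ⟨l, hl, rfl⟩
        exact (hF' l).trans (hZ l hl))
    refine ⟨e s, N, fun j => φ (e.symm j), fun j => hφ _, by simpa using hs, fun l hl' => ?_⟩
    refine (hl _ ⟨l, hl', rfl⟩).trans (Fintype.sum_equiv e _ _ fun i => Pt.ext ?_)
    simp only [Pt.hom_val, Equiv.symm_apply_apply]
    rfl
  · intro Λ _ F hF hZ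
    refine absurd (eq_zero_of_points H fun a => ?_) hF
    rw [Subsingleton.elim a 0]
    exact hZ 0 Λ.zero_mem
  · intro σ _ ih Λ hΛ F hF hZ
    have hz : ∀ t : Pt H, Pt.hom (isFGHom_zero H H) t = 0 := fun t => Pt.ext (ev1_zero _)
    by_cases hΛ' : ∀ G : MvPowerSeries σ (Ob K),
        (∀ l ∈ Λ, ev G (fun i => (l (some i)).1) = 0) → G = 0
    · obtain ⟨N, φ, hφ⟩ := exists_graph hh hH Λ hρ0 hρ hΛ hΛ' hF hZ
      obtain ⟨θ, hθ, hsum⟩ := exists_hom_of_additive (Λ.map (proj H σ))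
        (fun G hG => hΛ' G fun l hl => hG _ ⟨l, hl, rfl⟩) (φ := φ) (by
          have := hφ 0 Λ.zero_mem
          rw [Pi.zero_apply, nsmul_zero] at this
          exact (ev_at_zero φ).symm.trans this) (by
          rintro _ ⟨l, hl, rfl⟩ _ ⟨m, hm, rfl⟩
          have h1 := hφ _ (Λ.add_mem hl hm)
          rw [Pi.add_apply, nsmul_add, Pt.add_val, ← hφ l hl, ← hφ m hm] at h1
          exact h1)
      refine ⟨none, N, fun o => o.elim 0 θ, fun o => by
        rcases o with _ | i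
        · exact isFGHom_zero H H
        · exact hθ i, rfl, fun l hl => ?_⟩
      rw [Fintype.sum_option]
      refine Eq.trans ?_ (congrArg (· + _) (hz (l none))).symm
      rw [zero_add]
      exact Pt.ext ((hφ l hl).symm.trans (hsum fun i => l (some i)))
    · push Not at hΛ'
      obtain ⟨G, hG, hG0⟩ := hΛ'
      obtain ⟨s, N, θ, hθ, hs, hl⟩ := ih (Λ.map (proj H σ)) (by
          rintro _ ⟨l, hl, rfl⟩ i
          exact hΛ l hl (some i)) hG0 (by
          rintro _ ⟨l, hl, rfl⟩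
          exact hG l hl)
      refine ⟨some s, N, fun o => o.elim 0 θ, fun o => by
        rcases o with _ | i
        · exact isFGHom_zero H H
        · exact hθ i, hs, fun l hl' => ?_⟩
      rw [Fintype.sum_option]
      refine Eq.trans ?_ (congrArg (· + _) (hz (l none))).symm
      rw [zero_add]
      exact hl _ ⟨l, hl', rfl⟩

theorem rigid {h : ℕ} (hh : 1 ≤ h) (H : FormalGroup (Ob K)) [H.IsComm]
    (hH : mulSeries H p = PowerSeries.X ^ p ^ h) {σ : Type} [Fintype σ]
    (Λ : AddSubgroup (σ → Pt H)) {ρ : ℝ} (hρ0 : 0 ≤ ρ) (hρ : ρ < 1)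
    (hΛ : ∀ l ∈ Λ, ∀ i, ‖((l i).1 : K)‖ ≤ ρ) {F : MvPowerSeries σ K} (hF : F ≠ 0)
    (hZ : ∀ l ∈ Λ, AsymZero (p ^ h) ρ F (fun i => ((l i).1 : K))) :
    ∃ (s : σ) (N : ℕ) (φ : σ → PowerSeries (Ob K)) (hφ : ∀ i, IsFGHom H H (φ i)), φ s = 0 ∧
      ∀ l ∈ Λ, p ^ N • l s = ∑ i, Pt.hom (hφ i) (l i) := by
  obtain ⟨α₀, hα⟩ : ∃ α₀, coeff α₀ F ≠ 0 := by
    by_contra hc
    push Not at hc
    exact hF (MvPowerSeries.ext hc)
  obtain ⟨F', h1, h2⟩ := descent (p := p) hh hρ0 hρ ((fun l i => (l i).1) '' (Λ : Set (σ → Pt H)))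
    (by rintro _ ⟨l, hl, rfl⟩; exact hΛ l hl) hα (by rintro _ ⟨l, hl, rfl⟩; exact hZ l hl)
  refine rigid_ev hh H hH Λ hρ0 hρ hΛ (F := F') ?_ fun l hl => h2 _ ⟨l, hl, rfl⟩
  rintro rfl
  simp at h1

end Crest.Agent.R227
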