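import Crest.Agent.R227.STAux

/-! Row 227 (S0351), module `ST`: Serre-Tate coordinates on the height stratum. -/

set_option autoImplicit false
set_option linter.unusedSectionVars false
set_option linter.style.haveILetI false

namespace Crest.Agent.R227

open MvPowerSeries Filter

/-- The map `t ↦ w_z (t ^ q)`. -/
noncomputable def pz {A : Type*} [CommRing A] [Adic A] {σ : Type*} [Finite σ] (q : ℕ)
    (w : PowerSeries (MvPowerSeries σ A)) (z : σ → A) (t : A) : A :=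
  ev (ev1 w (C (t ^ q))) z

theorem pz_eq {A : Type*} [CommRing A] [Adic A] {σ : Type*} [Finite σ] {q : ℕ} (hq : q ≠ 0)
    (w : PowerSeries (MvPowerSeries σ A)) {z : σ → A} (hz : ∀ i, z i ∈ Nil A) {t : A}
    (ht : t ∈ Nil A) : pz q w z t = ev1 (PowerSeries.map (evHom z hz) w) (t ^ q) := by
  have := map_ev1 (evHom z hz) (mapsNil_C _ (pow_mem_Nil ht hq))
    (by simpa using pow_mem_Nil ht hq) w
  rwa [evHom_C, evHom_apply] at this

section

variable {p : ℕ} [Fact p.Prime] {K : Type*} [NontriviallyNormedField K] [VF K] [CharP K p]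
  {σ : Type*} [Finite σ] {h : ℕ} {w : PowerSeries (MvPowerSeries σ (Ob K))}

theorem norm_pz_iter (hw0 : PowerSeries.constantCoeff w = 0) {z : σ → Ob K}
    (hz : ∀ i, z i ∈ Nil (Ob K)) {ρ : ℝ} (hρ0 : 0 ≤ ρ) (hρ : ρ < 1) {a : Ob K}
    (ha : ‖(a : K)‖ ≤ ρ) (k : ℕ) : ‖((pz (p ^ h) w z)^[k] a : Ob K).1‖ ≤ ρ ^ (p ^ h) ^ k := by
  have hq := pow_ne_zero_p p h
  induction k with
  | zero => simpa using ha
  | succ k ih =>
    have ht := mem_Nil_Ob.2 (ih.trans_lt (pow_lt_one₀ hρ0 hρ (pow_ne_zero k hq)))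
    rw [Function.iterate_succ_apply', pz_eq hq w hz ht, pow_succ, pow_mul]
    refine (mem_span_iff_norm.1 (ev1_mem_of_mem (pow_mem_Nil ht hq)
      (Ideal.mem_span_singleton_self _) ?_)).trans ?_
    · rw [ps_constantCoeff_map, hw0, map_zero]
      exact Ideal.zero_mem _
    · rw [Subring.coe_pow, norm_pow]
      exact pow_le_pow_left₀ (norm_nonneg _) ih _

theorem tau_pz_iter (hw0 : PowerSeries.constantCoeff w = 0) {τ : PowerSeries (Ob K)}
    (hτ : PowerSeries.subst (PowerSeries.map (constantCoeff : MvPowerSeries σ (Ob K) →+* Ob K) w)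
      τ = PowerSeries.map (iterateFrobenius (Ob K) p h) τ) {z : σ → Ob K}
    (hz : ∀ i, z i ∈ Nil (Ob K)) {r : ℝ} (hzr : ∀ i, z i ∈ ball K r) {a b : Ob K}
    (ha : a ∈ Nil (Ob K)) (hb : b ∈ Nil (Ob K)) (hab : a - b ∈ ball K r) (k : ℕ) :
    ev1 τ ((pz (p ^ h) w z)^[k] a) - ev1 τ b ^ (p ^ h) ^ k ∈ ball K r := by
  have hq := pow_ne_zero_p p h
  have hw0' : PowerSeries.constantCoeff
      (PowerSeries.map (constantCoeff : MvPowerSeries σ (Ob K) →+* Ob K) w) = 0 := by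
    rw [ps_constantCoeff_map, hw0, map_zero]
  induction k generalizing a b with
  | zero => simpa using ev1_sub_ev1_mem ha hb hab τ
  | succ k ih =>
    have hb' := pow_mem_Nil hb hq
    have h1 : ev1 τ (ev1 (PowerSeries.map (constantCoeff : MvPowerSeries σ (Ob K) →+* Ob K) w)
        (b ^ p ^ h)) = ev1 τ b ^ p ^ h := by
      rw [pow_ev1 hb, ← hτ, ev1_subst hb' (PowerSeries.HasSubst.of_constantCoeff_zero' hw0')]
    rw [Function.iterate_succ_apply, pow_succ', pow_mul, ← h1, pz_eq hq w hz ha]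
    refine ih (ev1_mem_Nil' (pow_mem_Nil ha hq) (by rw [ps_constantCoeff_map, hw0, map_zero]))
      (ev1_mem_Nil' hb' hw0') (ev1_congr_mod (closed_ball r) (pow_mem_Nil ha hq) hb' (fun n => ?_)
        (Ideal.mem_of_dvd _ (sub_dvd_pow_sub_pow _ _ _) hab))
    rw [PowerSeries.coeff_map, PowerSeries.coeff_map, evHom_apply]
    exact Ideal.span_le.2 (Set.range_subset_iff.2 hzr) (ev_sub_constantCoeff_mem hz _)

end

theorem exists_ST {p : ℕ} [Fact p.Prime] {K : Type*} [NontriviallyNormedField K] [VF K]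
    [CharP K p] {σ : Type*} [Fintype σ] [DecidableEq σ] {h : ℕ} (hh : 1 ≤ h)
    {w : PowerSeries (MvPowerSeries σ (Ob K))} (hw0 : PowerSeries.constantCoeff w = 0)
    (hw1 : constantCoeff (PowerSeries.coeff 1 w) ≠ 0) {τ : PowerSeries (Ob K)}
    (hτ0 : PowerSeries.constantCoeff τ = 0) (hτ1 : PowerSeries.coeff 1 τ ≠ 0)
    (hτ : PowerSeries.subst (PowerSeries.map (constantCoeff : MvPowerSeries σ (Ob K) →+* Ob K) w)
      τ = PowerSeries.map (iterateFrobenius (Ob K) p h) τ)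
    {Ψ : σ → MvPowerSeries σ (Ob K)} (hΨ0 : ∀ i, constantCoeff (Ψ i) = 0)
    (hΨ : (Matrix.of fun i j => coeff (Finsupp.single j 1) (Ψ i)).det ≠ 0)
    {f : MvPowerSeries σ (Ob K)} (hf : f ≠ 0) :
    ∃ F : MvPowerSeries σ K, F ≠ 0 ∧ ∀ ρ : ℝ, 0 ≤ ρ → ρ < 1 →
      ∀ (z Λ' : ℕ → σ → Ob K) (Λ : σ → Ob K), (∀ i, ‖(Λ i : K)‖ ≤ ρ) →
      (∀ᶠ m : ℕ in atTop, ev f (z m) = 0 ∧ ∀ i, ‖(z m i : K)‖ ≤ ρ ^ (p ^ h) ^ m ∧
        ‖(Λ' m i : K) - Λ i‖ ≤ ρ ^ (p ^ h) ^ m ∧
        ev (Ψ i) (z m) = (pz (p ^ h) w (z m))^[m] (Λ' m i)) →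
      AsymZero (p ^ h) ρ F (fun i => (ev1 τ (Λ i) : Ob K)) := by
  classical
  letI := Adic.discrete K
  obtain ⟨s, ST, hs0, hsN, hu, hs, hST, hSTs, hbij⟩ :=
    exists_ST_formal (ι := (Ob K).subtype) Subtype.val_injective hh hw0 hw1 hτ0 hτ1 hτ hΨ0 hΨ
  obtain ⟨F, hF⟩ := hbij.2 (MvPowerSeries.map (Ob K).subtype f)
  refine ⟨F, ?_, fun ρ hρ0 hρ z₀ Λ₀ Λ hΛ hev₀ N ρ' hρ' => ?_⟩
  · rintro rfl
    rw [← coe_substAlgHom hSTs, map_zero] at hF
    exact hf (MvPowerSeries.ext fun α => Subtype.ext (congrArg (coeff α) hF).symm)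
  have hq := pow_ne_zero_p p h
  have hq1 : ∀ j, j < (p ^ h) ^ j := fun j =>
    Nat.lt_pow_self (Nat.one_lt_pow (by omega) (Fact.out : p.Prime).one_lt)
  set r : ℕ → ℝ := fun m => ρ ^ (p ^ h) ^ m with hr
  have hr0 : ∀ m, 0 ≤ r m := fun m => pow_nonneg hρ0 _
  have hr1 : ∀ m, r m ≤ ρ := fun m => pow_le_of_le_one hρ0 hρ.le (pow_ne_zero m hq)
  obtain ⟨z, Λ', hz, hΛ', hev⟩ : ∃ z Λ' : ℕ → σ → Ob K, (∀ m i, ‖(z m i : K)‖ ≤ r m) ∧
      (∀ m i, ‖(Λ' m i : K) - Λ i‖ ≤ r m) ∧ ∀ᶠ m : ℕ in atTop, ev f (z m) = 0 ∧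
        ∀ i, ev (Ψ i) (z m) = (pz (p ^ h) w (z m))^[m] (Λ' m i) := by
    let G : ℕ → Prop := fun m => ∀ i, ‖(z₀ m i : K)‖ ≤ r m ∧ ‖(Λ₀ m i : K) - Λ i‖ ≤ r m
    refine ⟨fun m => if G m then z₀ m else 0, fun m => if G m then Λ₀ m else Λ, fun m i => ?_,
      fun m i => ?_, hev₀.mono fun m hm => ?_⟩
    · dsimp only
      split_ifs with c
      · exact (c i).1
      · simpa using hr0 m
    · dsimp only
      split_ifs with c
      · exact (c i).2
      · simpa using hr0 m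
    · have c : G m := fun i => ⟨(hm.2 i).1, (hm.2 i).2.1⟩
      simp only [if_pos c]
      exact ⟨hm.1, fun i => (hm.2 i).2.2⟩
  have nil : ∀ {x : Ob K} {m : ℕ}, ‖(x : K)‖ ≤ r m → x ∈ Nil (Ob K) := fun hx =>
    mem_Nil_Ob.2 ((hx.trans (hr1 _)).trans_lt hρ)
  have hzN : ∀ m i, z m i ∈ Nil (Ob K) := fun m i => nil (hz m i)
  have hΛ'' : ∀ m i, ‖(Λ' m i : K)‖ ≤ ρ := fun m i => by
    rw [← sub_add_cancel (Λ' m i : K) (Λ i)]
    exact (IsUltrametricDist.norm_add_le_max _ _).trans (max_le ((hΛ' m i).trans (hr1 m)) (hΛ i))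
  obtain ⟨κ, cl, hκ, hcl, hout⟩ := exists_seq_ring (K := K) fun m => r m ^ N
  letI := Adic.discrete (Bdd K ⧸ Dom K fun m => r m ^ N)
  have hpow : ∀ a : σ → ℕ → Ob K, (∀ i m, ‖(a i m : K)‖ ≤ r m) →
      ∀ x ∈ Ideal.span (Set.range fun i => cl (a i)) ^ N, x = 0 := by
    intro a ha x hx
    rw [show (fun i => cl (a i)) = cl ∘ a from rfl, Set.range_comp, ← Ideal.map_span,
      ← Ideal.map_pow] at hx
    refine (Ideal.map_le_iff_le_comap.2 (fun b hb => ?_) : _ ≤ ⊥) hx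
    refine hcl b (Eventually.of_forall fun m => ?_)
    have := Ideal.mem_map_of_mem (Pi.evalRingHom _ m) hb
    rw [Ideal.map_pow, Ideal.map_span, ← Set.range_comp] at this
    exact norm_le_of_mem_span_range (hr0 m) (fun i => ha i m) this
  have hnil : ∀ a : ℕ → Ob K, (∀ m, ‖(a m : K)‖ ≤ r m) → cl a ∈ Nil _ := fun a ha =>
    mem_Nil_of_isNilpotent ⟨N, by
      rw [← map_pow]
      refine hcl _ (Eventually.of_forall fun m => ?_)
      rw [Pi.pow_apply, Subring.coe_pow, norm_pow]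
      exact pow_le_pow_left₀ (norm_nonneg _) (ha m) N⟩
  have hcongr : ∀ a b : ℕ → Ob K, (∀ᶠ m in atTop, ‖((a m - b m : Ob K) : K)‖ ≤ r m ^ N) →
      cl a = cl b := fun a b hab => by rw [← sub_eq_zero, ← map_sub]; exact hcl _ hab
  have hcongr' : ∀ a b : ℕ → Ob K, (∀ᶠ m in atTop, a m = b m) → cl a = cl b := fun a b hab =>
    hcongr a b (hab.mono fun m hm => by simpa [hm] using pow_nonneg (hr0 m) N)
  have hzA : ∀ i, cl (fun m => z m i) ∈ Nil _ := fun i => hnil _ fun m => hz m i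
  let ε := (evHom _ hzA).comp (MvPowerSeries.map (σ := σ) κ)
  have hεX : ∀ i, ε (X i) = cl fun m => z m i := fun i => by simp [ε]
  have hεN : MapsNil ε := (mapsNil_evHom hzA).comp (MapsNil.map fun c hc => by
    rw [(mem_Nil_discrete.1 hc).eq_zero, map_zero]; exact Ideal.zero_mem _)
  have hε : ∀ g : MvPowerSeries σ (Ob K),
      ε (MvPowerSeries.map (Ob K).subtype g) = cl fun m => ev g (z m) := fun g => by
    have := cl_ev cl (fun _ => RingHom.id (Ob K)) (a := fun i m => z m i) hzN hzA g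
    simp only [MvPowerSeries.map_id, RingHom.id_apply] at this
    rw [this, RingHom.comp_apply, evHom_apply, MvPowerSeries.map_map]
    rw [show κ.comp (Ob K).subtype = cl.comp (RingHom.pi fun _ => RingHom.id (Ob K)) from
      RingHom.ext fun o => (hκ o).symm]
  let c : ℕ → ℕ → MvPowerSeries σ (Ob K) →+* Ob K := fun j m =>
    (iterateFrobenius (Ob K) p (h * j)).comp (evHom _ (hzN m))
  have hεf : ∀ j, ε.comp (frobMap p (Ob K).subtype (h * j)) = cl.comp (RingHom.pi (c j)) :=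
    fun j => RingHom.ext fun g => by
      rw [RingHom.comp_apply, frobMap_apply, map_pow, hε, ← map_pow, RingHom.comp_apply]
      congr 1
      funext m
      simp [c, evHom_apply, iterateFrobenius_def]
  let t : σ → ℕ → ℕ → Ob K := fun i m k => (pz (p ^ h) w (z m))^[k] (Λ' m i)
  have ht : ∀ i m k, ‖(t i m k : K)‖ ≤ r k := fun i m k =>
    norm_pz_iter hw0 (hzN m) hρ0 hρ (hΛ'' m i) k
  let S : σ → ℕ → ℕ → Ob K := fun i j m => t i m (m - j) ^ p ^ (h * j)
  have hS : ∀ i j m, ‖(S i j m : K)‖ ≤ r m := fun i j m => by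
    simp only [S, Subring.coe_pow, norm_pow]
    refine (pow_le_pow_left₀ (norm_nonneg _) (ht i m _) _).trans ?_
    simp only [hr, ← pow_mul (a := ρ), pow_mul p, ← pow_add]
    exact pow_le_pow_of_le_one hρ0 hρ.le (Nat.pow_le_pow_right (Nat.pos_of_ne_zero hq) (by omega))
  have hεs : ∀ i j, ε (s i j) = cl (S i j) := by
    intro i j
    induction j with
    | zero =>
      rw [hs0, hε]
      exact hcongr' _ _ (hev.mono fun m hm => by simpa [S, t] using hm.2 i)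
    | succ j ih =>
      refine ev1_injective (hεN _ (hsN i _)) (hnil _ (hS i _))
        (f := PowerSeries.map ε (PowerSeries.map (frobMap p (Ob K).subtype (h * j)) w))
        (by simpa using (hu j).map ε) ?_
      rw [← map_ev1 ε (hsN i _) (hεN _ (hsN i _)), hs, ih, psmap_map, hεf]
      refine Eq.trans (hcongr' _ _ (eventually_atTop.2 ⟨j + 1, fun m hm => ?_⟩))
        (cl_ev cl (c j) (a := fun _ : Unit => S i (j + 1)) (fun m _ => nil (hS i _ m))
          (fun _ => hnil _ (hS i _)) w)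
      have h1 := nil (ht i m (m - (j + 1)))
      change _ = ev1 (PowerSeries.map (c j m) w) (S i (j + 1) m)
      simp only [S, c]
      rw [show m - j = m - (j + 1) + 1 by omega, ← psmap_map,
        show p ^ (h * (j + 1)) = p ^ h * p ^ (h * j) by ring, pow_mul (t i m (m - (j + 1))),
        ← pow_ev1 (pow_mem_Nil h1 hq), ← pz_eq hq w (hzN m) h1]
      simp only [t, Function.iterate_succ_apply']
  let L : σ → ℕ → Ob K := fun i m => ev1 τ (Λ i) ^ (p ^ h) ^ m
  have hΛN : ∀ i, Λ i ∈ Nil (Ob K) := fun i => mem_Nil_Ob.2 ((hΛ i).trans_lt hρ)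
  have hL : ∀ i m, ‖(L i m : K)‖ ≤ r m := fun i m => by
    simp only [L, Subring.coe_pow, norm_pow]
    exact pow_le_pow_left₀ (norm_nonneg _) ((mem_ball hρ0).1 (ev1_mem_of_mem (hΛN i)
      ((mem_ball hρ0).2 (hΛ i)) (hτ0 ▸ Ideal.zero_mem _))) _
  have hεST : ∀ i, ε (ST i) = cl (L i) := by
    intro i
    have h1 := Ideal.mem_map_of_mem ε (Ideal.pow_le_pow_right (Nat.le_add_right N 2) (hST i N))
    rw [Ideal.map_pow, Ideal.map_span, ← Set.range_comp, show ε ∘ X = _ from funext hεX] at h1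
    have h2 := hpow (fun i m => z m i) (fun i m => hz m i) _ h1
    rw [map_sub, sub_eq_zero, map_ev1 ε (hsN i _) (hεN _ (hsN i _)), hεs, psmap_map,
      ← RingHom.comp_assoc, hεf] at h2
    refine (h2.trans (cl_ev cl (fun m => (c N m).comp C) (a := fun _ : Unit => S i N)
      (fun m _ => nil (hS i _ m)) (fun _ => hnil _ (hS i _)) τ).symm).trans
      (hcongr _ _ (eventually_atTop.2 ⟨N, fun m hm => ?_⟩))
    have e : (c N m).comp C = iterateFrobenius (Ob K) p (h * N) := RingHom.ext fun o => by simp [c]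
    have h3 := (mem_ball (hr0 m)).1 (tau_pz_iter hw0 hτ (hzN m)
      (fun i => (mem_ball (hr0 m)).2 (hz m i)) (mem_Nil_Ob.2 ((hΛ'' m i).trans_lt hρ)) (hΛN i)
      ((mem_ball (hr0 m)).2 (hΛ' m i)) (m - N))
    change ‖((ev1 (PowerSeries.map ((c N m).comp C) τ) (S i N m) - L i m : Ob K) : K)‖ ≤ _
    simp only [S, L]
    rw [e, ← pow_ev1 (nil (ht i m _)), show (p ^ h) ^ m = (p ^ h) ^ (m - N) * p ^ (h * N) by
      rw [pow_mul p, ← pow_add, Nat.sub_add_cancel hm], pow_mul (ev1 τ (Λ i)), ← sub_pow_char_pow,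
      Subring.coe_pow, norm_pow]
    exact (pow_le_pow_left₀ (norm_nonneg _) h3 _).trans (pow_le_pow_of_le_one (hr0 m)
      ((hr1 m).trans hρ.le) (by rw [pow_mul]; exact (hq1 N).le))
  let ψ := ε.comp (substAlgHom (R := K) hSTs).toRingHom
  have h1 := hom_sub_trunc_mem ψ N F
  have e1 : ψ.comp C = κ := RingHom.ext fun o => by simp [ψ, ε, subst_C]
  have e2 : (fun i => ψ (X i)) = fun i => cl (L i) := funext fun i => by
    simp [ψ, subst_X hSTs, hεST]
  have e3 : ψ F = 0 := by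
    have : ψ F = ε (subst ST F) := by simp [ψ]
    rw [this, hF, hε, ← map_zero cl]
    exact hcongr' _ _ (hev.mono fun m hm => hm.1)
  rw [e1, e2, e3, zero_sub] at h1
  have h2 := hout L _ (neg_eq_zero.1 (hpow L hL _ h1))
  have h3 := (isLittleO_pow_pow_of_lt_left (pow_nonneg hρ0 N) hρ').comp_tendsto
    (tendsto_atTop_mono (fun j => (hq1 j).le) tendsto_id)
  refine ((h2.congr_right fun m => ?_).trans_isLittleO h3).eventuallyLE.mono fun m hm => ?_
  · simp only [hr, Function.comp_apply, ← pow_mul, mul_comm]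
  · simpa [L, abs_of_nonneg ((pow_nonneg hρ0 N).trans hρ'.le)] using hm

end Crest.Agent.R227
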