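import Crest.Agent.R227.Lazard
import Crest.Agent.R227.Norm

/-! Row 227 (S0351), module `Tau`: the integral Boettcher coordinate. -/

set_option autoImplicit false
set_option linter.unusedSectionVars false
set_option linter.style.haveILetI false

namespace Crest.Agent.R227

open MvPowerSeries Crest.LubinTate

namespace TauAux

theorem exists_seq {α : Type*} [Zero α] (P : ℕ → (ℕ → α) → α → Prop) (hP : ∀ n f, ∃ a, P n f a)
    (hdep : ∀ n f g a, (∀ i < n, f i = g i) → P n f a → P n g a) : ∃ f, ∀ n, P n f (f n) := by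
  choose F hF using hP
  let Φ : ∀ n : ℕ, (∀ i, i < n → α) → α := fun n r => F n fun i => if h : i < n then r i h else 0
  let f : ℕ → α := (wellFounded_lt (α := ℕ)).fix Φ
  have hf : ∀ n, f n = F n fun i => if i < n then f i else 0 := fun n => by
    have := (wellFounded_lt (α := ℕ)).fix_eq Φ n
    simpa only [Φ, dite_eq_ite] using this
  refine ⟨f, fun n => ?_⟩
  rw [hf n]
  exact hdep n _ _ _ (fun i hi => if_pos hi) (hF n _)

variable {R S : Type*} [CommRing R] [CommRing S]

theorem coeff_subst_eq_sum {w : PowerSeries R} (hw0 : PowerSeries.constantCoeff w = 0)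
    (f : PowerSeries R) (n : ℕ) : PowerSeries.coeff n (PowerSeries.subst w f) =
      ∑ i ∈ Finset.range (n + 1), PowerSeries.coeff i f * PowerSeries.coeff n (w ^ i) := by
  rw [PowerSeries.coeff_subst' (PowerSeries.HasSubst.of_constantCoeff_zero' hw0)]
  refine finsum_eq_sum_of_support_subset _ fun i hi => ?_
  rw [Finset.coe_range, Set.mem_Iio]
  by_contra hn
  apply hi
  have := PowerSeries.X_pow_dvd_iff.1 (pow_dvd_pow_of_dvd (PowerSeries.X_dvd_iff.2 hw0) i) n
    (by omega)
  simp only [this, smul_zero]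

theorem coeff_one_subst {w : PowerSeries R} (hw0 : PowerSeries.constantCoeff w = 0)
    (f : PowerSeries R) : PowerSeries.coeff 1 (PowerSeries.subst w f) =
      PowerSeries.coeff 1 f * PowerSeries.coeff 1 w := by
  rw [coeff_subst_eq_sum hw0, Finset.sum_range_succ, Finset.sum_range_one]
  simp [PowerSeries.coeff_one]

/-- The inverse of a homomorphism, given as a right inverse. -/
theorem isFGHom_of_inv {G G' : FormalGroup R} {ι τ : PowerSeries R} (h : IsFGHom G' G ι)
    (hu : IsUnit (PowerSeries.coeff 1 ι)) (h0 : PowerSeries.constantCoeff τ = 0)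
    (hι : PowerSeries.subst τ ι = PowerSeries.X) : IsFGHom G G' τ := by
  letI := Adic.discrete R
  refine isFGHom_of_forall h0 fun s hs t ht => ?_
  have h1 := IsFGHom.map h (C : R →+* MvPowerSeries (Fin 2) R)
  have hr : ∀ a ∈ Nil (MvPowerSeries (Fin 2) R), ev1 (PowerSeries.map C ι)
      (ev1 (PowerSeries.map C τ) a) = a := fun a ha => by
    rw [← ev1_map_subst _ h0 _ ha, hι, PowerSeries.map_X, ev1_X ha]
  have h0' := constantCoeff_map_eq_zero (C : R →+* MvPowerSeries (Fin 2) R) h0
  have hs' := ev1_mem_Nil' hs h0'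
  have ht' := ev1_mem_Nil' ht h0'
  refine ev1_injective (f := PowerSeries.map C ι)
    (ev1_mem_Nil' (ev2_mem_Nil (G.map C) hs ht) h0') (ev2_mem_Nil (G'.map C) hs' ht')
    (by rw [PowerSeries.coeff_map]; exact hu.map _) ?_
  have e := IsFGHom.ev1_add h1 hs' ht'
  rw [hr s hs, hr t ht] at e
  rw [hr _ (ev2_mem_Nil (G.map C) hs ht)]
  exact e.symm

theorem mv_map_injective {σ : Type*} {φ : R →+* S} (hφ : Function.Injective φ) :
    Function.Injective (MvPowerSeries.map (σ := σ) φ) := fun f g hfg => by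
  ext α
  apply hφ
  rw [← coeff_map, ← coeff_map, hfg]

/-- A law whose coefficients lie in a subring comes from the subring. -/
theorem exists_descent {φ : R →+* S} (hφ : Function.Injective φ) (G : FormalGroup S) [G.IsComm]
    (h : ∀ α, ∃ r, φ r = coeff α G.toPowerSeries) :
    ∃ G₀ : FormalGroup R, G₀.IsComm ∧ G₀.map φ = G := by
  choose F hF using h
  let F' : MvPowerSeries (Fin 2) R := F
  have hmap : MvPowerSeries.map φ F' = G.toPowerSeries := by
    ext α
    rw [coeff_map]
    exact hF α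
  have h0 : constantCoeff F' = 0 := by
    apply hφ
    rw [← constantCoeff_map, hmap, G.zero_constantCoeff, map_zero]
  let G₀ : FormalGroup R :=
    { toPowerSeries := F'
      zero_constantCoeff := h0
      lin_coeff_X := by
        apply hφ
        rw [← coeff_map, hmap, G.lin_coeff_X, map_one]
      lin_coeff_Y := by
        apply hφ
        rw [← coeff_map, hmap, G.lin_coeff_Y, map_one]
      assoc := by
        apply mv_map_injective hφ
        have ha := G.assoc
        rw [← hmap] at ha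
        have (g₁ g₂ : MvPowerSeries (Fin 3) R) : ![g₁.map φ, g₂.map φ] =
          fun i => (![g₁, g₂] i).map φ := by ext1 i; fin_cases i <;> simp
        simp_rw [(map_X φ _).symm, this, ← map_subst .X_X, this, ← map_subst
          (HasSubst.cons_subst_zero_left (0 : Fin 3) 1 2 h0),
          ← map_subst (HasSubst.cons_subst_zero_right (0 : Fin 3) 1 2 h0)] at ha
        exact ha }
  refine ⟨G₀, ⟨?_⟩, FormalGroup.ext hmap⟩
  apply mv_map_injective hφ
  have hc : G.toPowerSeries = G.toPowerSeries.subst ![X 1, X 0] := FormalGroup.IsComm.comm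
  have e : ![(X 1 : MvPowerSeries (Fin 2) S), X 0] =
      fun i => MvPowerSeries.map φ (![(X 1 : MvPowerSeries (Fin 2) R), X 0] i) := by
    funext i
    fin_cases i <;> simp
  rw [← hmap, e, ← map_subst HasSubst.X_X] at hc
  exact hc

variable {K : Type*} [NontriviallyNormedField K] [VF K]

theorem exists_root {q : ℕ} (hq : 2 ≤ q) (a b : Ob K) : ∃ t : Ob K, t ^ q = a * t + b := by
  let P : Polynomial (Ob K) := Polynomial.X ^ q - (Polynomial.C a * Polynomial.X + Polynomial.C b)
  have hlt : (Polynomial.C a * Polynomial.X + Polynomial.C b).degree <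
      (Polynomial.X ^ q : Polynomial (Ob K)).degree := by
    rw [Polynomial.degree_X_pow]
    exact Polynomial.degree_linear_le.trans_lt (by exact_mod_cast hq)
  have hP : P.Monic := (Polynomial.monic_X_pow q).sub_of_left hlt
  have hd : P.degree ≠ 0 := by
    rw [Polynomial.degree_sub_eq_left_of_degree_lt hlt, Polynomial.degree_X_pow]
    exact_mod_cast (by omega : q ≠ 0)
  obtain ⟨y, hy⟩ := IsAlgClosed.exists_eval₂_eq_zero_of_injective (algebraMap (Ob K) K)
    Subtype.val_injective P hd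
  refine ⟨⟨y, norm_le_one_of_isIntegral ⟨P, hP, hy⟩⟩, Subtype.ext ?_⟩
  simp only [P, Polynomial.eval₂_sub, Polynomial.eval₂_add, Polynomial.eval₂_mul,
    Polynomial.eval₂_X_pow, Polynomial.eval₂_X, Polynomial.eval₂_C, sub_eq_zero] at hy
  exact hy

theorem two_le_pow {p h : ℕ} [Fact p.Prime] (hh : 1 ≤ h) : 2 ≤ p ^ h :=
  (Fact.out : p.Prime).two_le.trans (Nat.le_self_pow (by omega) p)

end TauAux

variable {p : ℕ} [Fact p.Prime] {K : Type*} [NontriviallyNormedField K] [VF K] [CharP K p]

/-- An integral solution of `τ ∘ w = τ ^ σ`. -/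
theorem exists_boettcher {h : ℕ} (hh : 1 ≤ h) {w : PowerSeries (Ob K)}
    (hw0 : PowerSeries.constantCoeff w = 0) (hw1 : PowerSeries.coeff 1 w ≠ 0) :
    ∃ τ : PowerSeries (Ob K), PowerSeries.constantCoeff τ = 0 ∧ PowerSeries.coeff 1 τ ≠ 0 ∧
      PowerSeries.subst w τ = PowerSeries.map (iterateFrobenius (Ob K) p h) τ := by
  have hq := TauAux.two_le_pow (p := p) hh
  obtain ⟨f, hf⟩ := TauAux.exists_seq (α := Ob K) (fun n f a => (n = 0 → a = 0) ∧ (n = 1 → a ≠ 0) ∧
      a ^ p ^ h = PowerSeries.coeff n (w ^ n) * a +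
        ∑ i ∈ Finset.range n, f i * PowerSeries.coeff n (w ^ i))
    (fun n f => by
      rcases n with _ | _ | n
      · exact ⟨0, fun _ => rfl, by omega, by
          rw [zero_pow (pow_ne_zero_p p h), mul_zero, Finset.sum_range_zero, add_zero]⟩
      · obtain ⟨a, ha⟩ := exists_pow_eq_Ob (PowerSeries.coeff 1 w) (m := p ^ h - 1) (by omega)
        refine ⟨a, by omega, fun _ h0 => hw1 ?_, ?_⟩
        · rw [← ha, h0, zero_pow (by omega)]
        · rw [zero_add, pow_one, ← ha, ← pow_succ, Nat.sub_add_cancel (by omega)]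
          simp [PowerSeries.coeff_one]
      · obtain ⟨a, ha⟩ := TauAux.exists_root hq (PowerSeries.coeff (n + 1 + 1) (w ^ (n + 1 + 1)))
          (∑ i ∈ Finset.range (n + 1 + 1), f i * PowerSeries.coeff (n + 1 + 1) (w ^ i))
        exact ⟨a, by omega, by omega, ha⟩)
    (fun n f g a hfg ha => ⟨ha.1, ha.2.1, by
      rw [ha.2.2]
      congr 1
      exact Finset.sum_congr rfl fun i hi => by rw [hfg i (Finset.mem_range.1 hi)]⟩)
  refine ⟨PowerSeries.mk f, ?_, ?_, ?_⟩
  · rw [← PowerSeries.coeff_zero_eq_constantCoeff_apply, PowerSeries.coeff_mk]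
    exact (hf 0).1 rfl
  · rw [PowerSeries.coeff_mk]
    exact (hf 1).2.1 rfl
  · ext1 n
    rw [TauAux.coeff_subst_eq_sum hw0, PowerSeries.coeff_map, iterateFrobenius_def,
      Finset.sum_range_succ]
    simp only [PowerSeries.coeff_mk]
    rw [(hf n).2.2]
    ring

theorem exists_tau {h : ℕ} (hh : 1 ≤ h) (G H : FormalGroup (Ob K)) [G.IsComm] [H.IsComm]
    (hH : mulSeries H p = PowerSeries.X ^ p ^ h) {w : PowerSeries (Ob K)}
    (hw0 : PowerSeries.constantCoeff w = 0)
    (hw : mulSeries G p = PowerSeries.expand (p ^ h) (pow_ne_zero_p p h) w)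
    (hw1 : PowerSeries.coeff 1 w ≠ 0) :
    ∃ τ : PowerSeries (Ob K), IsFGHom G H τ ∧ PowerSeries.coeff 1 τ ≠ 0 := by
  have hq := TauAux.two_le_pow (p := p) hh
  obtain ⟨τ, hτ0, hτ1, hτ⟩ := exists_boettcher (p := p) hh hw0 hw1
  have hpτ : PowerSeries.subst (mulSeries G p) τ = τ ^ p ^ h := by
    have e := PowerSeries.expand_subst (p ^ h) (pow_ne_zero_p p h)
      (PowerSeries.HasSubst.of_constantCoeff_zero' hw0) τ
    have e2 := MvPowerSeries.map_iterateFrobenius_expand p (Fact.out : p.Prime).ne_zero τ h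
    rw [hτ] at e
    rw [MvPowerSeries.map_expand] at e2
    rw [hw]
    exact e.symm.trans e2
  let φ : Ob K →+* K := (Ob K).subtype
  have hφ : Function.Injective φ := Subtype.val_injective
  have hu : IsUnit (PowerSeries.coeff 1 (PowerSeries.map φ τ)) := by
    rw [PowerSeries.coeff_map, isUnit_iff_ne_zero]
    exact fun h0 => hτ1 (Subtype.ext h0)
  have h0 := constantCoeff_map_eq_zero φ hτ0
  have hi0 := PowerSeries.constantCoeff_substInvOfIsUnit _ hu
  have hiu : IsUnit (PowerSeries.coeff 1 ((PowerSeries.map φ τ).substInvOfIsUnit hu)) := by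
    rw [PowerSeries.coeff_one_substInvOfIsUnit]
    exact Units.isUnit _
  obtain ⟨G', hc, hι⟩ := exists_transport (G.map φ) hi0 hiu
  have hτ' : IsFGHom (G.map φ) G' (PowerSeries.map φ τ) :=
    TauAux.isFGHom_of_inv hι hiu h0 (PowerSeries.subst_substInvOfIsUnit_left _ h0 hu)
  have hG' : mulSeries G' p = PowerSeries.X ^ p ^ h := by
    have e1 := IsFGHom.subst_mulSeries hτ' p
    have e2 : PowerSeries.map φ (PowerSeries.subst (mulSeries G p) τ) =
        PowerSeries.subst (PowerSeries.map φ (mulSeries G p)) (PowerSeries.map φ τ) :=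
      PowerSeries.map_subst
        (PowerSeries.HasSubst.of_constantCoeff_zero' (constantCoeff_mulSeries G p)) τ
    rw [mulSeries_map, ← e2, hpτ, map_pow] at e1
    have hs := PowerSeries.HasSubst.of_constantCoeff_zero' h0
    have hs' := PowerSeries.HasSubst.of_constantCoeff_zero' hi0
    have e3 := congrArg (PowerSeries.subst ((PowerSeries.map φ τ).substInvOfIsUnit hu)) e1
    rw [PowerSeries.subst_comp_subst_apply hs hs', PowerSeries.subst_pow hs',
      PowerSeries.subst_substInvOfIsUnit_right _ h0 hu, PowerSeries.X_subst] at e3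
    exact e3.symm
  obtain ⟨G₀, hc₀, hG₀⟩ := TauAux.exists_descent hφ G' fun α => by
    have e := congrArg (fun F : FormalGroup K => coeff α F.toPowerSeries) (fg_map_frob G' hG')
    simp only [FormalGroup.map_toPowerSeries, coeff_map, iterateFrobenius_def] at e
    refine ⟨⟨coeff α G'.toPowerSeries, ?_⟩, rfl⟩
    rw [mem_Ob]
    by_contra hlt
    have e2 := congrArg norm e
    rw [norm_pow] at e2
    have := pow_lt_pow_right₀ (not_le.1 hlt) (show 1 < p ^ h by omega)
    rw [pow_one, e2] at this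
    exact lt_irrefl _ this
  subst hG₀
  have hG₀ : mulSeries G₀ p = PowerSeries.X ^ p ^ h := by
    apply PowerSeries.map_injective φ hφ
    rw [← mulSeries_map, hG', map_pow, PowerSeries.map_X]
  obtain ⟨b, hb, hb1⟩ := lazard hh G₀ H hG₀ hH
  refine ⟨_, IsFGHom.comp hb (IsFGHom.of_map_injective hφ hτ'), ?_⟩
  rw [TauAux.coeff_one_subst hτ0, hb1, one_mul]
  exact hτ1

/-- A homomorphism with nonzero linear coefficient is onto if the source is `p`-divisible. -/
theorem hom_surjective {h : ℕ} (hh : 1 ≤ h) {G H : FormalGroup (Ob K)} [G.IsComm] [H.IsComm]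
    (hH : mulSeries H p = PowerSeries.X ^ p ^ h) {τ : PowerSeries (Ob K)} (hτ : IsFGHom G H τ)
    (hτ1 : PowerSeries.coeff 1 τ ≠ 0) (hdiv : ∀ t : Pt G, ∃ t' : Pt G, p • t' = t) :
    Function.Surjective (Pt.hom hτ) := by
  have hq := TauAux.two_le_pow (p := p) hh
  have hpow : ∀ (j : ℕ) (u : Pt H), (p ^ j • u).1 = u.1 ^ (p ^ h) ^ j := by
    intro j u
    induction j with
    | zero => simp
    | succ j ih =>
      rw [pow_succ' p, mul_nsmul', Pt.nsmul_val, hH, ev1_X_pow (p ^ j • u).2, ih, ← pow_mul,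
        ← pow_succ]
  have hdiv' : ∀ (j : ℕ) (t : Pt G), ∃ t' : Pt G, p ^ j • t' = t := by
    intro j
    induction j with
    | zero => exact fun t => ⟨t, by simp⟩
    | succ j ih =>
      intro t
      obtain ⟨t₁, rfl⟩ := hdiv t
      obtain ⟨t₂, rfl⟩ := ih t₁
      exact ⟨t₂, by rw [pow_succ' p, mul_nsmul']⟩
  set c := PowerSeries.coeff 1 τ with hc
  obtain ⟨g, hg⟩ : (PowerSeries.X ^ 2 : PowerSeries (Ob K)) ∣ τ - PowerSeries.C c * PowerSeries.X := by
    rw [PowerSeries.X_pow_dvd_iff]
    intro m hm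
    interval_cases m
    · simp [hτ.1]
    · simp [hc]
  have hsub : PowerSeries.HasSubst (PowerSeries.C c * PowerSeries.X : PowerSeries (Ob K)) :=
    PowerSeries.HasSubst.of_constantCoeff_zero' (by simp)
  have hsmall : ∀ s ∈ Nil (Ob K), ∃ t ∈ Nil (Ob K), ev1 τ t = c ^ 2 * s := by
    intro s hs
    obtain ⟨t, ht, e⟩ := exists_ev1_eq_of_unit (f := PowerSeries.X + PowerSeries.X ^ 2 *
      (PowerSeries.subst (PowerSeries.C c * PowerSeries.X : PowerSeries (Ob K)) g :
        PowerSeries (Ob K))) (by simp) (by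
          rw [map_add, PowerSeries.coeff_X_pow_mul']
          simp) hs
    have hct : c * t ∈ Nil (Ob K) := Ideal.mul_mem_left _ _ ht
    refine ⟨c * t, hct, ?_⟩
    rw [ev1_add, ev1_mul, ev1_X_pow ht, ev1_subst ht hsub, ev1_C_mul ht, ev1_X ht] at e
    rw [sub_eq_iff_eq_add.1 hg, ev1_add, ev1_mul, ev1_X_pow hct, ev1_C_mul hct, ev1_X hct, ← e]
    ring
  intro u
  obtain ⟨k, hk⟩ := exists_pow_mem_span u.2 (pow_ne_zero 2 hτ1)
  obtain ⟨a, ha⟩ := Ideal.mem_span_singleton'.1 hk
  obtain ⟨m, hm⟩ := Nat.exists_eq_add_of_lt (Nat.lt_pow_self (show 1 < p ^ h by omega) (n := k))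
  obtain ⟨t, ht, e⟩ := hsmall (a * u.1 ^ (m + 1))
    (Ideal.mul_mem_left _ _ (pow_mem_Nil u.2 (Nat.succ_ne_zero m)))
  obtain ⟨t', ht'⟩ := hdiv' k ⟨t, ht⟩
  refine ⟨t', ?_⟩
  have e1 : p ^ k • (Pt.hom hτ t' - u) = 0 := by
    rw [nsmul_sub, ← map_nsmul, ht', sub_eq_zero]
    apply Pt.ext
    rw [Pt.hom_val, hpow, hm, add_assoc, pow_add, ← ha]
    refine e.trans ?_
    ring
  have e2 := congrArg Pt.val e1
  rw [hpow, Pt.zero_val] at e2
  exact sub_eq_zero.1 (Pt.ext (pow_eq_zero_iff (by omega) |>.1 e2))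

end Crest.Agent.R227
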