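import Crest.Agent.R227.Norm
import Crest.Agent.R227.Phi
import Crest.Agent.R227.LinAux

/-! Row 227 (S0351), module `Torsion`: the Kodaira-Spencer map of the height stratum. -/

set_option autoImplicit false
set_option linter.unusedSectionVars false
set_option linter.style.haveILetI false

namespace Crest.Agent.R227

open MvPowerSeries Crest.LubinTate

section aux

variable {A : Type*} [CommRing A] [Adic A] {σ : Type*} [Finite σ]

/-- The series of the `α`-th coefficients. -/
noncomputable def torsCoeff (α : σ →₀ ℕ) (w : PowerSeries (MvPowerSeries σ A)) : PowerSeries A :=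
  PowerSeries.mk fun l => coeff α (PowerSeries.coeff l w)

theorem coeff_ev1_C {s : A} (hs : s ∈ Nil A) (α : σ →₀ ℕ) (w : PowerSeries (MvPowerSeries σ A)) :
    coeff α (ev1 w (C s)) = ev1 (torsCoeff α w) s := by
  have hs' : (C s : MvPowerSeries σ A) ∈ Nil _ := mapsNil_C _ hs
  rw [← sub_eq_zero]
  refine (small_span_singleton hs).eq_zero fun N => ?_
  induction N generalizing w with
  | zero => simp
  | succ N ih =>
    set w' : PowerSeries (MvPowerSeries σ A) := PowerSeries.mk fun l => PowerSeries.coeff (l + 1) w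
    have e1 : w = PowerSeries.X * w' + PowerSeries.C (PowerSeries.constantCoeff w) :=
      PowerSeries.eq_X_mul_shift_add_const w
    have e2 : torsCoeff α w = PowerSeries.X * torsCoeff α w' +
        PowerSeries.C (coeff α (PowerSeries.constantCoeff w)) := by
      rw [PowerSeries.eq_X_mul_shift_add_const (torsCoeff α w)]
      congr 2
      · ext l
        simp [torsCoeff, w']
      · simp [torsCoeff]
    have e3 : coeff α (ev1 w (C s)) - ev1 (torsCoeff α w) s =
        s * (coeff α (ev1 w' (C s)) - ev1 (torsCoeff α w') s) := by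
      rw [e2]
      conv_lhs => rw [e1]
      rw [ev1_add, ev1_add, ev1_mul, ev1_mul, ev1_X hs, ev1_X hs', ev1_C hs, ev1_C hs', map_add,
        coeff_C_mul]
      simp only [map_add, map_mul, PowerSeries.constantCoeff_X, zero_mul, zero_add,
        PowerSeries.constantCoeff_C]
      ring
    rw [e3, pow_succ']
    exact Ideal.mul_mem_mul (Ideal.mem_span_singleton_self s) (ih w')

theorem coeff_ev1_pow {p : ℕ} [Fact p.Prime] [CharP A p] {h : ℕ} (hh : 1 ≤ h)
    {a : MvPowerSeries σ A} (ha : a ∈ Nil (MvPowerSeries σ A)) (j : σ)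
    (w : PowerSeries (MvPowerSeries σ A)) :
    coeff (Finsupp.single j 1) (ev1 w (a ^ p ^ h)) =
      ev1 (torsCoeff (Finsupp.single j 1) w) (constantCoeff a ^ p ^ h) := by
  haveI : CharP (MvPowerSeries σ A) p := charP_of_injective_ringHom C_injective p
  have hq := pow_ne_zero_p p h
  have ht := pow_mem_Nil (mem_Nil_mv.1 ha) hq
  have h1 : a - C (constantCoeff a) ∈ Ideal.span (Set.range (X : σ → MvPowerSeries σ A)) := by
    rw [span_range_X]
    simp
  have h2 : a ^ p ^ h - C (constantCoeff a ^ p ^ h) ∈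
      Ideal.span (Set.range (X : σ → MvPowerSeries σ A)) ^ 2 := by
    rw [map_pow, ← sub_pow_char_pow]
    refine Ideal.pow_le_pow_right ?_ (Ideal.pow_mem_pow h1 _)
    exact (Fact.out : p.Prime).two_le.trans (Nat.le_self_pow (by omega) p)
  have h3 := (mem_span_X_pow_iff 2 _).1 (ev1_sub_ev1_mem (pow_mem_Nil ha hq) (mapsNil_C _ ht) h2 w)
    (Finsupp.single j 1) (by simp)
  rw [map_sub, sub_eq_zero] at h3
  rw [h3, coeff_ev1_C ht]

/-- Torsion points are zeros of `[m]` of the same multiplicity as the origin. -/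
theorem exists_coeff_shift_ne_zero (G : FormalGroup A) [G.IsComm] {m μ : ℕ}
    (hμ : PowerSeries.coeff μ (mulSeries G m) ≠ 0) {t : A} (ht : t ∈ Nil A)
    (h0 : ev1 (mulSeries G m) t = 0) :
    ∃ i ≤ μ, PowerSeries.coeff i (shift (mulSeries G m) t) ≠ 0 := by
  by_contra hcon
  push Not at hcon
  obtain ⟨g, hg⟩ : PowerSeries.X ^ (μ + 1) ∣ shift (mulSeries G m) t :=
    PowerSeries.X_pow_dvd_iff.2 fun i hi => hcon i (by omega)
  have hC : (PowerSeries.C t : PowerSeries A) ∈ Nil _ := mapsNil_C _ ht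
  let ct : Pt (G.map (PowerSeries.C : A →+* PowerSeries A)) := ⟨PowerSeries.C t, hC⟩
  have h1 : m • ct = 0 := Pt.ext (by
    rw [Pt.nsmul_val, mulSeries_map]
    change ev1 _ (PowerSeries.C t) = 0
    rw [← map_ev1 _ ht hC, h0, map_zero])
  have h2 : ev1 (PowerSeries.map PowerSeries.C (mulSeries G m)) (lser G t) = mulSeries G m := by
    have := congrArg Pt.val (nsmul_add (ptX G) ct m)
    rw [h1, add_zero, nsmul_ptX, Pt.nsmul_val, mulSeries_map] at this
    exact this
  obtain ⟨δ, hδ⟩ : PowerSeries.X ∣ lser G t - PowerSeries.C t :=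
    PowerSeries.X_dvd_iff.2 (by simp [constantCoeff_lser G ht])
  have hδ' : ∀ _ : Unit, PowerSeries.X * δ ∈ Nil (PowerSeries A) := fun _ =>
    Ideal.mul_mem_right _ _ (X_mem_Nil ())
  let φ : PowerSeries A →+* PowerSeries A :=
    (evHom (fun _ : Unit => PowerSeries.X * δ) hδ').comp (MvPowerSeries.map C)
  have hφC : φ.comp PowerSeries.C = PowerSeries.C := RingHom.ext fun r => by
    change evHom _ hδ' (MvPowerSeries.map C (C r)) = _
    rw [map_C, evHom_C]
    rfl
  have hφX : φ PowerSeries.X = PowerSeries.X * δ := by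
    change evHom _ hδ' (MvPowerSeries.map C (X ())) = _
    rw [map_X, evHom_X]
  have hφt : φ (PowerSeries.C t + PowerSeries.X) = lser G t := by
    rw [map_add, hφX, ← hδ, ← RingHom.comp_apply, hφC, add_sub_cancel]
  have h3 := map_ev1 φ (C_add_X_mem_Nil ht) (by
    rw [hφt]; exact (ptX G + ct).2) (PowerSeries.map PowerSeries.C (mulSeries G m))
  rw [← RingHom.comp_apply (PowerSeries.map φ), ← PowerSeries.map_comp, hφC, hφt, h2] at h3
  change φ (shift _ t) = _ at h3
  rw [hg, map_mul, map_pow, hφX, mul_pow, mul_assoc] at h3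
  exact hμ (PowerSeries.X_pow_dvd_iff.1 ⟨_, h3.symm⟩ μ (by omega))

end aux

theorem exists_torsion_basis {p : ℕ} [Fact p.Prime] {K : Type*} [NontriviallyNormedField K] [VF K]
    [CharP K p] {σ : Type*} [Fintype σ] [DecidableEq σ] {h n : ℕ} (hh : 1 ≤ h)
    (𝒢 : FormalGroup (MvPowerSeries σ (Ob K))) [𝒢.IsComm] (d : σ → ℕ)
    (hd : ∀ i, h ≤ d i ∧ d i < n)
    (hlow : ∀ j < h, PowerSeries.coeff (p ^ j) (mulSeries 𝒢 p) = 0)
    (hc : constantCoeff (PowerSeries.coeff (p ^ h) (mulSeries 𝒢 p)) ≠ 0)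
    (hred : ∀ j < p ^ n, constantCoeff (PowerSeries.coeff j (mulSeries 𝒢 p)) ∈ Nil (Ob K))
    (hunit : IsUnit (constantCoeff (PowerSeries.coeff (p ^ n) (mulSeries 𝒢 p))))
    (jac : ∀ i j, coeff (Finsupp.single j 1) (PowerSeries.coeff (p ^ d i) (mulSeries 𝒢 p)) =
      if i = j then 1 else 0)
    {M : Type*} [AddCommGroup M] (cov : M →+ Pt 𝒢)
    (hsurj : ∀ t ∈ Nil (Ob K), ∃ y, constantCoeff (cov y).1 = t) :
    ∃ y : σ → M, (∀ i, constantCoeff (cov (y i)).1 = 0) ∧
      (Matrix.of fun i j => coeff (Finsupp.single j 1) (cov (y i)).1).det ≠ 0 := by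
  haveI : CharP (MvPowerSeries σ (Ob K)) p := charP_of_injective_ringHom C_injective p
  have hq := pow_ne_zero_p p h
  obtain ⟨w, -, hw⟩ := exists_w (CharP.cast_eq_zero _ p) 𝒢 hlow
  set G := 𝒢.map (constantCoeff : MvPowerSeries σ (Ob K) →+* Ob K) with hG
  have hf : ∀ j, PowerSeries.coeff j (mulSeries G p) =
      constantCoeff (PowerSeries.coeff j (mulSeries 𝒢 p)) := fun j => by
    rw [hG, mulSeries_map, PowerSeries.coeff_map]
  obtain ⟨s, hs, hcard⟩ := exists_zeros (mulSeries G p) (d := p ^ n) (μ := p ^ h)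
    (fun j hj => hf j ▸ hred j hj) (hf _ ▸ hunit) fun t ht h0 =>
      exists_coeff_shift_ne_zero G (hf _ ▸ hc) ht h0
  obtain ⟨y, hy⟩ := exists_det_ne_zero (F := K)
    (fun (y : {y : M // constantCoeff (cov y).1 = 0}) j =>
      ((coeff (Finsupp.single j 1) (cov y).1 : Ob K) : K)) fun v hv => by
    by_contra hv0
    obtain ⟨i₀, hi₀⟩ := Function.ne_iff.1 hv0
    haveI : Nonempty σ := ⟨i₀⟩
    obtain ⟨i, hi⟩ := Finite.exists_max fun j => ‖v j‖
    have hvi : 0 < ‖v i‖ := (norm_pos_iff.2 hi₀).trans_le (hi i₀)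
    let u : σ → Ob K := fun j => ⟨v j / v i, by
      rw [mem_Ob, norm_div, div_le_one hvi]; exact hi j⟩
    have hui : u i = 1 := Subtype.ext (div_self (norm_pos_iff.1 hvi))
    have hu : ∀ y : M, constantCoeff (cov y).1 = 0 →
        ∑ j, u j * coeff (Finsupp.single j 1) (cov y).1 = 0 := fun y hy => by
      apply Subtype.ext
      have := congrArg (· / v i) (hv ⟨y, hy⟩)
      simp only [Finset.sum_div, zero_div] at this
      rw [AddSubmonoidClass.coe_finsetSum, ZeroMemClass.coe_zero, ← this]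
      exact Finset.sum_congr rfl fun j _ => by rw [Subring.coe_mul, mul_div_right_comm]
    have h1 := card_zeros_le (∑ j, PowerSeries.C (u j) * torsCoeff (Finsupp.single j 1) w)
      (d := p ^ (d i - h)) (by
        have e : PowerSeries.coeff (p ^ (d i - h)) w =
            PowerSeries.coeff (p ^ d i) (mulSeries 𝒢 p) := by
          rw [hw, ← PowerSeries.coeff_expand_mul _ hq, ← pow_add, Nat.add_sub_cancel' (hd i).1]
        simp [torsCoeff, e, jac, hui])
      (s.map ⟨_, iterateFrobenius_inj (Ob K) p h⟩) fun t' ht' => by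
        obtain ⟨t, ht, rfl⟩ := Finset.mem_map.1 ht'
        obtain ⟨h2, h3⟩ := hs t ht
        obtain ⟨y, rfl⟩ := hsurj t h2
        have h4 := pow_mem_Nil h2 hq
        refine ⟨h4, ?_⟩
        have h5 := hu (p • y) (by
          rw [map_nsmul, Pt.nsmul_val, map_ev1 _ (cov y).2 h2, ← mulSeries_map]
          exact h3)
        change ev1 _ (constantCoeff (cov y).1 ^ p ^ h) = 0
        rw [ev1_sum, ← h5]
        refine Finset.sum_congr rfl fun j _ => ?_
        rw [ev1_C_mul h4, map_nsmul, Pt.nsmul_val, hw, ev1_expand (cov y).2,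
          coeff_ev1_pow hh (cov y).2]
    rw [Finset.card_map] at h1
    have h2 := hcard.trans (Nat.mul_le_mul_left _ h1)
    rw [← pow_add, Nat.add_sub_cancel' (hd i).1] at h2
    exact absurd h2 (not_le.2 (Nat.pow_lt_pow_right (Fact.out : p.Prime).one_lt (hd i).2))
  refine ⟨fun i => y i, fun i => (y i).2, fun h0 => hy ?_⟩
  have := congrArg (Ob K).subtype h0
  rw [RingHom.map_det, map_zero] at this
  exact this

end Crest.Agent.R227
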