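import Crest.Agent.R227.Main0
import Crest.Agent.R227.Torsion
import Crest.Agent.R227.ST
import Crest.Agent.R227.Rigid
import Crest.Agent.R227.Tau

/-! Row 227 (S0351), module `Relation`: if the orbit of a point of the height `h` stratum is not
Zariski dense, its Serre-Tate coordinates satisfy a linear relation. -/

set_option autoImplicit false
set_option linter.unusedSectionVars false
set_option linter.style.haveILetI false

namespace Crest.Agent.R227

open MvPowerSeries Crest.LubinTate Filter Topology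

variable {p : ℕ} [Fact p.Prime] {n : ℕ} {Γ : FormalGroup (GaloisField p n)}
  {H : FormalGroup (LTRing p n)} [Γ.IsComm] [H.IsComm]

/-- The variables of the height `h` stratum. -/
noncomputable def uu (A : Type*) [CommRing A] (h : ℕ) (j : Fin (n - 1)) :
    MvPowerSeries {j : Fin (n - 1) // h ≤ j + 1} A :=
  if hj : h ≤ j + 1 then X ⟨j, hj⟩ else 0

theorem constantCoeff_uu (A : Type*) [CommRing A] (h : ℕ) (j : Fin (n - 1)) :
    constantCoeff (uu A h j) = 0 := by
  unfold uu
  split_ifs <;> simp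

theorem uu_coe (A : Type*) [CommRing A] {h : ℕ} (j : {j : Fin (n - 1) // h ≤ j + 1}) :
    uu A h j.1 = X j := dif_pos j.2

theorem uu_of_lt (A : Type*) [CommRing A] {h : ℕ} {j : Fin (n - 1)} (hj : j + 1 < h) :
    uu A h j = 0 := dif_neg (by omega)

section norm

variable {K : Type*} [NontriviallyNormedField K] [VF K]

theorem norm_ev1_le_self {t : Ob K} (ht : t ∈ Nil (Ob K)) {f : PowerSeries (Ob K)}
    (hf : PowerSeries.constantCoeff f = 0) : ‖((ev1 f t : Ob K) : K)‖ ≤ ‖(t : K)‖ :=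
  mem_span_iff_norm.1 (ev1_mem_of_mem ht (Ideal.mem_span_singleton_self t) (hf ▸ Ideal.zero_mem _))

theorem norm_le_max_of_sub_mem {a b π : Ob K} (h : a - b ∈ Ideal.span {π}) :
    ‖(a : K)‖ ≤ max ‖(π : K)‖ ‖(b : K)‖ := by
  have e : (a : K) = ((a - b : Ob K) : K) + b := by simp
  rw [e]
  exact (IsUltrametricDist.norm_add_le_max _ _).trans
    (max_le_max_right _ (mem_span_iff_norm.1 h))

theorem nsmul_val_pz {σ : Type*} [Finite σ] {q : ℕ} (hq : q ≠ 0)
    {𝒢 : FormalGroup (MvPowerSeries σ (Ob K))} [𝒢.IsComm]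
    {w : PowerSeries (MvPowerSeries σ (Ob K))} (hw : mulSeries 𝒢 p = PowerSeries.expand q hq w)
    {z : σ → Ob K} (hz : ∀ i, z i ∈ Nil (Ob K)) {G : FormalGroup (Ob K)} [G.IsComm]
    (hG : 𝒢.map (evHom z hz) = G) (m : ℕ) (t : Pt G) :
    (p ^ m • t).1 = (pz q w z)^[m] t.1 := by
  induction m with
  | zero => simp
  | succ m ih =>
    rw [pow_succ', mul_smul, Function.iterate_succ_apply', ← ih, Pt.nsmul_val]
    generalize p ^ m • t = u
    have hu : u.1 ^ q ∈ Nil (Ob K) := pow_mem_Nil u.2 hq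
    have hG' : mulSeries G p = PowerSeries.expand q hq (PowerSeries.map (evHom z hz) w) := by
      rw [← hG, mulSeries_map, hw, PowerSeries.map_expand]
    rw [pz, ← evHom_apply hz, map_ev1 _ (mapsNil_C _ hu) (by simpa using hu), hG',
      ev1_expand u.2]
    simp

theorem norm_pow_nsmul_le {q : ℕ} (hq : q ≠ 0) {G : FormalGroup (Ob K)} [G.IsComm]
    {w : PowerSeries (Ob K)} (hw0 : PowerSeries.constantCoeff w = 0)
    (hw : mulSeries G p = PowerSeries.expand q hq w) (m : ℕ) (t : Pt G) :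
    ‖((p ^ m • t).1 : K)‖ ≤ ‖(t.1 : K)‖ ^ q ^ m := by
  induction m with
  | zero => simp
  | succ m ih =>
    rw [pow_succ', mul_smul, Pt.nsmul_val, hw, ev1_expand (p ^ m • t).2]
    refine (norm_ev1_le_self (pow_mem_Nil (p ^ m • t).2 hq) hw0).trans ?_
    rw [SubmonoidClass.coe_pow, norm_pow, pow_succ, pow_mul]
    exact pow_le_pow_left₀ (norm_nonneg _) ih q

theorem norm_hom_eq {G G' : FormalGroup (Ob K)} [G.IsComm] [G'.IsComm] {θ : PowerSeries (Ob K)}
    (h : IsFGHom G G' θ) (hu : IsUnit (PowerSeries.coeff 1 θ)) (t : Pt G) :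
    ‖((Pt.hom h t).1 : K)‖ = ‖(t.1 : K)‖ := by
  obtain ⟨u, hu, hu'⟩ := exists_ev1_sub_eq_unit t.2 (Ideal.zero_mem _) hu
  rw [ev1_at_zero, h.1, sub_zero, sub_zero] at hu'
  rw [Pt.hom_val, hu', MulMemClass.coe_mul, norm_mul, isUnit_Ob.1 hu, mul_one]

end norm

theorem isUnit_theta {g : PowerSeries (GaloisField p n)} (hg : IsFGAut Γ g)
    {θ : PowerSeries (LTRing p n)} (hθg : PowerSeries.map (LTRing.residue p n) θ = g) :
    IsUnit (PowerSeries.coeff 1 θ) := by
  by_contra hnu
  have h3 : PowerSeries.coeff 1 θ ∈ mE p n := by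
    rw [mE_eq]
    exact hnu
  have h4 := hg.2
  rw [← hθg, PowerSeries.coeff_map, RingHom.mem_ker.1 h3] at h4
  exact not_isUnit_zero h4

theorem relation (S : LTS Γ H) {M h : ℕ} (hh : 1 ≤ h) (hn : h < n) {J : Ideal (LTRing p n)}
    (hJ : J.IsRadical) (hst : IsStableIdeal p n Γ H M J) (hI : heightIdeal p n H h ≤ J)
    (hv : vv p H h ∉ J) {f : LTRing p n} (hf : f ∈ J) (hf' : f ∉ heightIdeal p n H h)
    {K : Type} [NontriviallyNormedField K] [VF K] [CharP K p] (ι : GaloisField p n →+* Ob K)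
    (Hh : FormalGroup (Ob K)) [Hh.IsComm] (hHh : mulSeries Hh p = PowerSeries.X ^ p ^ h) :
    ∃ (xz : LTRing p n →+* MvPowerSeries {j : Fin (n - 1) // h ≤ j + 1} (Ob K))
      (c : Fin (n - 1) → Ob K) (π : Ob K) (cov : Pt (Γ.map ι) →+ Pt (H.map xz))
      (y : {j : Fin (n - 1) // h ≤ j + 1} → Pt (Γ.map ι)) (τ : PowerSeries (Ob K))
      (_ : IsFGHom ((H.map xz).map constantCoeff) Hh τ) (T : Pt (Γ.map ι) →+ Pt Hh)
      (s : {j : Fin (n - 1) // h ≤ j + 1}) (N : ℕ)
      (φ : {j : Fin (n - 1) // h ≤ j + 1} → PowerSeries (Ob K)) (hφ : ∀ i, IsFGHom Hh Hh (φ i)),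
      (∀ w, xz (C w) = C (ι (WittVector.constantCoeff w))) ∧
      (∀ j : Fin (n - 1), xz (vv p H (j + 1)) = C (c j) + uu (Ob K) h j) ∧
      π ∈ Nil (Ob K) ∧ (∀ j, c j ∈ Nil (Ob K)) ∧
      (∀ y, constantCoeff (cov y).1 - y.1 ∈ Ideal.span {π}) ∧
      (∀ i, constantCoeff (cov (y i)).1 = 0) ∧
      (Matrix.of fun i j => coeff (Finsupp.single j 1) (cov (y i)).1).det ≠ 0 ∧
      (∀ y, (T y).1 = ev1 τ (constantCoeff (cov y).1)) ∧ Function.Surjective T ∧ φ s = 0 ∧
      ∀ e ∈ EndS Γ ι, p ^ N • T (e (y s)) = ∑ i, Pt.hom (hφ i) (T (e (y i))) := by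
  have hp0 : (p : Ob K) = 0 := CharP.cast_eq_zero _ p
  have hpJ : (p : LTRing p n) ∈ J := by
    rw [← vv_zero H]
    exact hI (vv_mem_heightIdeal hh)
  obtain ⟨x, hxC, hxJ, hxv, hxN⟩ := exists_point (ι.comp WittVector.constantCoeff)
    (hp0 ▸ Ideal.zero_mem _) hJ (S.residue_vv hn) hv (Or.inr ⟨hpJ, hp0⟩)
  set c : Fin (n - 1) → Ob K := fun j => x (vv p H (j + 1)) with hc
  have hcN : ∀ j, c j ∈ Nil (Ob K) := fun j => hxN _ (S.residue_vv (by omega))
  have hc0 : ∀ j : Fin (n - 1), j + 1 < h → c j = 0 := fun j hj =>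
    hxJ _ (hI (vv_mem_heightIdeal hj))
  obtain ⟨π, hπ0, hπ, hπm⟩ := exists_pi c hcN
  have hpπ : (p : Ob K) ∈ Ideal.span {π} := hp0 ▸ Ideal.zero_mem _
  have hle : Ideal.span {π} ≤ Nil (Ob K) := (Ideal.span_singleton_le_iff_mem _).2 hπ
  obtain ⟨xz, h1, h2, h3⟩ := S.exists_family (ι.comp WittVector.constantCoeff) (hle hpπ) c hcN
    (uu (Ob K) h) (constantCoeff_uu _ h)
  have hx : (constantCoeff : MvPowerSeries _ (Ob K) →+* Ob K).comp xz = x :=
    S.hom_ext (fun f hf => mem_Nil_mv.1 (h3 f hf)) (fun w => by simp [h1, hxC])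
      fun j => by simp [h2, constantCoeff_uu, hc]
  have hx' : ∀ f, constantCoeff (xz f) = x f := fun f => DFunLike.congr_fun hx f
  have hxm : ∀ f ∈ mE p n, x f ∈ Ideal.span {π} := fun f hf => S.map_mem hpπ hπm hf
  have hred : (Ideal.Quotient.mk (Ideal.span {π})).comp x =
      ((Ideal.Quotient.mk (Ideal.span {π})).comp ι).comp (LTRing.residue p n) :=
    mk_comp_eq _ (fun f hf => Ideal.Quotient.eq_zero_iff_mem.2 (hxm f hf)) fun w => by
      rw [hxC]
      rfl
  have e2 : (H.map xz).map constantCoeff = H.map x := by rw [fg_map_map, hx]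
  have hG : (Γ.map ι).map (Ideal.Quotient.mk (Ideal.span {π})) =
      ((H.map xz).map constantCoeff).map (Ideal.Quotient.mk _) := by
    rw [e2, fg_map_map, fg_map_map H, hred, ← fg_map_map H, S.hH.1]
  have hdef := isDef_span_Ob hπ0 hπ
  obtain ⟨cov, hcov⟩ := exists_cov hdef hpπ (Γ.map ι) (div_M S.hΓ ι) (Ideal.Quotient.mk _)
    (fun y hy => hdef.isNilpotent_mk hy) (H.map xz) hG
  have hcov' : ∀ y, constantCoeff (cov y).1 - y.1 ∈ Ideal.span {π} := fun y =>
    Ideal.Quotient.eq.1 (hcov y)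
  -- the `p`-series of the family
  have hcoeff : ∀ j, constantCoeff (PowerSeries.coeff j (mulSeries (H.map xz) p)) =
      x (PowerSeries.coeff j (mulSeries H p)) := fun j => by
    rw [mulSeries_map, PowerSeries.coeff_map, hx']
  have hunit : IsUnit (x (PowerSeries.coeff (p ^ n) (mulSeries H p))) := by
    refine isUnit_of_sub_mem_Nil isUnit_one ?_
    rw [← map_one x, ← map_sub]
    exact hxN _ (by rw [map_sub, S.residue_coeff, if_pos rfl, map_one, sub_self])
  have hlow : ∀ j < h, PowerSeries.coeff (p ^ j) (mulSeries (H.map xz) p) = 0 := fun j hj => by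
    change vv p (H.map xz) j = 0
    rcases j with _ | j
    · rw [vv_zero, ← map_natCast C, hp0, map_zero]
    · rw [vv_map]
      have := h2 ⟨j, by omega⟩
      rwa [hc0 _ hj, uu_of_lt _ hj, map_zero, add_zero] at this
  let π₀ : Pt (Γ.map ι) →+ Pt ((H.map xz).map constantCoeff) :=
    (Pt.map constantCoeff mapsNil_constantCoeff rfl).comp cov
  have hπ₀ : ∀ y, (π₀ y).1 = constantCoeff (cov y).1 := fun _ => rfl
  have hdiv : ∀ t : Pt ((H.map xz).map constantCoeff), ∃ t', p • t' = t :=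
    pt_divisible _ (d := p ^ n) (by rwa [mulSeries_map, PowerSeries.coeff_map, hcoeff])
  have hsurj : Function.Surjective π₀ := cover_surjective hdef S.hn
    (by rw [mulSeries_map, S.hΓ, map_pow, PowerSeries.map_X])
    (fun α => Ideal.Quotient.eq.1
      (congrArg (fun G : FormalGroup _ => coeff α G.toPowerSeries) hG).symm) π₀ hcov' hdiv
  have hch : constantCoeff (PowerSeries.coeff (p ^ h) (mulSeries (H.map xz) p)) ≠ 0 := by
    rw [hcoeff]
    exact hxv
  obtain ⟨y, hy0, hy⟩ := exists_torsion_basis hh (H.map xz) (n := n) (fun j => j.1 + 1)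
    (fun j => ⟨j.2, by omega⟩) hlow hch
    (fun j hj => by
      rw [hcoeff]
      exact hxN _ (by rw [S.residue_coeff, if_neg hj.ne]))
    (by rwa [hcoeff])
    (fun i j => by
      change coeff _ (vv p (H.map xz) (i.1 + 1)) = _
      rw [vv_map, h2, map_add, coeff_C, if_neg (by simp), zero_add, uu_coe, coeff_X]
      simp [Finsupp.single_left_inj, eq_comm])
    cov (fun t ht => by
      obtain ⟨y, hy⟩ := hsurj ⟨t, ht⟩
      exact ⟨y, congrArg Pt.val hy⟩)
  obtain ⟨w, hw0, hw⟩ := exists_w (by rw [← map_natCast C, hp0, map_zero]) (H.map xz) hlow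
  have hw1 : constantCoeff (PowerSeries.coeff 1 w) ≠ 0 := by
    have := PowerSeries.coeff_expand_mul (p ^ h) (pow_ne_zero_p p h) w 1
    rw [mul_one, ← hw] at this
    rwa [← this]
  have hwm : ∀ {B : Type} [CommRing B] (r : MvPowerSeries _ (Ob K) →+* B),
      mulSeries ((H.map xz).map r) p =
        PowerSeries.expand (p ^ h) (pow_ne_zero_p p h) (PowerSeries.map r w) := fun r => by
    rw [mulSeries_map, hw, PowerSeries.map_expand]
  obtain ⟨τ, hτ, hτ1⟩ := exists_tau hh ((H.map xz).map constantCoeff) Hh hHh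
    (constantCoeff_map_eq_zero _ hw0) (hwm _) (by rwa [PowerSeries.coeff_map])
  have hF0 : xz f ≠ 0 := fun h0 => hf' (by
    rw [← S.ker_eq hh hn.le (x := xz) (s := ι.comp WittVector.constantCoeff)
      (c := fun j => c j.1) ?_ h1 (fun j => hcN j.1) ?_ ?_]
    · exact h0
    · rw [← RingHom.comap_ker, (RingHom.injective_iff_ker_eq_bot ι).1 ι.injective]
      exact ker_constantCoeff_witt
    · intro j hj
      rw [h2, hc0 _ hj, uu_of_lt _ hj, map_zero, add_zero]
    · intro j
      rw [h2, uu_coe])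
  obtain ⟨F, hF, hFz⟩ := exists_ST hh hw0 hw1 hτ.1 hτ1
    (IsFGHom.subst_w hτ (constantCoeff_map_eq_zero _ hw0) (hwm _) hHh) hy0 hy hF0
  let T : Pt (Γ.map ι) →+ Pt Hh := (Pt.hom hτ).comp π₀
  let Λ : AddSubgroup ({j : Fin (n - 1) // h ≤ j + 1} → Pt Hh) :=
    { carrier := {l | ∃ e ∈ EndS Γ ι, ∀ i, l i = T (e (y i))}
      zero_mem' := ⟨0, EndS_zero Γ ι, fun i => (map_zero T).symm⟩
      add_mem' := by
        rintro l l' ⟨e, he, hl⟩ ⟨e', he', hl'⟩
        refine ⟨e + e', EndS_add he he', fun i => ?_⟩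
        rw [Pi.add_apply, hl, hl', ← map_add]
        rfl
      neg_mem' := by
        rintro l ⟨e, he, hl⟩
        refine ⟨-e, EndS_neg he, fun i => ?_⟩
        rw [Pi.neg_apply, hl, ← map_neg]
        rfl }
  set ρ : ℝ := max ‖(π : K)‖ ‖fun i => ((y i).1 : K)‖ with hρ
  have hρ0 : 0 ≤ ρ := le_max_of_le_left (norm_nonneg _)
  have hρ1 : ρ < 1 := max_lt (mem_Nil_Ob.1 hπ)
    ((pi_norm_lt_iff one_pos).2 fun i => mem_Nil_Ob.1 (y i).2)
  have hbd : ∀ e ∈ EndS Γ ι, ∀ i, ‖((π₀ (e (y i))).1 : K)‖ ≤ ρ := by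
    rintro e ⟨δ, hδ, he⟩ i
    refine (norm_le_max_of_sub_mem (hcov' _)).trans (max_le_max_left _ ?_)
    rw [he]
    exact (norm_ev1_le_self (y i).2 (constantCoeff_map_eq_zero _ hδ.1)).trans
      (norm_le_pi_norm (fun i => ((y i).1 : K)) i)
  obtain ⟨s, N, φ, hφ, hφs, hrel⟩ := rigid hh Hh hHh Λ hρ0 hρ1
    (by
      rintro l ⟨e, he, hl⟩ i
      rw [hl]
      exact (norm_ev1_le_self (π₀ (e (y i))).2 hτ.1).trans (hbd e he i)) hF
    (by
      rintro l ⟨e, he, hl⟩
      obtain ⟨δ, hδ, he'⟩ := id he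
      obtain rfl : e = endOf ι hδ := AddMonoidHom.ext fun y => Pt.ext (he' y)
      have hl' : (fun i => ((l i).1 : K)) =
          fun i => ((ev1 τ (π₀ (endOf ι hδ (y i))).1 : Ob K) : K) := by
        funext i
        rw [hl]
        rfl
      rw [hl']
      have key : ∀ m : ℕ, ∃ z Λ' : {j : Fin (n - 1) // h ≤ j + 1} → Ob K, max M 1 ≤ m →
          ev (xz f) z = 0 ∧ ∀ i, ‖(z i : K)‖ ≤ ρ ^ (p ^ h) ^ m ∧
          ‖(Λ' i : K) - (π₀ (endOf ι hδ (y i))).1‖ ≤ ρ ^ (p ^ h) ^ m ∧
          ev (cov (y i)).1 z = (pz (p ^ h) w z)^[m] (Λ' i) := by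
        intro m
        by_cases hm : max M 1 ≤ m
        swap
        · exact ⟨0, 0, fun h => absurd h hm⟩
        have hm1 : 1 ≤ m := le_of_max_le_right hm
        have hg := S.isFGAut_gm hδ hm1
        obtain ⟨φ, hφ⟩ := S.exists_stab hg
        have hJφ := hst _ _ hg (fun i hi => S.coeff_gm hδ
          (hi.le.trans (le_of_max_le_left hm))) hφ
        have hJφ' : ∀ f ∈ J, x (φ f) = 0 := fun f hf => hxJ _ (by rwa [← hJφ] at hf)
        obtain ⟨hφr, θ, hθ, hθg⟩ := id hφ
        let z : {j : Fin (n - 1) // h ≤ j + 1} → Ob K := fun j =>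
          x (φ (vv p H (j.1 + 1)) - vv p H (j.1 + 1))
        have hzm : ∀ j, z j ∈ Ideal.span {π} ^ (p ^ h) ^ m := fun j => by
          have := Ideal.mem_map_of_mem x (S.stab_sub_mem hδ hφ hm1 hh hn.le (vv p H (j.1 + 1)))
          rw [Ideal.map_sup, Ideal.map_pow] at this
          have hle' : Ideal.map x (heightIdeal p n H h) ⊔ Ideal.map x (mE p n) ^ (p ^ h) ^ m ≤
              Ideal.span {π} ^ (p ^ h) ^ m := by
            refine sup_le (Ideal.map_le_iff_le_comap.2 fun f hf => ?_)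
              (Ideal.pow_right_mono (Ideal.map_le_iff_le_comap.2 hxm) _)
            rw [Ideal.mem_comap, hxJ f (hI hf)]
            exact Ideal.zero_mem _
          exact hle' this
        have hz1 : ∀ j, z j ∈ Ideal.span {π} := fun j =>
          Ideal.pow_le_self (pow_ne_zero _ (pow_ne_zero_p p h)) (hzm j)
        have hzN : ∀ j, z j ∈ Nil (Ob K) := fun j => hle (hz1 j)
        have hzn : ∀ j, ‖(z j : K)‖ ≤ ρ ^ (p ^ h) ^ m := fun j =>
          norm_le_of_mem_pow hρ0 (fun a ha => (mem_span_iff_norm.1 ha).trans (le_max_left _ _))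
            (hzm j)
        have hev : (evHom z hzN).comp xz = x.comp φ.toRingHom := by
          refine (S.hom_ext (x := x.comp φ.toRingHom) (fun f hf => hxN _ ?_) (fun w => ?_)
            fun j => ?_).symm
          · exact (DFunLike.congr_fun hφr f).trans hf
          · have : φ (C w) = C w := φ.commutes w
            simp [h1, this, hxC]
          · by_cases hj : h ≤ j + 1
            · have := uu_coe (Ob K) ⟨j, hj⟩
              simp only at this
              simp [h2, this, z, hc]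
            · have h4 := hJφ' _ (hI (vv_mem_heightIdeal (not_le.1 hj)))
              simp [h2, hc0 j (not_le.1 hj), uu_of_lt _ (not_le.1 hj), h4]
        have e1 : (H.map xz).map (evHom z hzN) = (H.map φ.toRingHom).map x := by
          rw [fg_map_map, fg_map_map, hev]
        have hθ' : IsFGHom ((H.map xz).map (evHom z hzN)) ((H.map xz).map constantCoeff)
            (PowerSeries.map x θ) := by
          rw [e1, e2]
          exact IsFGHom.map hθ x
        have hu : IsUnit (PowerSeries.coeff 1 (PowerSeries.map x θ)) := by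
          rw [PowerSeries.coeff_map]
          exact (isUnit_theta hg hθg).map x
        let πz : Pt (Γ.map ι) →+ Pt ((H.map xz).map (evHom z hzN)) :=
          (Pt.map (evHom z hzN) (mapsNil_evHom hzN) rfl).comp cov
        have hπz : ∀ y, (πz y).1 = ev (cov y).1 z := fun y => evHom_apply hzN _
        have horb : ∀ y, Pt.hom hθ' (πz y) = π₀ y + p ^ m • π₀ (endOf ι hδ y) := fun y => by
          ext1
          rw [Pt.hom_val, hπz, orbit hdef hpπ (div_M S.hΓ ι).2 hx hred cov hcov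
            (isFGHom_gm hδ m) hθ hθg hz1 hzN hev, ← map_nsmul, ← map_add, hπ₀]
          exact congrArg (fun t => constantCoeff (cov t).1) (hom_gm ι hδ m y)
        have hbij := Pt.hom_bijective hθ' hu
        choose Λ' hΛ' using fun i => hbij.2 (π₀ (endOf ι hδ (y i)))
        refine ⟨z, fun i => (Λ' i).1, fun _ => ⟨?_, fun i => ⟨hzn i, ?_, ?_⟩⟩⟩
        · rw [← evHom_apply hzN]
          exact (DFunLike.congr_fun hev f).trans (hJφ' f hf)
        · obtain ⟨u, hu'⟩ := hbij.2 (π₀ (endOf ι hδ (endOf ι hδ (y i))))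
          have h4 : πz (endOf ι hδ (y i)) = Λ' i + p ^ m • u := hbij.1 (by
            rw [horb, map_add, map_nsmul, hΛ', hu'])
          have h5 : ‖(u.1 : K)‖ ≤ ρ := by
            rw [← norm_hom_eq hθ' hu, hu']
            exact hbd _ (mul_mem he he) i
          have h6 : ‖((p ^ m • u).1 : K)‖ ≤ ρ ^ (p ^ h) ^ m :=
            (norm_pow_nsmul_le _ (constantCoeff_map_eq_zero _ hw0) (hwm _) m u).trans
              (pow_le_pow_left₀ (norm_nonneg _) h5 _)
          have h7 := (mem_span_iff_norm.1 (Pt.add_val_sub_left_mem (Λ' i) (p ^ m • u))).trans h6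
          rw [← h4, hπz] at h7
          have h8 := norm_le_of_mem_span_range (N := 1) (pow_nonneg hρ0 _) hzn
            (by rw [pow_one]; exact ev_sub_constantCoeff_mem hzN (cov (endOf ι hδ (y i))).1)
          rw [pow_one] at h8
          have e3 : ((Λ' i).1 : K) - (π₀ (endOf ι hδ (y i))).1 =
              ((ev (cov (endOf ι hδ (y i))).1 z - constantCoeff (cov (endOf ι hδ (y i))).1 :
                Ob K) : K) - ((ev (cov (endOf ι hδ (y i))).1 z - (Λ' i).1 : Ob K) : K) := by
            rw [hπ₀]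
            push_cast
            ring
          rw [e3, sub_eq_add_neg]
          exact (IsUltrametricDist.norm_add_le_max _ _).trans (max_le h8 (by rwa [norm_neg]))
        · have h4 : πz (y i) = p ^ m • Λ' i := hbij.1 (by
            rw [horb, map_nsmul, hΛ', show π₀ (y i) = 0 from Pt.ext (hy0 i), zero_add])
          rw [← hπz, h4, nsmul_val_pz _ hw hzN rfl]
      choose z Λ' hz using key
      exact hFz ρ hρ0 hρ1 z Λ' _ (hbd _ he) ((eventually_ge_atTop _).mono hz))
  exact ⟨xz, c, π, cov, y, τ, hτ, T, s, N, φ, hφ, h1, h2, hπ, hcN, hcov', hy0, hy, fun _ => rfl,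
    (hom_surjective hh hHh hτ hτ1 hdiv).comp hsurj, hφs, fun e he => hrel _ ⟨e, he, fun _ => rfl⟩⟩

end Crest.Agent.R227
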