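import Crest.Agent.R227.Asym
import Crest.Agent.R227.Phi

/-! Row 227 (S0351), module `STAux`: the formal construction of Serre-Tate coordinates and the
ring of bounded sequences. -/

set_option autoImplicit false
set_option linter.unusedSectionVars false
set_option linter.style.haveILetI false

namespace Crest.Agent.R227

open MvPowerSeries Filter Asymptotics

theorem psmap_map {R S T : Type*} [CommRing R] [CommRing S] [CommRing T] (φ : R →+* S)
    (ψ : S →+* T) (f : PowerSeries R) :
    PowerSeries.map ψ (PowerSeries.map φ f) = PowerSeries.map (ψ.comp φ) f := by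
  ext; simp

instance charP_mv {R σ : Type*} [CommRing R] (p : ℕ) [CharP R p] : CharP (MvPowerSeries σ R) p :=
  charP_of_injective_ringHom (C_injective (σ := σ) (R := R)) p

/-- Evaluation commutes with a homomorphism out of the ring of sequences. -/
theorem cl_ev {O A R τ : Type*} [CommRing O] [Adic O] [CommRing A] [Adic A] [CommRing R]
    [Finite τ] (cl : (ℕ → O) →+* A) (c : ℕ → R →+* O) {a : τ → ℕ → O}
    (ha : ∀ m i, a i m ∈ Nil O) (ha' : ∀ i, cl (a i) ∈ Nil A) (Φ : MvPowerSeries τ R) :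
    cl (fun m => ev (MvPowerSeries.map (c m) Φ) fun i => a i m) =
      ev (MvPowerSeries.map (cl.comp (RingHom.pi c)) Φ) fun i => cl (a i) := by
  have : cl.comp (RingHom.pi fun m => (evHom _ (ha m)).comp (MvPowerSeries.map (c m))) =
      (evHom _ ha').comp (MvPowerSeries.map (cl.comp (RingHom.pi c))) := by
    have hX : ∀ i, RingHom.pi (fun m => (evHom _ (ha m)).comp (MvPowerSeries.map (c m))) (X i) =
      a i := fun i => funext fun m => by simp
    refine hom_ext (fun i => by simpa [hX] using ha' i) (fun r => ?_) fun i => by simp [hX]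
    simp only [RingHom.comp_apply, map_C, evHom_C]
    congr 1
    funext m
    simp
  have h := DFunLike.congr_fun this Φ
  simp only [RingHom.comp_apply, evHom_apply] at h
  rw [← h]
  congr 1
  funext m
  simp [evHom_apply]

section formal

variable {p : ℕ} [Fact p.Prime] {O K : Type*} [CommRing O] [Field K] [CharP O p] [CharP K p]
  {σ : Type*} [Fintype σ] [DecidableEq σ]

variable (p) in
/-- Base change followed by a power of the Frobenius. -/
noncomputable def frobMap (ι : O →+* K) (e : ℕ) : MvPowerSeries σ O →+* MvPowerSeries σ K :=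
  (iterateFrobenius (MvPowerSeries σ K) p e).comp (MvPowerSeries.map ι)

theorem frobMap_apply (ι : O →+* K) (e : ℕ) (g : MvPowerSeries σ O) :
    frobMap p ι e g = MvPowerSeries.map ι g ^ p ^ e := rfl

theorem exists_ST_formal {ι : O →+* K} (hι : Function.Injective ι) {h : ℕ} (hh : 1 ≤ h)
    {w : PowerSeries (MvPowerSeries σ O)} (hw0 : PowerSeries.constantCoeff w = 0)
    (hw1 : constantCoeff (PowerSeries.coeff 1 w) ≠ 0) {τ : PowerSeries O}
    (hτ0 : PowerSeries.constantCoeff τ = 0) (hτ1 : PowerSeries.coeff 1 τ ≠ 0)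
    (hτ : PowerSeries.subst (PowerSeries.map (constantCoeff : MvPowerSeries σ O →+* O) w)
      τ = PowerSeries.map (iterateFrobenius O p h) τ)
    {Ψ : σ → MvPowerSeries σ O} (hΨ0 : ∀ i, constantCoeff (Ψ i) = 0)
    (hΨ : (Matrix.of fun i j => coeff (Finsupp.single j 1) (Ψ i)).det ≠ 0) :
    letI := Adic.discrete K
    ∃ (s : σ → ℕ → MvPowerSeries σ K) (ST : σ → MvPowerSeries σ K),
      (∀ i, s i 0 = MvPowerSeries.map ι (Ψ i)) ∧ (∀ i j, s i j ∈ Nil (MvPowerSeries σ K)) ∧
      (∀ j, IsUnit (frobMap p ι (h * j) (PowerSeries.coeff 1 w))) ∧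
      (∀ i j, ev1 (PowerSeries.map (frobMap p ι (h * j)) w) (s i (j + 1)) = s i j) ∧
      (∀ i j, ST i - ev1 (PowerSeries.map ((frobMap p ι (h * j)).comp C) τ) (s i j) ∈
        Ideal.span (Set.range (X : σ → MvPowerSeries σ K)) ^ (j + 2)) ∧
      HasSubst ST ∧ Function.Bijective (subst ST : MvPowerSeries σ K → MvPowerSeries σ K) := by
  letI := Adic.discrete K
  have hm : Ideal.span (Set.range (X : σ → MvPowerSeries σ K)) = idl _ := span_range_X
  have hN : ∀ {g : MvPowerSeries σ K}, g ∈ Nil (MvPowerSeries σ K) → g ∈ idl _ := fun hg =>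
    (mem_Nil_discrete.1 (mem_Nil_mv.1 hg)).eq_zero
  have hu : ∀ j, IsUnit (frobMap p ι (h * j) (PowerSeries.coeff 1 w)) := fun j => by
    rw [frobMap_apply]
    refine IsUnit.pow _ (isUnit_iff_constantCoeff.2 (Ne.isUnit ?_))
    rw [constantCoeff_map]
    exact (map_ne_zero_iff ι hι).2 hw1
  have h1 : ∀ j, ∀ x : Nil (MvPowerSeries σ K), ∃ t : Nil (MvPowerSeries σ K),
      ev1 (PowerSeries.map (frobMap p ι (h * j)) w) t.1 = x.1 := fun j x => by
    obtain ⟨t, ht, ht'⟩ := exists_ev1_eq_of_unit (f := PowerSeries.map (frobMap p ι (h * j)) w)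
      (by rw [ps_constantCoeff_map, hw0, map_zero]; exact Ideal.zero_mem _) (by simpa using hu j)
      x.2
    exact ⟨⟨t, ht⟩, ht'⟩
  choose g hg using h1
  let s : σ → ℕ → Nil (MvPowerSeries σ K) := fun i j => Nat.rec
    ⟨MvPowerSeries.map ι (Ψ i), mem_Nil_of_constantCoeff (by simp [hΨ0])⟩ g j
  have hs : ∀ i j, ev1 (PowerSeries.map (frobMap p ι (h * j)) w) (s i (j + 1)).1 = (s i j).1 :=
    fun i j => hg j _
  let x : σ → ℕ → MvPowerSeries σ K := fun i j =>
    ev1 (PowerSeries.map ((frobMap p ι (h * j)).comp C) τ) (s i j).1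
  have hx : ∀ i j, x i (j + 1) - x i j ∈ idl (MvPowerSeries σ K) ^ (j + 2) := by
    intro i j
    have e1 : (frobMap p ι (h * (j + 1))).comp (C : O →+* MvPowerSeries σ O) =
        ((frobMap p ι (h * j)).comp C).comp (iterateFrobenius O p h) := RingHom.ext fun r => by
      simp only [RingHom.comp_apply, frobMap_apply, iterateFrobenius_def, map_pow, ← pow_mul,
        ← pow_add]
      congr 2
    have hw0' : PowerSeries.constantCoeff
        (PowerSeries.map (constantCoeff : MvPowerSeries σ O →+* O) w) = 0 := by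
      rw [ps_constantCoeff_map, hw0, map_zero]
    have ht := (s i (j + 1)).2
    simp only [x]
    rw [e1, ← psmap_map _ ((frobMap p ι (h * j)).comp C), ← hτ, ev1_map_subst _ hw0' _ ht, ← hs i j]
    refine ev1_sub_ev1_mem (ev1_mem_Nil' ht (by rw [ps_constantCoeff_map, hw0', map_zero]))
      (ev1_mem_Nil' ht (by rw [ps_constantCoeff_map, hw0, map_zero])) ?_ _
    obtain ⟨w', rfl⟩ := PowerSeries.X_dvd_iff.2 hw0
    simp only [map_mul, PowerSeries.map_X, ev1_mul, ev1_X ht, ← mul_sub]
    rw [pow_succ']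
    refine Ideal.mul_mem_mul (hN ht) (ev1_congr_mod (isDef_idl.closed_pow _) ht ht (fun n => ?_)
      (by simp))
    simp only [PowerSeries.coeff_map, RingHom.comp_apply, frobMap_apply, ← sub_pow_char_pow]
    refine Ideal.pow_le_pow_right ?_ (Ideal.pow_mem_pow (hN (mem_Nil_of_constantCoeff ?_)) _)
    · exact (Nat.lt_pow_self (Fact.out : p.Prime).one_lt).trans_le
        (Nat.pow_le_pow_right (Fact.out : p.Prime).pos (Nat.le_mul_of_pos_left j hh))
    · simp
  have hl : ∀ i, ∃ y, ∀ j, y - x i j ∈ idl (MvPowerSeries σ K) ^ (j + 2) := fun i => by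
    obtain ⟨y, hy⟩ := isDef_idl.exists_lim (fun j => x i (j - 1)) fun j => by
      rcases j with _ | j
      · simp
      · exact hx i j
    exact ⟨y, fun j => hy (j + 1)⟩
  choose ST hST using hl
  have h2 : ∀ i, ST i - C (ι (PowerSeries.coeff 1 τ)) * MvPowerSeries.map ι (Ψ i) ∈
      Ideal.span (Set.range (X : σ → MvPowerSeries σ K)) ^ 2 := fun i => by
    obtain ⟨c, hc⟩ := exists_ev1_eq (s i 0).2
      (PowerSeries.map ((frobMap p ι (h * 0)).comp C) τ)
    have h3 := Ideal.add_mem _ (hST i 0)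
      (Ideal.mul_mem_right c _ (Ideal.pow_mem_pow (hN (s i 0).2) 2))
    simp only [x, hc, ps_constantCoeff_map, hτ0, map_zero] at h3
    rw [hm]
    convert h3 using 1
    simp [frobMap_apply, s]
    ring
  have h0 : ∀ i, constantCoeff (ST i) = 0 := fun i => by
    simpa [hΨ0] using (mem_span_X_pow_iff _ _).1 (h2 i) 0 (by simp)
  rw [← hm] at hST
  refine ⟨fun i j => (s i j).1, ST, fun _ => rfl, fun i j => (s i j).2, hu, hs, hST,
    hasSubst_of_constantCoeff_zero h0, subst_bijective ST h0 (Ne.isUnit ?_)⟩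
  have h3 : (Matrix.of fun i j => coeff (Finsupp.single j 1) (ST i)) = ι (PowerSeries.coeff 1 τ) •
      ι.mapMatrix (Matrix.of fun i j => coeff (Finsupp.single j 1) (Ψ i)) := by
    ext i j
    simpa [sub_eq_zero] using (mem_span_X_pow_iff _ _).1 (h2 i) (Finsupp.single j 1) (by simp)
  rw [h3, Matrix.det_smul, ← RingHom.map_det]
  exact mul_ne_zero (pow_ne_zero _ ((map_ne_zero_iff ι hι).2 hτ1)) ((map_ne_zero_iff ι hι).2 hΨ)

end formal

section bdd

variable {K : Type*} [NontriviallyNormedField K] [VF K]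

variable (K) in
/-- Bounded sequences. -/
def Bdd : Subring (ℕ → K) where
  carrier := {b | b =O[atTop] fun _ => (1 : ℝ)}
  mul_mem' ha hb := by simpa using IsBigO.mul ha hb
  one_mem' := isBigO_const_const (1 : K) one_ne_zero _
  add_mem' := IsBigO.add
  zero_mem' := isBigO_zero _ _
  neg_mem' := IsBigO.neg_left

variable (K) in
/-- Sequences dominated by `g`. -/
def Dom (g : ℕ → ℝ) : Ideal (Bdd K) where
  carrier := {b | b.1 =O[atTop] g}
  add_mem' := IsBigO.add
  zero_mem' := isBigO_zero _ _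
  smul_mem' c _ hb := (IsBigO.mul c.2 hb).congr_right fun _ => one_mul _

/-- A `K`-algebra receiving the integral sequences and killing exactly what is `O(g)`. -/
theorem exists_seq_ring (g : ℕ → ℝ) : ∃ (κ : K →+* Bdd K ⧸ Dom K g)
    (cl : (ℕ → Ob K) →+* Bdd K ⧸ Dom K g), (∀ o : Ob K, cl (fun _ => o) = κ o) ∧
    (∀ b, (∀ᶠ m in atTop, ‖(b m : K)‖ ≤ g m) → cl b = 0) ∧
    ∀ {σ : Type*} (a : σ → ℕ → Ob K) (P : MvPolynomial σ K),
      P.eval₂ κ (fun i => cl (a i)) = 0 →
        (fun m => MvPolynomial.eval (fun i => (a i m : K)) P) =O[atTop] g := by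
  let κ : K →+* Bdd K := (Pi.constRingHom ℕ K).codRestrict _ fun c =>
    isBigO_const_const c one_ne_zero _
  let cl : (ℕ → Ob K) →+* Bdd K := ((Ob K).subtype.compLeft ℕ).codRestrict _ fun b =>
    IsBigO.of_bound' (Eventually.of_forall fun m => by simpa using norm_Ob_le (b m))
  refine ⟨(Ideal.Quotient.mk _).comp κ, (Ideal.Quotient.mk _).comp cl, fun _ => rfl,
    fun b hb => Ideal.Quotient.eq_zero_iff_mem.2 (IsBigO.of_bound' (hb.mono fun m hm =>
      hm.trans (le_abs_self _))), fun a P h => ?_⟩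
  simp only [RingHom.comp_apply] at h
  rw [← MvPolynomial.hom_eval₂, Ideal.Quotient.eq_zero_iff_mem] at h
  convert (show _ =O[atTop] g from h) using 1
  funext m
  exact (MvPolynomial.hom_eval₂ P κ ((Pi.evalRingHom _ m).comp (Bdd K).subtype)
    fun i => cl (a i)).symm

end bdd

end Crest.Agent.R227
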